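import Vale.Agent.P065.MathlibUsed
import Vale.Agent.P065.PointSet
import Vale.Agent.P065.KSetDefs

set_option linter.all false

section

section

section

/-!
P065: weighted configurations of lines `y = m x + t` with marked (used) halving vertices.
Support definitions for the product construction (not a hand-in file).
-/

namespace Vale.Agent.P065

/-- integer valued sign -/
noncomputable def sg (x : ℝ) : ℤ := if 0 < x then 1 else if x < 0 then -1 else 0

/-- A weighted configuration of lines with used vertices. Line `k` is `y = m k * x + t k`, it has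
weight `w k` and a slope unit `σ k` (zero for lines which are never used).  The used vertex `v` is
the point `(x v, y v)`, the crossing of the thin line `q v` and of the thick line `p v`. -/
structure Cfg (ι υ : Type) where
  m : ι → ℝ
  t : ι → ℝ
  w : ι → ℕ
  σ : ι → ℝ
  q : υ → ι
  p : υ → ι
  x : υ → ℝ
  y : υ → ℝ

namespace Cfg

variable {ι υ : Type}

/-- height of line `k` above the used vertex `v` -/
def H (C : Cfg ι υ) (v : υ) (k : ι) : ℝ := C.m k * C.x v + C.t k - C.y v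

/-- slope difference thick minus thin at the used vertex `v` -/
def Δ (C : Cfg ι υ) (v : υ) : ℝ := C.m (C.p v) - C.m (C.q v)

/-- total weight -/
def wt [Fintype ι] (C : Cfg ι υ) : ℕ := ∑ k, C.w k

open scoped Classical in
/-- number of used vertices for which the line `k` is the thin line -/
noncomputable def deg [Fintype υ] (C : Cfg ι υ) (k : ι) : ℕ :=
  (Finset.univ.filter (fun v => C.q v = k)).card

/-- all used vertices are halving vertices, and no line is thin for one used vertex and thick for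
another one -/
structure Good [Fintype ι] (C : Cfg ι υ) : Prop where
  on_q : ∀ v, C.H v (C.q v) = 0
  on_p : ∀ v, C.H v (C.p v) = 0
  ne : ∀ v, C.Δ v ≠ 0
  w_q : ∀ v, C.w (C.q v) = 1
  w_p : ∀ v, C.w (C.p v) = 1
  bip : ∀ v v', C.q v ≠ C.p v'
  inj : ∀ v v', C.q v = C.q v' → C.p v = C.p v' → v = v'
  off : ∀ v k, k ≠ C.q v → k ≠ C.p v → C.H v k ≠ 0
  bal : ∀ v, ∑ k, (C.w k : ℤ) * sg (C.H v k) = 0

/-- quantitative clearances: `r` horizontal clearance, `S` spread of slope differences,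
`T` tolerance -/
structure Quant (C : Cfg ι υ) (r S T : ℝ) : Prop where
  σ_nonneg : ∀ k, 0 ≤ C.σ k
  σ_pos : ∀ v, 0 < C.σ (C.q v)
  σ_eq : ∀ v, C.σ (C.p v) = C.σ (C.q v)
  lo : ∀ v, C.σ (C.q v) ≤ |C.Δ v|
  hi : ∀ v, |C.Δ v| ≤ S * C.σ (C.q v)
  h1 : ∀ v k, k ≠ C.q v → k ≠ C.p v → r * |C.m k - C.m (C.q v)| ≤ |C.H v k|
  h2 : ∀ v k, k ≠ C.q v → k ≠ C.p v → r * C.σ (C.q v) ≤ |C.H v k|
  h3 : ∀ v k, k ≠ C.q v → k ≠ C.p v → r * C.σ k ≤ |C.H v k|
  tol : ∀ v v', C.q v' ≠ C.q v → |C.Δ v'| * |C.x v - C.x v'| ≤ T * |C.H v (C.q v')|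

/-- bound for all slopes, intercepts and slope units -/
structure Bdd (C : Cfg ι υ) (B : ℝ) : Prop where
  m : ∀ k, |C.m k| ≤ B
  t : ∀ k, |C.t k| ≤ B
  σ : ∀ k, C.σ k ≤ B

end Cfg

/-- A gadget: a configuration `L` in hat coordinates together with vertical steep lines at
abscissas `oQ b` (above the points to their left) and `-oP b` (above the points to their
right). -/
structure Gad (κ ν βQ βP : Type) where
  L : Cfg κ ν
  oQ : βQ → ℝ
  wQ : βQ → ℕ
  oP : βP → ℝ
  wP : βP → ℕ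

/-- all requirements on a gadget: `R` bounds all coordinates, `ρ` is the horizontal distance from
used vertices to steep lines, `1/Γ` is the vertical distance from used vertices to other lines,
`2A`, `2A'`, `2g` are the total weights of the Q-lines, of the P-lines and of `L` -/
structure Gad.Ok {κ ν βQ βP : Type} [Fintype κ] [Fintype βQ] [Fintype βP]
    (G : Gad κ ν βQ βP) (R ρ Γ : ℝ) (A A' g : ℕ) : Prop where
  R1 : 1 ≤ R
  ρ0 : 0 < ρ
  ρ1 : ρ ≤ 1
  Γ1 : 1 ≤ Γ
  on_q : ∀ v, G.L.H v (G.L.q v) = 0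
  on_p : ∀ v, G.L.H v (G.L.p v) = 0
  w_q : ∀ v, G.L.w (G.L.q v) = 1
  w_p : ∀ v, G.L.w (G.L.p v) = 1
  bip : ∀ v v', G.L.q v ≠ G.L.p v'
  inj : ∀ v v', G.L.q v = G.L.q v' → G.L.p v = G.L.p v' → v = v'
  lo : ∀ v, 1 / 2 ≤ |G.L.Δ v|
  mb : ∀ j, |G.L.m j| ≤ R
  tb : ∀ j, |G.L.t j| ≤ R
  xb : ∀ v, |G.L.x v| ≤ R
  yb : ∀ v, |G.L.y v| ≤ R
  off : ∀ v j, j ≠ G.L.q v → j ≠ G.L.p v → 1 ≤ Γ * |G.L.H v j|
  oQb : ∀ b, |G.oQ b| ≤ R
  oPb : ∀ b, |G.oP b| ≤ R
  sepQ : ∀ v b, ρ ≤ |G.oQ b - G.L.x v|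
  sepP : ∀ v b, ρ ≤ |G.L.x v + G.oP b|
  bal : ∀ v, ∑ j, (G.L.w j : ℤ) * sg (G.L.H v j) + ∑ b, (G.wQ b : ℤ) * sg (G.oQ b - G.L.x v)
    + ∑ b, (G.wP b : ℤ) * sg (G.L.x v + G.oP b) = 0
  sumQ : ∑ b, G.wQ b = 2 * A
  sumP : ∑ b, G.wP b = 2 * A'
  le : A' ≤ A
  sumL : ∑ j, G.L.w j = 2 * g

/-- Real configuration with parameters: total weight `N`, degree at most `d`, `V` used vertices,
clearances `r S T`, slope units of used lines at least `s`, coordinates bounded by `B`. -/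
def RC (N d V : ℕ) (r S T s B : ℝ) : Prop :=
  ∃ (ι υ : Type) (_ : Fintype ι) (_ : Fintype υ) (C : Cfg ι υ),
    C.Good ∧ C.Quant r S T ∧ C.Bdd B ∧ (∀ k, C.deg k ≤ d) ∧ C.wt = N ∧ Fintype.card υ = V ∧
    (∀ v, s ≤ C.σ (C.q v))

/-- Configuration with centered integer slopes `a` (at most `A` in absolute value), total weight
`2 * h`, degree at most `d`, `V` used vertices, all coordinates bounded by `B`, vertical
clearance `1/Γ`. -/
def IC (h d V A : ℕ) (B Γ : ℝ) : Prop :=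
  ∃ (ι υ : Type) (_ : Fintype ι) (_ : Fintype υ) (C : Cfg ι υ) (a : ι → ℤ),
    C.Good ∧ (∀ k, C.m k = a k) ∧ (∀ k, |a k| ≤ (A : ℤ)) ∧ (∑ k, (C.w k : ℤ) * a k = 0) ∧
    (∀ k, |C.t k| ≤ B) ∧ (∀ v, |C.x v| ≤ B) ∧ (∀ v, |C.y v| ≤ B) ∧
    (∀ v k, k ≠ C.q v → k ≠ C.p v → 1 ≤ Γ * |C.H v k|) ∧
    (∀ k, C.deg k ≤ d) ∧ C.wt = 2 * h ∧ Fintype.card υ = V

end Vale.Agent.P065
end
end
end

section

section

section

/-!
P065: insertion of a gadget into a configuration: definition, height formulas, estimates, balance,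
quantitative invariants.  (One module on purpose.)
-/

/-!
P065: insertion of a gadget into a configuration, definition and height formulas.
-/

namespace Vale.Agent.P065

/-! ### the sign function -/

theorem sg_of_pos {x : ℝ} (h : 0 < x) : sg x = 1 := by simp [sg, h]

theorem sg_of_neg {x : ℝ} (h : x < 0) : sg x = -1 := by simp [sg, h, not_lt.2 h.le]

@[simp] theorem sg_zero : sg 0 = 0 := by simp [sg]

theorem sg_mul_pos {c x : ℝ} (hc : 0 < c) : sg (c * x) = sg x := by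
  rcases lt_trichotomy x 0 with h | h | h
  · rw [sg_of_neg h, sg_of_neg (mul_neg_of_pos_of_neg hc h)]
  · simp [h]
  · rw [sg_of_pos h, sg_of_pos (mul_pos hc h)]

theorem sg_neg (x : ℝ) : sg (-x) = -sg x := by
  rcases lt_trichotomy x 0 with h | h | h
  · rw [sg_of_neg h, sg_of_pos (by linarith only [h])]; norm_num
  · simp [h]
  · rw [sg_of_pos h, sg_of_neg (by linarith)]

theorem sg_mul_neg {c x : ℝ} (hc : c < 0) : sg (c * x) = -sg x := by
  have : c * x = -((-c) * x) := by ring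
  rw [this, sg_neg, sg_mul_pos (by linarith)]

/-- a number close to `b` has the sign of `b` -/
theorem sg_of_close {a b : ℝ} (hb : b ≠ 0) (h : |a - b| ≤ |b| / 2) : sg a = sg b := by
  rcases lt_or_gt_of_ne hb with hb' | hb'
  · rw [abs_of_neg hb'] at h
    have := (abs_le.1 h).2
    rw [sg_of_neg hb', sg_of_neg (by linarith only [hb', this])]
  · rw [abs_of_pos hb'] at h
    have := (abs_le.1 h).1
    rw [sg_of_pos hb', sg_of_pos (by linarith only [hb', this])]

theorem abs_ge_of_close {a b c : ℝ} (h : |a - b| ≤ c) : |b| - c ≤ |a| := by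
  have h1 : |b| ≤ |a| + |a - b| := by
    have h2 : b = a - (a - b) := by ring
    calc |b| = |a - (a - b)| := by rw [← h2]
      _ ≤ |a| + |a - b| := abs_sub _ _
  linarith

/-! ### the inserted configuration -/

variable {ι υ κ ν βQ βP : Type}

/-- `k` is the thin line of some used vertex -/
def Cfg.Thin (C : Cfg ι υ) (k : ι) : Prop := ∃ v, C.q v = k

/-- `k` is the thick line of some used vertex -/
def Cfg.Thick (C : Cfg ι υ) (k : ι) : Prop := ∃ v, C.p v = k

open scoped Classical in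
/-- offsets of the parallel copies of line `k` (in units of `ε * σ k`) -/
noncomputable def insOff (C : Cfg ι υ) (G : Gad κ ν βQ βP) (θ R : ℝ) (k : ι) :
    βQ ⊕ (βP ⊕ Bool) → ℝ
  | Sum.inl b => if C.Thin k then θ * G.oQ b else 4 * R
  | Sum.inr (Sum.inl b) => if C.Thick k then (1 - θ) * G.oP b else 4 * R
  | Sum.inr (Sum.inr true) => 4 * R
  | Sum.inr (Sum.inr false) => -(4 * R)

open scoped Classical in
/-- weights of the parallel copies of line `k` -/
noncomputable def insWt [Fintype υ] (C : Cfg ι υ) (G : Gad κ ν βQ βP) (A A' g d : ℕ) (k : ι) :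
    βQ ⊕ (βP ⊕ Bool) → ℕ
  | Sum.inl b => if C.Thin k then G.wQ b else 0
  | Sum.inr (Sum.inl b) => if C.Thick k then G.wP b else 0
  | Sum.inr (Sum.inr _) => if C.Thin k then 2 * g * (d - C.deg k) else
      if C.Thick k then (A + 2 * g * d) - A' else (A + 2 * g * d) * C.w k

/-- slope coefficients of the satellite lines -/
noncomputable def satC (G : Gad κ ν βQ βP) (η : ℝ) : κ ⊕ Bool → ℝ
  | Sum.inl j => 1 + η * G.L.m j
  | Sum.inr _ => -1

/-- offsets of the satellite lines -/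
noncomputable def satF (G : Gad κ ν βQ βP) (η R : ℝ) : κ ⊕ Bool → ℝ
  | Sum.inl j => η * G.L.t j
  | Sum.inr true => 4 * R
  | Sum.inr false => -(4 * R)

/-- weights of the satellite lines -/
def satW (G : Gad κ ν βQ βP) (g : ℕ) : κ ⊕ Bool → ℕ
  | Sum.inl j => G.L.w j
  | Sum.inr _ => g

/-- slope units of the satellite lines -/
noncomputable def satσ (C : Cfg ι υ) (θ η : ℝ) (u : υ) : κ ⊕ Bool → ℝ
  | Sum.inl _ => θ * η * |C.Δ u| / 2
  | Sum.inr _ => 0

/-- unit of length at the used vertex `u` -/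
noncomputable def Cfg.e (C : Cfg ι υ) (ε : ℝ) (u : υ) : ℝ := ε * C.σ (C.q u)

/-- insertion of the gadget `G` at all used vertices of `C` -/
noncomputable def ins [Fintype υ] (C : Cfg ι υ) (G : Gad κ ν βQ βP) (θ η ε R : ℝ)
    (A A' g d : ℕ) : Cfg ((ι × (βQ ⊕ (βP ⊕ Bool))) ⊕ (υ × (κ ⊕ Bool))) (υ × ν) where
  m := Sum.elim (fun k => C.m k.1) (fun u => C.m (C.q u.1) + θ * C.Δ u.1 * satC G η u.2)
  t := Sum.elim (fun k => C.t k.1 + ε * C.σ k.1 * insOff C G θ R k.1 k.2)
    (fun u => C.y u.1 + θ * C.e ε u.1 * satF G η R u.2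
      - (C.m (C.q u.1) + θ * C.Δ u.1 * satC G η u.2) * C.x u.1)
  w := Sum.elim (fun k => insWt C G A A' g d k.1 k.2) (fun u => satW G g u.2)
  σ := Sum.elim (fun _ => 0) (fun u => satσ C θ η u.1 u.2)
  q := fun v => Sum.inr (v.1, Sum.inl (G.L.q v.2))
  p := fun v => Sum.inr (v.1, Sum.inl (G.L.p v.2))
  x := fun v => C.x v.1 + C.e ε v.1 / C.Δ v.1 * G.L.x v.2
  y := fun v => C.y v.1 + (C.m (C.q v.1) + θ * C.Δ v.1) * (C.e ε v.1 / C.Δ v.1 * G.L.x v.2)
    + θ * η * C.e ε v.1 * G.L.y v.2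

section formulas

variable [Fintype ι] [Fintype υ] {C : Cfg ι υ} {G : Gad κ ν βQ βP} {θ η ε R : ℝ} {A A' g d : ℕ}

omit [Fintype ι] in
/-- height of the old line `k` at the new vertex `v`, relative to the height at the old vertex -/
theorem ins_H_inl (v : υ × ν) (k : ι) (b : βQ ⊕ (βP ⊕ Bool)) :
    (ins C G θ η ε R A A' g d).H v (Sum.inl (k, b)) =
      C.H v.1 k + (C.m k - C.m (C.q v.1) - θ * C.Δ v.1) * (C.e ε v.1 / C.Δ v.1 * G.L.x v.2)
        - θ * η * C.e ε v.1 * G.L.y v.2 + ε * C.σ k * insOff C G θ R k b := by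
  simp only [ins, Cfg.H, Sum.elim_inl]
  ring

/-- height of a satellite at a new vertex -/
theorem ins_H_inr (hC : C.Good) (v : υ × ν) (u : υ) (j : κ ⊕ Bool) :
    (ins C G θ η ε R A A' g d).H v (Sum.inr (u, j)) =
      C.H v.1 (C.q u)
        + (C.m (C.q u) - C.m (C.q v.1) - θ * C.Δ v.1) * (C.e ε v.1 / C.Δ v.1 * G.L.x v.2)
        - θ * η * C.e ε v.1 * G.L.y v.2
        + θ * satC G η j * (C.Δ u * (C.x v.1 - C.x u)
          + C.Δ u * (C.e ε v.1 / C.Δ v.1 * G.L.x v.2))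
        + θ * C.e ε u * satF G η R j := by
  have h := hC.on_q u
  simp only [Cfg.H] at h
  simp only [ins, Cfg.H, Sum.elim_inr]
  linear_combination -h

omit [Fintype υ] in
/-- the height difference formula at an old vertex -/
theorem Cfg.Good.H_p (hC : C.Good) {u0 u : υ} (h : C.q u = C.q u0) :
    C.H u0 (C.p u) = C.Δ u * (C.x u0 - C.x u) := by
  have h1 := hC.on_q u
  have h2 := hC.on_p u
  have h3 := hC.on_q u0
  simp only [Cfg.H, Cfg.Δ] at *
  rw [h] at h1 ⊢
  linear_combination h2 - h1 + h3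

/-- heights of the copies of the thin line at its own vertex -/
theorem ins_H_thin (hC : C.Good) (v : υ × ν) (b : βQ ⊕ (βP ⊕ Bool)) :
    (ins C G θ η ε R A A' g d).H v (Sum.inl (C.q v.1, b)) =
      C.e ε v.1 * (insOff C G θ R (C.q v.1) b - θ * (G.L.x v.2 + η * G.L.y v.2)) := by
  rw [ins_H_inl, hC.on_q]
  have h := hC.ne v.1
  have h2 : (C.m (C.q v.1) - C.m (C.q v.1) - θ * C.Δ v.1) * (C.e ε v.1 / C.Δ v.1 * G.L.x v.2)
      = - θ * (C.e ε v.1 * G.L.x v.2) := by
    field_simp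
    ring
  rw [h2]
  simp only [Cfg.e]
  ring

/-- heights of the copies of the thick line at its own vertex -/
theorem ins_H_thick (hC : C.Good) (hσ : ∀ v, C.σ (C.p v) = C.σ (C.q v)) (v : υ × ν)
    (b : βQ ⊕ (βP ⊕ Bool)) :
    (ins C G θ η ε R A A' g d).H v (Sum.inl (C.p v.1, b)) =
      C.e ε v.1 * (insOff C G θ R (C.p v.1) b + (1 - θ) * G.L.x v.2 - θ * (η * G.L.y v.2)) := by
  rw [ins_H_inl, hC.on_p, hσ]
  have h := hC.ne v.1
  have h2 : (C.m (C.p v.1) - C.m (C.q v.1) - θ * C.Δ v.1) * (C.e ε v.1 / C.Δ v.1 * G.L.x v.2)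
      = (1 - θ) * (C.e ε v.1 * G.L.x v.2) := by
    have h3 : C.m (C.p v.1) - C.m (C.q v.1) = C.Δ v.1 := rfl
    rw [h3]
    field_simp
  rw [h2]
  simp only [Cfg.e]
  ring

/-- heights of the own satellites -/
theorem ins_H_own (hC : C.Good) (v : υ × ν) (j : κ ⊕ Bool) :
    (ins C G θ η ε R A A' g d).H v (Sum.inr (v.1, j)) =
      θ * C.e ε v.1 * ((satC G η j - 1) * G.L.x v.2 + satF G η R j - η * G.L.y v.2) := by
  rw [ins_H_inr hC, hC.on_q]
  have h := hC.ne v.1
  have h2 : (C.m (C.q v.1) - C.m (C.q v.1) - θ * C.Δ v.1) * (C.e ε v.1 / C.Δ v.1 * G.L.x v.2)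
      = - θ * (C.e ε v.1 * G.L.x v.2) := by
    field_simp
    ring
  have h3 : C.Δ v.1 * (C.e ε v.1 / C.Δ v.1 * G.L.x v.2) = C.e ε v.1 * G.L.x v.2 := by
    (clear * - h; field_simp)
  rw [h2, h3]
  ring

/-- heights of the gadget lines at their own vertices -/
theorem ins_H_gad (hC : C.Good) (v : υ × ν) (j : κ) :
    (ins C G θ η ε R A A' g d).H v (Sum.inr (v.1, Sum.inl j)) =
      θ * η * C.e ε v.1 * G.L.H v.2 j := by
  rw [ins_H_own hC]
  simp only [satC, satF, Cfg.H]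
  ring

end formulas

end Vale.Agent.P065

/-!
P065: insertion of a gadget into a configuration, estimates.
-/

namespace Vale.Agent.P065

/-- relations between the parameters of an insertion -/
structure Par (R ρ r S T θ η ε : ℝ) : Prop where
  R1 : 1 ≤ R
  ρ0 : 0 < ρ
  ρ1 : ρ ≤ 1
  r0 : 0 < r
  S1 : 1 ≤ S
  T1 : 1 ≤ T
  θ0 : 0 < θ
  θT : θ * T = 1 / 16
  η0 : 0 < η
  ηR : η * R = ρ / 4
  ε0 : 0 < ε
  εR : 64 * S * (ε * R) = r

namespace Par

variable {R ρ r S T θ η ε : ℝ}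

theorem θ1 (P : Par R ρ r S T θ η ε) : θ ≤ 1 / 16 := by
  have := P.θT
  have := P.T1
  have := P.θ0
  nlinarith

theorem εR' (P : Par R ρ r S T θ η ε) : ε * R ≤ r / 64 := by
  have := P.εR
  have := P.S1
  have h : 0 < ε * R := mul_pos P.ε0 (lt_of_lt_of_le one_pos P.R1)
  nlinarith

theorem ε_le (P : Par R ρ r S T θ η ε) : ε ≤ r / 64 := by
  have h := P.εR'
  have h1 := P.R1
  have h2 := P.ε0
  nlinarith

theorem SεR (P : Par R ρ r S T θ η ε) : S * (ε * R) = r / 64 := by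
  have := P.εR
  linarith

end Par

theorem abs_mul_le_mul {a b x y : ℝ} (ha : |a| ≤ x) (hb : |b| ≤ y) : |a * b| ≤ x * y := by
  rw [abs_mul]
  exact mul_le_mul ha hb (abs_nonneg _) (le_trans (abs_nonneg _) ha)

variable {ι υ κ ν βQ βP : Type}

section est

variable [Fintype ι] [Fintype υ] [Fintype κ] [Fintype βQ] [Fintype βP]
  {C : Cfg ι υ} {G : Gad κ ν βQ βP} {R ρ Γ r S T θ η ε : ℝ} {A A' g d : ℕ}

omit [Fintype ι] [Fintype υ] in
theorem e_pos (P : Par R ρ r S T θ η ε) (hQ : C.Quant r S T) (u : υ) : 0 < C.e ε u :=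
  mul_pos P.ε0 (hQ.σ_pos u)

omit [Fintype ι] [Fintype υ] in
theorem Δ_pos (hQ : C.Quant r S T) (u : υ) : 0 < |C.Δ u| :=
  lt_of_lt_of_le (hQ.σ_pos u) (hQ.lo u)

omit [Fintype ι] [Fintype υ] in
theorem e_div_le (P : Par R ρ r S T θ η ε) (hQ : C.Quant r S T) (u : υ) :
    |C.e ε u / C.Δ u| ≤ ε := by
  rw [abs_div, div_le_iff₀ (Δ_pos hQ u), abs_of_pos (e_pos P hQ u)]
  exact mul_le_mul_of_nonneg_left (hQ.lo u) P.ε0.le

omit [Fintype ι] [Fintype υ] in
/-- the horizontal displacement inside the gadget region -/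
theorem dx_le (P : Par R ρ r S T θ η ε) (hQ : C.Quant r S T) (hG : G.Ok R ρ Γ A A' g)
    (v : υ × ν) : |C.e ε v.1 / C.Δ v.1 * G.L.x v.2| ≤ ε * R :=
  abs_mul_le_mul (e_div_le P hQ v.1) (hG.xb v.2)

omit [Fintype ι] [Fintype υ] in
theorem off_le (P : Par R ρ r S T θ η ε) (hG : G.Ok R ρ Γ A A' g) (k : ι)
    (b : βQ ⊕ (βP ⊕ Bool)) : |insOff C G θ R k b| ≤ 4 * R := by
  have hR := P.R1
  have h4 : |4 * R| ≤ 4 * R := by rw [abs_of_pos (by linarith)]
  have h4' : |-(4 * R)| ≤ 4 * R := by rw [abs_neg, abs_of_pos (by linarith only [hR])]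
  have hθ := P.θ1
  have hθ0 := P.θ0
  rcases b with b | b | b | b
  · simp only [insOff]
    split_ifs
    · have := abs_mul_le_mul (a := θ) (b := G.oQ b) (x := 1) (y := R)
        (by rw [abs_of_pos hθ0]; linarith only [hθ]) (hG.oQb b)
      linarith only [hR, this]
    · exact h4
  · simp only [insOff]
    split_ifs
    · have := abs_mul_le_mul (a := 1 - θ) (b := G.oP b) (x := 1) (y := R)
        (by rw [abs_of_pos (by linarith only [hθ])]; linarith only [hθ0]) (hG.oPb b)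
      linarith only [hR, this]
    · exact h4
  · exact h4'
  · exact h4

theorem satC_le (P : Par R ρ r S T θ η ε) (hG : G.Ok R ρ Γ A A' g) (j : κ ⊕ Bool) :
    |satC G η j| ≤ 5 / 4 := by
  have h := P.ηR
  have h1 := P.ρ1
  rcases j with j | j
  · have := abs_mul_le_mul (a := η) (b := G.L.m j) (x := η) (y := R)
      (by rw [abs_of_pos P.η0]) (hG.mb j)
    simp only [satC]
    have h2 := abs_add_le (1 : ℝ) (η * G.L.m j)
    rw [abs_one] at h2
    linarith
  · simp only [satC, abs_neg, abs_one]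
    norm_num

theorem satC_ge (P : Par R ρ r S T θ η ε) (hG : G.Ok R ρ Γ A A' g) (j : κ ⊕ Bool) :
    3 / 4 ≤ |satC G η j| := by
  have h := P.ηR
  have h1 := P.ρ1
  rcases j with j | j
  · have := abs_mul_le_mul (a := η) (b := G.L.m j) (x := η) (y := R)
      (by rw [abs_of_pos P.η0]) (hG.mb j)
    simp only [satC]
    have h2 := (abs_le.1 this).1
    have h3 := le_abs_self (1 + η * G.L.m j)
    linarith
  · simp only [satC, abs_neg, abs_one]
    norm_num

theorem satC_inl_pos (P : Par R ρ r S T θ η ε) (hG : G.Ok R ρ Γ A A' g) (j : κ) :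
    0 < satC G η (Sum.inl j) := by
  have h := P.ηR
  have h1 := P.ρ1
  have := abs_mul_le_mul (a := η) (b := G.L.m j) (x := η) (y := R)
      (by rw [abs_of_pos P.η0]) (hG.mb j)
  simp only [satC]
  have h2 := (abs_le.1 this).1
  linarith only [h, h1, h2]

theorem satF_le (P : Par R ρ r S T θ η ε) (hG : G.Ok R ρ Γ A A' g) (j : κ ⊕ Bool) :
    |satF G η R j| ≤ 4 * R := by
  have h := P.ηR
  have h1 := P.ρ1
  have hR := P.R1
  rcases j with j | j | j
  · have := abs_mul_le_mul (a := η) (b := G.L.t j) (x := η) (y := R)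
      (by rw [abs_of_pos P.η0]) (hG.tb j)
    simp only [satF]
    linarith
  · simp only [satF]
    rw [abs_neg, abs_of_pos (by linarith only [hR])]
  · simp only [satF]
    rw [abs_of_pos (by linarith only [hR])]

omit [Fintype ι] [Fintype υ] in
/-- vertical displacement inside the gadget region -/
theorem dy_le (P : Par R ρ r S T θ η ε) (hQ : C.Quant r S T) (hG : G.Ok R ρ Γ A A' g)
    (v : υ × ν) : |θ * η * C.e ε v.1 * G.L.y v.2| ≤ θ * (C.e ε v.1 * (1 / 4)) := by
  have h := P.ηR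
  have h1 := P.ρ1
  have h2 := abs_mul_le_mul (a := η) (b := G.L.y v.2) (x := η) (y := R)
      (by rw [abs_of_pos P.η0]) (hG.yb v.2)
  have h3 := e_pos P hQ v.1
  have h4 : θ * η * C.e ε v.1 * G.L.y v.2 = θ * (C.e ε v.1 * (η * G.L.y v.2)) := by ring
  rw [h4, abs_mul, abs_mul, abs_of_pos P.θ0, abs_of_pos h3]
  apply mul_le_mul_of_nonneg_left _ P.θ0.le
  apply mul_le_mul_of_nonneg_left _ h3.le
  linarith

omit [Fintype ι] [Fintype υ] in
/-- far groups, base estimate: the old line itself moves by at most `h / 32` -/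
theorem far_base (P : Par R ρ r S T θ η ε) (hQ : C.Quant r S T) (hG : G.Ok R ρ Γ A A' g)
    (v : υ × ν) (k : ι) (hk : k ≠ C.q v.1) (hk' : k ≠ C.p v.1) :
    |(C.m k - C.m (C.q v.1) - θ * C.Δ v.1) * (C.e ε v.1 / C.Δ v.1 * G.L.x v.2)
        - θ * η * C.e ε v.1 * G.L.y v.2| ≤ |C.H v.1 k| / 32 := by
  have a1 := hQ.h1 v.1 k hk hk'
  have a2 := hQ.h2 v.1 k hk hk'
  have a4 := hQ.hi v.1
  have σ0 := hQ.σ_pos v.1
  have S1 := P.S1
  have θ0 := P.θ0
  have θ1 := P.θ1
  have hSε := P.SεR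
  have hεR := P.εR'
  have hε := P.ε_le
  have r0 := P.r0
  have εR0 : 0 < ε * R := mul_pos P.ε0 (lt_of_lt_of_le one_pos P.R1)
  have b1 := dx_le P hQ hG v
  have b2 := dy_le P hQ hG v
  have b3 : |C.m k - C.m (C.q v.1) - θ * C.Δ v.1| ≤ |C.m k - C.m (C.q v.1)| + θ * |C.Δ v.1| := by
    have := abs_sub (C.m k - C.m (C.q v.1)) (θ * C.Δ v.1)
    rwa [abs_mul, abs_of_pos θ0] at this
  have b4 := abs_mul_le_mul b3 b1
  -- first product
  have c1 : |C.m k - C.m (C.q v.1)| * (ε * R) ≤ |C.H v.1 k| / 64 := by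
    have : |C.m k - C.m (C.q v.1)| * (ε * R) ≤ |C.m k - C.m (C.q v.1)| * (r / 64) :=
      mul_le_mul_of_nonneg_left hεR (abs_nonneg _)
    linarith only [a1, this]
  have c2 : |C.Δ v.1| * (ε * R) ≤ |C.H v.1 k| / 64 := by
    have h1 : |C.Δ v.1| * (ε * R) ≤ S * C.σ (C.q v.1) * (ε * R) :=
      mul_le_mul_of_nonneg_right a4 εR0.le
    have h2 : S * C.σ (C.q v.1) * (ε * R) = C.σ (C.q v.1) * (S * (ε * R)) := by ring
    rw [h2, hSε] at h1
    linarith only [a2, h1]
  have c3 : C.e ε v.1 ≤ |C.H v.1 k| / 64 := by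
    have : C.e ε v.1 ≤ r / 64 * C.σ (C.q v.1) := mul_le_mul_of_nonneg_right hε σ0.le
    linarith only [a2, this]
  have hH := abs_nonneg (C.H v.1 k)
  have c4 : θ * (|C.Δ v.1| * (ε * R)) ≤ 1 / 16 * (|C.H v.1 k| / 64) :=
    mul_le_mul θ1 c2 (by (clear * - εR0; positivity)) (by norm_num)
  have c5 : θ * (C.e ε v.1 * (1 / 4)) ≤ 1 / 16 * (|C.H v.1 k| / 64) :=
    mul_le_mul θ1 (by linarith only [c3, hH]) (by have := e_pos P hQ v.1; (clear * - this; positivity)) (by norm_num)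
  have c6 := abs_sub ((C.m k - C.m (C.q v.1) - θ * C.Δ v.1) *
    (C.e ε v.1 / C.Δ v.1 * G.L.x v.2)) (θ * η * C.e ε v.1 * G.L.y v.2)
  have c7 : (|C.m k - C.m (C.q v.1)| + θ * |C.Δ v.1|) * (ε * R)
      = |C.m k - C.m (C.q v.1)| * (ε * R) + θ * (|C.Δ v.1| * (ε * R)) := by ring
  linarith only [b2, b4, c1, hH, c4, c5, c6]

omit [Fintype ι] in
/-- far groups: parallel copies -/
theorem far_inl (P : Par R ρ r S T θ η ε) (hQ : C.Quant r S T) (hG : G.Ok R ρ Γ A A' g)
    (v : υ × ν) (k : ι) (b : βQ ⊕ (βP ⊕ Bool)) (hk : k ≠ C.q v.1) (hk' : k ≠ C.p v.1) :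
    |(ins C G θ η ε R A A' g d).H v (Sum.inl (k, b)) - C.H v.1 k| ≤ |C.H v.1 k| / 4 := by
  rw [ins_H_inl]
  have h1 := far_base P hQ hG v k hk hk'
  have h2 := off_le (C := C) P hG k b
  have h3 : |ε * C.σ k * insOff C G θ R k b| ≤ |C.H v.1 k| / 16 := by
    have a3 := hQ.h3 v.1 k hk hk'
    have hσ := hQ.σ_nonneg k
    have h4 := abs_mul_le_mul (a := ε * C.σ k) (x := ε * C.σ k)
      (by rw [abs_of_nonneg (mul_nonneg P.ε0.le hσ)]) h2
    have h5 : ε * C.σ k * (4 * R) = 4 * ((ε * R) * C.σ k) := by ring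
    have h6 : (ε * R) * C.σ k ≤ r / 64 * C.σ k := mul_le_mul_of_nonneg_right P.εR' hσ
    linarith only [a3, h4, h6]
  have h4 := abs_add_le ((C.m k - C.m (C.q v.1) - θ * C.Δ v.1) *
    (C.e ε v.1 / C.Δ v.1 * G.L.x v.2) - θ * η * C.e ε v.1 * G.L.y v.2)
    (ε * C.σ k * insOff C G θ R k b)
  have h5 := abs_nonneg (C.H v.1 k)
  have h6 : C.H v.1 k + (C.m k - C.m (C.q v.1) - θ * C.Δ v.1) *
      (C.e ε v.1 / C.Δ v.1 * G.L.x v.2) - θ * η * C.e ε v.1 * G.L.y v.2
      + ε * C.σ k * insOff C G θ R k b - C.H v.1 k = (C.m k - C.m (C.q v.1) - θ * C.Δ v.1) *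
    (C.e ε v.1 / C.Δ v.1 * G.L.x v.2) - θ * η * C.e ε v.1 * G.L.y v.2 +
    (ε * C.σ k * insOff C G θ R k b) := by ring
  rw [h6]
  linarith only [h1, h3, h4, h5]

/-- far groups: satellites -/
theorem far_inr (P : Par R ρ r S T θ η ε) (hC : C.Good) (hQ : C.Quant r S T)
    (hG : G.Ok R ρ Γ A A' g) (v : υ × ν) (u : υ) (j : κ ⊕ Bool) (hk : C.q u ≠ C.q v.1) :
    |(ins C G θ η ε R A A' g d).H v (Sum.inr (u, j)) - C.H v.1 (C.q u)|
      ≤ |C.H v.1 (C.q u)| / 4 := by
  rw [ins_H_inr hC]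
  have hk' : C.q u ≠ C.p v.1 := hC.bip u v.1
  have h1 := far_base P hQ hG v (C.q u) hk hk'
  have hH := abs_nonneg (C.H v.1 (C.q u))
  have a2 := hQ.h3 v.1 (C.q u) hk hk'
  have a4 := hQ.hi u
  have σ0 := hQ.σ_pos u
  have θ0 := P.θ0
  have θ1 := P.θ1
  have hSε := P.SεR
  have εR0 : 0 < ε * R := mul_pos P.ε0 (lt_of_lt_of_le one_pos P.R1)
  have tol := hQ.tol v.1 u hk
  have b1 : |C.Δ u * (C.x v.1 - C.x u)| ≤ T * |C.H v.1 (C.q u)| := by rw [abs_mul]; exact tol
  have b2 : |C.Δ u * (C.e ε v.1 / C.Δ v.1 * G.L.x v.2)| ≤ |C.H v.1 (C.q u)| / 64 := by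
    have h2 := abs_mul_le_mul (a := C.Δ u) a4 (dx_le P hQ hG v)
    have h3 : S * C.σ (C.q u) * (ε * R) = C.σ (C.q u) * (S * (ε * R)) := by ring
    rw [h3, hSε] at h2
    linarith only [a2, h2]
  have b3 := abs_add_le (C.Δ u * (C.x v.1 - C.x u)) (C.Δ u * (C.e ε v.1 / C.Δ v.1 * G.L.x v.2))
  have b4 : |θ * satC G η j| ≤ θ * (5 / 4) := by
    rw [abs_mul, abs_of_pos θ0]
    exact mul_le_mul_of_nonneg_left (satC_le P hG j) θ0.le
  have b5 := abs_mul_le_mul b4 (le_trans b3 (add_le_add b1 b2))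
  have b6 : θ * (5 / 4) * (T * |C.H v.1 (C.q u)| + |C.H v.1 (C.q u)| / 64)
      = 5 / 4 * ((θ * T) * |C.H v.1 (C.q u)|) + θ * (5 / 256 * |C.H v.1 (C.q u)|) := by ring
  rw [P.θT] at b6
  have b7 : θ * (5 / 256 * |C.H v.1 (C.q u)|) ≤ 1 / 16 * (5 / 256 * |C.H v.1 (C.q u)|) :=
    mul_le_mul_of_nonneg_right θ1 (by (clear * -; positivity))
  have b8 : |θ * C.e ε u * satF G η R j| ≤ |C.H v.1 (C.q u)| / 64 := by
    have e0 := e_pos P hQ u
    have h2 := abs_mul_le_mul (a := θ * C.e ε u) (x := θ * C.e ε u)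
      (by rw [abs_of_pos (mul_pos θ0 e0)]) (satF_le P hG j)
    have h3 : θ * C.e ε u * (4 * R) = θ * (4 * ((ε * R) * C.σ (C.q u))) := by
      simp only [Cfg.e]; ring
    have h4 : (ε * R) * C.σ (C.q u) ≤ r / 64 * C.σ (C.q u) :=
      mul_le_mul_of_nonneg_right P.εR' σ0.le
    have h5 : 4 * ((ε * R) * C.σ (C.q u)) ≤ |C.H v.1 (C.q u)| / 16 := by linarith only [a2, h4]
    have h6 : θ * (4 * ((ε * R) * C.σ (C.q u))) ≤ 1 / 16 * (|C.H v.1 (C.q u)| / 16) :=
      mul_le_mul θ1 h5 (by (clear * - εR0 σ0; positivity)) (by norm_num)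
    linarith only [hH, h2, h3, h6]
  set E := (C.m (C.q u) - C.m (C.q v.1) - θ * C.Δ v.1) *
    (C.e ε v.1 / C.Δ v.1 * G.L.x v.2) - θ * η * C.e ε v.1 * G.L.y v.2 with hE
  set E2 := θ * satC G η j * (C.Δ u * (C.x v.1 - C.x u)
          + C.Δ u * (C.e ε v.1 / C.Δ v.1 * G.L.x v.2)) with hE2
  set E3 := θ * C.e ε u * satF G η R j with hE3
  have h6 : C.H v.1 (C.q u) + (C.m (C.q u) - C.m (C.q v.1) - θ * C.Δ v.1) *
      (C.e ε v.1 / C.Δ v.1 * G.L.x v.2) - θ * η * C.e ε v.1 * G.L.y v.2 + E2 + E3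
      - C.H v.1 (C.q u) = E + E2 + E3 := by rw [hE]; ring
  rw [h6]
  have b9 := abs_add_three E E2 E3
  linarith only [hH, b6, b7, h1, b5, b8, b9]

/-- other satellites of the same thin line -/
theorem near_inr (P : Par R ρ r S T θ η ε) (hC : C.Good) (hQ : C.Quant r S T)
    (hG : G.Ok R ρ Γ A A' g) (v : υ × ν) (u : υ) (j : κ ⊕ Bool) (hk : C.q u = C.q v.1)
    (hu : u ≠ v.1) :
    |(ins C G θ η ε R A A' g d).H v (Sum.inr (u, j))
        - θ * satC G η j * (C.Δ u * (C.x v.1 - C.x u))|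
      ≤ θ * (|C.Δ u * (C.x v.1 - C.x u)| / 4) := by
  rw [ins_H_inr hC]
  have hp : C.p u ≠ C.p v.1 := fun h => hu (hC.inj u v.1 hk h)
  have hp' : C.p u ≠ C.q v.1 := fun h => hC.bip v.1 u h.symm
  have a2 := hQ.h2 v.1 (C.p u) hp' hp
  rw [hC.H_p hk] at a2
  rw [hk, hC.on_q v.1]
  set h' := |C.Δ u * (C.x v.1 - C.x u)| with hh'
  have hh0 : 0 ≤ h' := abs_nonneg _
  have σ0 := hQ.σ_pos v.1
  have θ0 := P.θ0
  have hSε := P.SεR
  have εR0 : 0 < ε * R := mul_pos P.ε0 (lt_of_lt_of_le one_pos P.R1)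
  have b0 := dx_le P hQ hG v
  have b1 : |C.Δ v.1 * (C.e ε v.1 / C.Δ v.1 * G.L.x v.2)| ≤ h' / 64 := by
    have h2 := abs_mul_le_mul (a := C.Δ v.1) (hQ.hi v.1) b0
    have h3 : S * C.σ (C.q v.1) * (ε * R) = C.σ (C.q v.1) * (S * (ε * R)) := by ring
    rw [h3, hSε] at h2
    linarith only [a2, h2]
  have b2 : |C.Δ u * (C.e ε v.1 / C.Δ v.1 * G.L.x v.2)| ≤ h' / 64 := by
    have h2 := abs_mul_le_mul (a := C.Δ u) (hQ.hi u) b0
    have h3 : S * C.σ (C.q u) * (ε * R) = C.σ (C.q u) * (S * (ε * R)) := by ring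
    rw [h3, hSε, hk] at h2
    linarith only [a2, h2]
  have b3 : |θ * η * C.e ε v.1 * G.L.y v.2| ≤ θ * (h' / 64) := by
    refine le_trans (dy_le P hQ hG v) (mul_le_mul_of_nonneg_left ?_ θ0.le)
    have : C.e ε v.1 ≤ r / 64 * C.σ (C.q v.1) := mul_le_mul_of_nonneg_right P.ε_le σ0.le
    linarith only [a2, hh0, this]
  have b4 : |satC G η j * (C.Δ u * (C.e ε v.1 / C.Δ v.1 * G.L.x v.2))| ≤ 5 / 4 * (h' / 64) :=
    abs_mul_le_mul (satC_le P hG j) b2
  have b5 : |C.e ε u * satF G η R j| ≤ 4 * (h' / 64) := by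
    have e0 := e_pos P hQ u
    have h2 := abs_mul_le_mul (a := C.e ε u) (x := C.e ε u)
      (by rw [abs_of_pos e0]) (satF_le P hG j)
    have h3 : C.e ε u * (4 * R) = 4 * ((ε * R) * C.σ (C.q u)) := by
      simp only [Cfg.e]; ring
    have h4 : (ε * R) * C.σ (C.q u) ≤ r / 64 * C.σ (C.q u) :=
      mul_le_mul_of_nonneg_right P.εR' (by rw [hk]; exact σ0.le)
    rw [hk] at h4 h3
    linarith only [a2, h2, h3, h4]
  set dx := C.e ε v.1 / C.Δ v.1 * G.L.x v.2 with hdx
  set dy := θ * η * C.e ε v.1 * G.L.y v.2 with hdy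
  have h6 : 0 + (C.m (C.q v.1) - C.m (C.q v.1) - θ * C.Δ v.1) * dx - dy
        + θ * satC G η j * (C.Δ u * (C.x v.1 - C.x u) + C.Δ u * dx)
        + θ * C.e ε u * satF G η R j - θ * satC G η j * (C.Δ u * (C.x v.1 - C.x u))
      = θ * (-(C.Δ v.1 * dx) + satC G η j * (C.Δ u * dx) + C.e ε u * satF G η R j) - dy := by
    ring
  rw [h6]
  have b6 := abs_add_three (-(C.Δ v.1 * dx)) (satC G η j * (C.Δ u * dx))
    (C.e ε u * satF G η R j)
  rw [abs_neg] at b6
  have b7 := abs_sub (θ * (-(C.Δ v.1 * dx) + satC G η j * (C.Δ u * dx)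
    + C.e ε u * satF G η R j)) dy
  rw [abs_mul, abs_of_pos θ0] at b7
  have b8 : θ * |-(C.Δ v.1 * dx) + satC G η j * (C.Δ u * dx) + C.e ε u * satF G η R j|
      ≤ θ * (h' / 64 + 5 / 4 * (h' / 64) + 4 * (h' / 64)) :=
    mul_le_mul_of_nonneg_left (by linarith only [b5, b1, b4, b6]) θ0.le
  have b9 : θ * (h' / 64 + 5 / 4 * (h' / 64) + 4 * (h' / 64)) + θ * (h' / 64)
      = θ * (29 / 256 * h') := by ring
  have b10 : θ * (29 / 256 * h') ≤ θ * (h' / 4) :=
    mul_le_mul_of_nonneg_left (by linarith only [hh0]) θ0.le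
  linarith only [b3, b7, b8, b10]

omit [Fintype υ] in
/-- the old height `|Δ u (x v - x u)|` on the same thin line is at least `r σ` -/
theorem near_lower (hC : C.Good) (hQ : C.Quant r S T) (u u0 : υ) (hk : C.q u = C.q u0)
    (hu : u ≠ u0) : r * C.σ (C.q u0) ≤ |C.Δ u * (C.x u0 - C.x u)| := by
  have hp : C.p u ≠ C.p u0 := fun h => hu (hC.inj u u0 hk h)
  have hp' : C.p u ≠ C.q u0 := fun h => hC.bip u0 u h.symm
  have a2 := hQ.h2 u0 (C.p u) hp' hp
  rwa [hC.H_p hk] at a2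

/-- lower bound for the height of other satellites of the same thin line -/
theorem near_ge (P : Par R ρ r S T θ η ε) (hC : C.Good) (hQ : C.Quant r S T)
    (hG : G.Ok R ρ Γ A A' g) (v : υ × ν) (u : υ) (j : κ ⊕ Bool) (hk : C.q u = C.q v.1)
    (hu : u ≠ v.1) :
    θ * (|C.Δ u * (C.x v.1 - C.x u)| / 2) ≤
      |(ins C G θ η ε R A A' g d).H v (Sum.inr (u, j))| := by
  have h1 := near_inr (d := d) P hC hQ hG v u j hk hu
  have h2 := abs_ge_of_close h1
  have h3 := satC_ge P hG j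
  rw [abs_mul, abs_mul, abs_of_pos P.θ0] at h2
  have h4 : θ * (3 / 4) * |C.Δ u * (C.x v.1 - C.x u)|
      ≤ θ * |satC G η j| * |C.Δ u * (C.x v.1 - C.x u)| :=
    mul_le_mul_of_nonneg_right (mul_le_mul_of_nonneg_left h3 P.θ0.le) (abs_nonneg _)
  linarith only [h2, h4]

/-- sign of other satellites of the same thin line -/
theorem near_sg (P : Par R ρ r S T θ η ε) (hC : C.Good) (hQ : C.Quant r S T)
    (hG : G.Ok R ρ Γ A A' g) (v : υ × ν) (u : υ) (j : κ ⊕ Bool) (hk : C.q u = C.q v.1)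
    (hu : u ≠ v.1) :
    sg ((ins C G θ η ε R A A' g d).H v (Sum.inr (u, j))) =
      sg (satC G η j * (C.Δ u * (C.x v.1 - C.x u))) := by
  have h1 := near_inr (d := d) P hC hQ hG v u j hk hu
  have h3 := satC_ge P hG j
  have h4 := near_lower hC hQ u v.1 hk hu
  have h5 : 0 < |C.Δ u * (C.x v.1 - C.x u)| :=
    lt_of_lt_of_le (mul_pos P.r0 (hQ.σ_pos v.1)) h4
  rw [← sg_mul_pos (x := satC G η j * (C.Δ u * (C.x v.1 - C.x u))) P.θ0, ← mul_assoc]
  apply sg_of_close
  · rw [← abs_pos, abs_mul, abs_mul, abs_of_pos P.θ0]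
    have h6 : 0 < |satC G η j| := by linarith only [h3]
    exact mul_pos (mul_pos P.θ0 h6) h5
  · refine le_trans h1 ?_
    rw [abs_mul (θ * satC G η j), abs_mul θ, abs_of_pos P.θ0]
    have : θ * (3 / 4) * |C.Δ u * (C.x v.1 - C.x u)|
      ≤ θ * |satC G η j| * |C.Δ u * (C.x v.1 - C.x u)| :=
      mul_le_mul_of_nonneg_right (mul_le_mul_of_nonneg_left h3 P.θ0.le) (abs_nonneg _)
    have h6 : 0 ≤ θ * |C.Δ u * (C.x v.1 - C.x u)| := mul_nonneg P.θ0.le (abs_nonneg _)
    linarith only [this, h6]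

theorem ηY_le (P : Par R ρ r S T θ η ε) (hG : G.Ok R ρ Γ A A' g) (v : ν) :
    |η * G.L.y v| ≤ ρ / 4 := by
  have h2 := abs_mul_le_mul (a := η) (b := G.L.y v) (x := η) (y := R)
      (by rw [abs_of_pos P.η0]) (hG.yb v)
  rwa [P.ηR] at h2

/-! own group, thin line -/

omit [Fintype υ] in
theorem Cfg.Good.not_thick (hC : C.Good) (u : υ) : ¬ C.Thick (C.q u) := by
  rintro ⟨v, hv⟩
  exact hC.bip u v hv.symm

omit [Fintype υ] in
theorem Cfg.Good.not_thin (hC : C.Good) (u : υ) : ¬ C.Thin (C.p u) := by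
  rintro ⟨v, hv⟩
  exact hC.bip v u hv

theorem thin_inl (P : Par R ρ r S T θ η ε) (hC : C.Good) (hQ : C.Quant r S T)
    (hG : G.Ok R ρ Γ A A' g) (v : υ × ν) (b : βQ) :
    sg ((ins C G θ η ε R A A' g d).H v (Sum.inl (C.q v.1, Sum.inl b))) =
      sg (G.oQ b - G.L.x v.2) ∧
    θ * C.e ε v.1 * (ρ / 2) ≤
      |(ins C G θ η ε R A A' g d).H v (Sum.inl (C.q v.1, Sum.inl b))| := by
  have hthin : C.Thin (C.q v.1) := ⟨v.1, rfl⟩
  have e0 := e_pos P hQ v.1
  have h1 : (ins C G θ η ε R A A' g d).H v (Sum.inl (C.q v.1, Sum.inl b))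
      = θ * C.e ε v.1 * ((G.oQ b - G.L.x v.2) - η * G.L.y v.2) := by
    rw [ins_H_thin hC]
    simp only [insOff, if_pos hthin]
    ring
  have h2 := ηY_le P hG v.2
  have h3 := hG.sepQ v.2 b
  have h4 : |(G.oQ b - G.L.x v.2) - η * G.L.y v.2 - (G.oQ b - G.L.x v.2)| ≤ ρ / 4 := by
    rw [show (G.oQ b - G.L.x v.2) - η * G.L.y v.2 - (G.oQ b - G.L.x v.2) = -(η * G.L.y v.2) by
      ring, abs_neg]
    exact h2
  have hρ := P.ρ0
  have h5 : 0 < θ * C.e ε v.1 := mul_pos P.θ0 e0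
  rw [h1]
  constructor
  · rw [sg_mul_pos h5]
    apply sg_of_close
    · rw [← abs_pos]; linarith only [h3, hρ]
    · linarith only [h3, h4, hρ]
  · rw [abs_mul, abs_of_pos h5]
    apply mul_le_mul_of_nonneg_left _ h5.le
    have := abs_ge_of_close h4
    linarith only [h3, hρ, this]

theorem thin_P (P : Par R ρ r S T θ η ε) (hC : C.Good) (hQ : C.Quant r S T)
    (hG : G.Ok R ρ Γ A A' g) (v : υ × ν) (b : βP) :
    θ * C.e ε v.1 * (ρ / 2) ≤
      |(ins C G θ η ε R A A' g d).H v (Sum.inl (C.q v.1, Sum.inr (Sum.inl b)))| := by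
  have hthick := hC.not_thick v.1
  have e0 := e_pos P hQ v.1
  rw [ins_H_thin hC]
  simp only [insOff, if_neg hthick]
  rw [abs_mul, abs_of_pos e0]
  have h2 := ηY_le P hG v.2
  have h3 := hG.xb v.2
  have hρ := P.ρ1
  have hρ0 := P.ρ0
  have hR := P.R1
  have θ0 := P.θ0
  have θ1 := P.θ1
  have h4 := abs_add_le (G.L.x v.2) (η * G.L.y v.2)
  have h5 : |θ * (G.L.x v.2 + η * G.L.y v.2)| ≤ 1 / 16 * (R + ρ / 4) :=
    abs_mul_le_mul (by rw [abs_of_pos θ0]; exact θ1) (by linarith only [h2, h3, h4])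
  have h6 := (abs_le.1 h5).2
  have h7 : R ≤ 4 * R - θ * (G.L.x v.2 + η * G.L.y v.2) := by linarith only [hρ, hR, h6]
  have h8 := le_trans h7 (le_abs_self _)
  have h9 : θ * (ρ / 2) ≤ 1 := by nlinarith only [θ0, θ1, hρ]
  have h10 : θ * C.e ε v.1 * (ρ / 2) = C.e ε v.1 * (θ * (ρ / 2)) := by ring
  rw [h10]
  exact mul_le_mul_of_nonneg_left (by linarith only [hR, h8, h9]) e0.le

theorem thin_pad (P : Par R ρ r S T θ η ε) (hC : C.Good) (hQ : C.Quant r S T)
    (hG : G.Ok R ρ Γ A A' g) (v : υ × ν) (b : Bool) :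
    sg ((ins C G θ η ε R A A' g d).H v (Sum.inl (C.q v.1, Sum.inr (Sum.inr b)))) =
      (if b then 1 else -1) ∧
    θ * C.e ε v.1 * (ρ / 2) ≤
      |(ins C G θ η ε R A A' g d).H v (Sum.inl (C.q v.1, Sum.inr (Sum.inr b)))| := by
  have e0 := e_pos P hQ v.1
  have h2 := ηY_le P hG v.2
  have h3 := hG.xb v.2
  have hρ := P.ρ1
  have hρ0 := P.ρ0
  have hR := P.R1
  have θ0 := P.θ0
  have θ1 := P.θ1
  have h4 := abs_add_le (G.L.x v.2) (η * G.L.y v.2)
  have h5 : |θ * (G.L.x v.2 + η * G.L.y v.2)| ≤ 1 / 16 * (R + ρ / 4) :=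
    abs_mul_le_mul (by rw [abs_of_pos θ0]; exact θ1) (by linarith)
  have h6 := abs_le.1 h5
  have h9 : θ * (ρ / 2) ≤ 1 := by nlinarith only [θ0, θ1, hρ]
  have h10 : θ * C.e ε v.1 * (ρ / 2) = C.e ε v.1 * (θ * (ρ / 2)) := by ring
  rw [ins_H_thin hC, sg_mul_pos e0, abs_mul, abs_of_pos e0, h10]
  rcases b with _ | _
  · simp only [insOff]
    have h7 : -(4 * R) - θ * (G.L.x v.2 + η * G.L.y v.2) ≤ - R := by linarith only [hρ, hR, h6]
    refine ⟨sg_of_neg (by linarith only [hρ, hR, h6]), mul_le_mul_of_nonneg_left ?_ e0.le⟩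
    rw [abs_of_neg (by linarith only [hρ, hR, h6])]
    linarith only [hρ, hR, h6, h9]
  · simp only [insOff]
    have h7 : R ≤ 4 * R - θ * (G.L.x v.2 + η * G.L.y v.2) := by linarith only [hρ, hR, h6]
    refine ⟨sg_of_pos (by linarith only [hρ, hR, h6]), mul_le_mul_of_nonneg_left ?_ e0.le⟩
    rw [abs_of_pos (by linarith only [hρ, hR, h6])]
    linarith only [hρ, hR, h6, h9]

/-! own group, thick line -/

theorem thick_Q (P : Par R ρ r S T θ η ε) (hC : C.Good) (hQ : C.Quant r S T)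
    (hG : G.Ok R ρ Γ A A' g) (v : υ × ν) (b : βQ) :
    C.e ε v.1 * (ρ / 2) ≤
      |(ins C G θ η ε R A A' g d).H v (Sum.inl (C.p v.1, Sum.inl b))| := by
  have hthin := hC.not_thin v.1
  have e0 := e_pos P hQ v.1
  rw [ins_H_thick hC hQ.σ_eq]
  simp only [insOff, if_neg hthin]
  rw [abs_mul, abs_of_pos e0]
  have h2 := ηY_le P hG v.2
  have h3 := hG.xb v.2
  have hρ := P.ρ1
  have hρ0 := P.ρ0
  have hR := P.R1
  have θ0 := P.θ0
  have θ1 := P.θ1
  have h5 : |(1 - θ) * G.L.x v.2| ≤ 1 * R :=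
    abs_mul_le_mul (by rw [abs_of_pos (by linarith only [θ1])]; linarith only [θ0]) h3
  have h6 : |θ * (η * G.L.y v.2)| ≤ 1 / 16 * (ρ / 4) :=
    abs_mul_le_mul (by rw [abs_of_pos θ0]; exact θ1) h2
  have h7 := (abs_le.1 h5).1
  have h8 := (abs_le.1 h6).2
  have h9 : R ≤ 4 * R + (1 - θ) * G.L.x v.2 - θ * (η * G.L.y v.2) := by linarith only [hρ, hR, h7, h8]
  have h10 := le_trans h9 (le_abs_self _)
  exact mul_le_mul_of_nonneg_left (by linarith only [hρ, hR, h10]) e0.le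

theorem thick_P (P : Par R ρ r S T θ η ε) (hC : C.Good) (hQ : C.Quant r S T)
    (hG : G.Ok R ρ Γ A A' g) (v : υ × ν) (b : βP) :
    sg ((ins C G θ η ε R A A' g d).H v (Sum.inl (C.p v.1, Sum.inr (Sum.inl b)))) =
      sg (G.L.x v.2 + G.oP b) ∧
    C.e ε v.1 * (ρ / 2) ≤
      |(ins C G θ η ε R A A' g d).H v (Sum.inl (C.p v.1, Sum.inr (Sum.inl b)))| := by
  have hthick : C.Thick (C.p v.1) := ⟨v.1, rfl⟩
  have e0 := e_pos P hQ v.1
  have hρ := P.ρ1
  have hρ0 := P.ρ0
  have θ0 := P.θ0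
  have θ1 := P.θ1
  have h2 := ηY_le P hG v.2
  have h3 := hG.sepP v.2 b
  have h6 : |θ * (η * G.L.y v.2)| ≤ 1 / 16 * (ρ / 4) :=
    abs_mul_le_mul (by rw [abs_of_pos θ0]; exact θ1) h2
  have h1 : (ins C G θ η ε R A A' g d).H v (Sum.inl (C.p v.1, Sum.inr (Sum.inl b)))
      = C.e ε v.1 * ((1 - θ) * (G.L.x v.2 + G.oP b) - θ * (η * G.L.y v.2)) := by
    rw [ins_H_thick hC hQ.σ_eq]
    simp only [insOff, if_pos hthick]
    ring
  have h4 : |(1 - θ) * (G.L.x v.2 + G.oP b) - θ * (η * G.L.y v.2)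
      - (1 - θ) * (G.L.x v.2 + G.oP b)| ≤ 1 / 16 * (ρ / 4) := by
    rw [show (1 - θ) * (G.L.x v.2 + G.oP b) - θ * (η * G.L.y v.2)
      - (1 - θ) * (G.L.x v.2 + G.oP b) = -(θ * (η * G.L.y v.2)) by ring, abs_neg]
    exact h6
  have h5 : 15 / 16 * ρ ≤ |(1 - θ) * (G.L.x v.2 + G.oP b)| := by
    rw [abs_mul, abs_of_pos (show 0 < 1 - θ by linarith only [θ1])]
    exact mul_le_mul (by linarith only [θ1]) h3 hρ0.le (by linarith only [θ1])
  rw [h1]
  constructor
  · rw [sg_mul_pos e0, ← sg_mul_pos (x := G.L.x v.2 + G.oP b) (show 0 < 1 - θ by linarith only [θ1])]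
    apply sg_of_close
    · rw [← abs_pos]; linarith only [hρ0, h5]
    · linarith only [hρ0, h4, h5]
  · rw [abs_mul, abs_of_pos e0]
    apply mul_le_mul_of_nonneg_left _ e0.le
    have := abs_ge_of_close h4
    linarith only [hρ0, h5, this]

theorem thick_pad (P : Par R ρ r S T θ η ε) (hC : C.Good) (hQ : C.Quant r S T)
    (hG : G.Ok R ρ Γ A A' g) (v : υ × ν) (b : Bool) :
    sg ((ins C G θ η ε R A A' g d).H v (Sum.inl (C.p v.1, Sum.inr (Sum.inr b)))) =
      (if b then 1 else -1) ∧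
    C.e ε v.1 * (ρ / 2) ≤
      |(ins C G θ η ε R A A' g d).H v (Sum.inl (C.p v.1, Sum.inr (Sum.inr b)))| := by
  have e0 := e_pos P hQ v.1
  have h2 := ηY_le P hG v.2
  have h3 := hG.xb v.2
  have hρ := P.ρ1
  have hρ0 := P.ρ0
  have hR := P.R1
  have θ0 := P.θ0
  have θ1 := P.θ1
  have h5 : |(1 - θ) * G.L.x v.2| ≤ 1 * R :=
    abs_mul_le_mul (by rw [abs_of_pos (by linarith only [θ1])]; linarith only [θ0]) h3
  have h6 : |θ * (η * G.L.y v.2)| ≤ 1 / 16 * (ρ / 4) :=
    abs_mul_le_mul (by rw [abs_of_pos θ0]; exact θ1) h2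
  have h7 := abs_le.1 h5
  have h8 := abs_le.1 h6
  rw [ins_H_thick hC hQ.σ_eq, sg_mul_pos e0, abs_mul, abs_of_pos e0]
  rcases b with _ | _
  · simp only [insOff]
    have h9 : -(4 * R) + (1 - θ) * G.L.x v.2 - θ * (η * G.L.y v.2) ≤ - R := by
      linarith only [hρ, hR, h7, h8]
    refine ⟨sg_of_neg (by linarith only [hρ, hR, h7, h8]), mul_le_mul_of_nonneg_left ?_ e0.le⟩
    rw [abs_of_neg (by linarith only [hρ, hR, h7, h8])]
    linarith only [hρ, hR, h7, h8]
  · simp only [insOff]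
    have h9 : R ≤ 4 * R + (1 - θ) * G.L.x v.2 - θ * (η * G.L.y v.2) := by
      linarith only [hρ, hR, h7, h8]
    refine ⟨sg_of_pos (by linarith only [hρ, hR, h7, h8]), mul_le_mul_of_nonneg_left ?_ e0.le⟩
    rw [abs_of_pos (by linarith only [hρ, hR, h7, h8])]
    linarith only [hρ, hR, h7, h8]

/-! own satellites -/

theorem own_fan (P : Par R ρ r S T θ η ε) (hC : C.Good) (hQ : C.Quant r S T)
    (hG : G.Ok R ρ Γ A A' g) (v : υ × ν) (b : Bool) :
    sg ((ins C G θ η ε R A A' g d).H v (Sum.inr (v.1, Sum.inr b))) =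
      (if b then 1 else -1) ∧
    θ * C.e ε v.1 * R ≤
      |(ins C G θ η ε R A A' g d).H v (Sum.inr (v.1, Sum.inr b))| := by
  have e0 := e_pos P hQ v.1
  have h2 := abs_le.1 (ηY_le P hG v.2)
  have h3 := abs_le.1 (hG.xb v.2)
  have hρ := P.ρ1
  have hρ0 := P.ρ0
  have hR := P.R1
  have h5 : 0 < θ * C.e ε v.1 := mul_pos P.θ0 e0
  rw [ins_H_own hC, sg_mul_pos h5, abs_mul, abs_of_pos h5]
  rcases b with _ | _
  · simp only [satC, satF]
    have h9 : (-1 - 1) * G.L.x v.2 + -(4 * R) - η * G.L.y v.2 ≤ -R := by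
      linarith [h3.1, h2.1]
    refine ⟨sg_of_neg (by linarith), mul_le_mul_of_nonneg_left ?_ h5.le⟩
    rw [abs_of_neg (by linarith)]
    linarith
  · simp only [satC, satF]
    have h9 : R ≤ (-1 - 1) * G.L.x v.2 + 4 * R - η * G.L.y v.2 := by
      linarith only [h2, h3, hρ, hR]
    refine ⟨sg_of_pos (by linarith), mul_le_mul_of_nonneg_left ?_ h5.le⟩
    rw [abs_of_pos (by linarith)]
    linarith

omit [Fintype κ] [Fintype βQ] [Fintype βP] in
theorem own_gad_sg (P : Par R ρ r S T θ η ε) (hC : C.Good) (hQ : C.Quant r S T)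
    (v : υ × ν) (j : κ) :
    sg ((ins C G θ η ε R A A' g d).H v (Sum.inr (v.1, Sum.inl j))) = sg (G.L.H v.2 j) := by
  have h5 : 0 < θ * η * C.e ε v.1 := mul_pos (mul_pos P.θ0 P.η0) (e_pos P hQ v.1)
  rw [ins_H_gad hC, sg_mul_pos h5]

theorem own_gad_ge (P : Par R ρ r S T θ η ε) (hC : C.Good) (hQ : C.Quant r S T)
    (hG : G.Ok R ρ Γ A A' g) (v : υ × ν) (j : κ) (h : j ≠ G.L.q v.2) (h' : j ≠ G.L.p v.2) :
    θ * η * C.e ε v.1 ≤
      Γ * |(ins C G θ η ε R A A' g d).H v (Sum.inr (v.1, Sum.inl j))| := by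
  have h5 : 0 < θ * η * C.e ε v.1 := mul_pos (mul_pos P.θ0 P.η0) (e_pos P hQ v.1)
  rw [ins_H_gad hC, abs_mul, abs_of_pos h5]
  have h6 := hG.off v.2 j h h'
  have h7 : θ * η * C.e ε v.1 * 1 ≤ θ * η * C.e ε v.1 * (Γ * |G.L.H v.2 j|) :=
    mul_le_mul_of_nonneg_left h6 h5.le
  linarith only [h7]

end est

end Vale.Agent.P065

/-!
P065: the inserted configuration is good; weights and degrees.
-/

set_option linter.unusedSectionVars false

namespace Vale.Agent.P065

variable {ι υ κ ν βQ βP : Type}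

section

variable [Fintype ι] [Fintype υ] [Fintype κ] [Fintype ν] [Fintype βQ] [Fintype βP]
  {C : Cfg ι υ} {G : Gad κ ν βQ βP} {R ρ Γ r S T θ η ε : ℝ} {A A' g d D : ℕ}

omit [Fintype ι] in
theorem deg_eq_zero {k : ι} (h : ¬ C.Thin k) : C.deg k = 0 := by
  classical
  unfold Cfg.deg
  rw [Finset.card_eq_zero, Finset.filter_eq_empty_iff]
  intro v _ hv
  exact h ⟨v, hv⟩

omit [Fintype ν] in
theorem insWt_sum (hC : C.Good) (hG : G.Ok R ρ Γ A A' g) (hd : ∀ k, C.deg k ≤ d) (k : ι) :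
    ∑ b, insWt C G A A' g d k b + C.deg k * (4 * g) = 2 * (A + 2 * g * d) * C.w k := by
  rw [Fintype.sum_sum_type, Fintype.sum_sum_type, Fintype.sum_bool]
  simp only [insWt]
  by_cases h1 : C.Thin k
  · obtain ⟨v, rfl⟩ := h1
    have h2 : C.Thin (C.q v) := ⟨v, rfl⟩
    have h3 := hC.not_thick v
    have h4 := hG.sumQ
    have h5 := hd (C.q v)
    simp only [if_pos h2, if_neg h3, hC.w_q, Finset.sum_const_zero, h4]
    obtain ⟨c, hc⟩ := Nat.exists_eq_add_of_le h5
    have h6 : d - C.deg (C.q v) = c := by omega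
    rw [h6, hc]
    ring
  · by_cases h2 : C.Thick k
    · obtain ⟨v, rfl⟩ := h2
      have h2 : C.Thick (C.p v) := ⟨v, rfl⟩
      have h4 := hG.sumP
      have h5 := hG.le
      simp only [if_neg h1, if_pos h2, hC.w_p, Finset.sum_const_zero, h4, deg_eq_zero h1]
      have h6 : A' ≤ A + 2 * g * d := le_trans h5 (Nat.le_add_right _ _)
      omega
    · simp only [if_neg h1, if_neg h2, Finset.sum_const_zero, deg_eq_zero h1]
      ring

omit [Fintype ν] in
theorem satW_sum (hG : G.Ok R ρ Γ A A' g) : ∑ j, satW G g j = 4 * g := by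
  rw [Fintype.sum_sum_type, Fintype.sum_bool]
  simp only [satW]
  rw [hG.sumL]
  ring

open scoped Classical in
theorem sum_fib {M : Type} [AddCommMonoid M] (f : υ → M) (C : Cfg ι υ) :
    ∑ u, f u = ∑ k, ∑ u ∈ Finset.univ.filter (fun u => C.q u = k), f u :=
  (Finset.sum_fiberwise Finset.univ C.q f).symm

omit [Fintype ν] in
theorem ins_wt (hC : C.Good) (hG : G.Ok R ρ Γ A A' g) (hd : ∀ k, C.deg k ≤ d) :
    (ins C G θ η ε R A A' g d).wt = C.wt * (2 * (A + 2 * g * d)) := by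
  classical
  unfold Cfg.wt
  rw [Fintype.sum_sum_type, Fintype.sum_prod_type, Fintype.sum_prod_type]
  simp only [ins, Sum.elim_inl, Sum.elim_inr]
  rw [sum_fib _ C, ← Finset.sum_add_distrib, Finset.sum_mul]
  refine Finset.sum_congr rfl fun k _ => ?_
  have h1 := insWt_sum hC hG hd k
  have h2 : ∑ u ∈ Finset.univ.filter (fun u => C.q u = k), ∑ j, satW G g j
      = C.deg k * (4 * g) := by
    rw [Finset.sum_const, satW_sum hG, smul_eq_mul]
    rfl
  rw [h2, h1]
  ring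

theorem ins_deg (hD : ∀ j, G.L.deg j ≤ D) (k) :
    (ins C G θ η ε R A A' g d).deg k ≤ D := by
  classical
  rcases k with k | ⟨u, j | j⟩
  · have : (ins C G θ η ε R A A' g d).deg (Sum.inl k) = 0 := by
      apply deg_eq_zero
      rintro ⟨v, hv⟩
      simp only [ins, reduceCtorEq] at hv
    omega
  · refine le_trans ?_ (hD j)
    unfold Cfg.deg
    apply Finset.card_le_card_of_injOn (fun v => v.2)
    · intro v hv
      simp only [ins, Finset.coe_filter, Finset.mem_univ, true_and, Set.mem_setOf_eq,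
        Sum.inr.injEq, Prod.mk.injEq, Sum.inl.injEq] at hv ⊢
      exact hv.2
    · intro v hv v' hv' h
      simp only [ins, Sum.inr.injEq, Prod.mk.injEq, Sum.inl.injEq, Finset.coe_filter, Finset.mem_univ, true_and, Set.mem_setOf_eq] at hv hv'
      exact Prod.ext (hv.1.trans hv'.1.symm) h
  · have : (ins C G θ η ε R A A' g d).deg (Sum.inr (u, Sum.inr j)) = 0 := by
      apply deg_eq_zero
      rintro ⟨v, hv⟩
      simp only [ins, Sum.inr.injEq, Prod.mk.injEq, reduceCtorEq, and_false] at hv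
    omega

open scoped Classical in
/-- contribution of a far group -/
theorem group_far (P : Par R ρ r S T θ η ε) (hC : C.Good) (hQ : C.Quant r S T)
    (hG : G.Ok R ρ Γ A A' g) (hd : ∀ k, C.deg k ≤ d) (v : υ × ν) (k : ι)
    (hk : k ≠ C.q v.1) (hk' : k ≠ C.p v.1) :
    (∑ b, (insWt C G A A' g d k b : ℤ) *
        sg ((ins C G θ η ε R A A' g d).H v (Sum.inl (k, b)))) +
      ∑ u ∈ Finset.univ.filter (fun u => C.q u = k), ∑ j, (satW G g j : ℤ) *
        sg ((ins C G θ η ε R A A' g d).H v (Sum.inr (u, j)))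
      = 2 * (A + 2 * g * d) * ((C.w k : ℤ) * sg (C.H v.1 k)) := by
  classical
  have hH := hC.off v.1 k hk hk'
  have hH0 := abs_nonneg (C.H v.1 k)
  have h1 : ∀ b, sg ((ins C G θ η ε R A A' g d).H v (Sum.inl (k, b))) = sg (C.H v.1 k) := by
    intro b
    apply sg_of_close hH
    have := far_inl (d := d) P hQ hG v k b hk hk'
    linarith
  have h2 : ∀ u ∈ Finset.univ.filter (fun u => C.q u = k), ∑ j, (satW G g j : ℤ) *
      sg ((ins C G θ η ε R A A' g d).H v (Sum.inr (u, j))) = 4 * g * sg (C.H v.1 k) := by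
    intro u hu
    have hu' : C.q u = k := by simpa only [Finset.mem_filter, Finset.mem_univ, true_and] using hu
    have h3 : ∀ j, sg ((ins C G θ η ε R A A' g d).H v (Sum.inr (u, j))) = sg (C.H v.1 k) := by
      intro j
      apply sg_of_close hH
      have := far_inr (d := d) P hC hQ hG v u j (by rw [hu']; exact hk)
      rw [hu'] at this
      linarith only [hH0, this]
    simp only [h3]
    rw [← Finset.sum_mul]
    have h4 := satW_sum hG
    have h5 : (∑ j, (satW G g j : ℤ)) = 4 * g := by exact_mod_cast h4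
    rw [h5]
  simp only [h1]
  rw [Finset.sum_congr rfl h2, ← Finset.sum_mul, Finset.sum_const]
  have h6 := insWt_sum hC hG hd k
  have h7 : (∑ b, (insWt C G A A' g d k b : ℤ)) + (C.deg k : ℤ) * (4 * g)
      = 2 * (A + 2 * g * d) * C.w k := by exact_mod_cast h6
  have h8 : (Finset.univ.filter (fun u => C.q u = k)).card = C.deg k := rfl
  rw [h8, nsmul_eq_mul]
  linear_combination (sg (C.H v.1 k)) * h7

/-- satellites of another used vertex on the same thin line cancel -/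
theorem group_near (P : Par R ρ r S T θ η ε) (hC : C.Good) (hQ : C.Quant r S T)
    (hG : G.Ok R ρ Γ A A' g) (v : υ × ν) (u : υ) (hk : C.q u = C.q v.1) (hu : u ≠ v.1) :
    ∑ j, (satW G g j : ℤ) *
        sg ((ins C G θ η ε R A A' g d).H v (Sum.inr (u, j))) = 0 := by
  classical
  have h1 := fun j => near_sg (d := d) P hC hQ hG v u j hk hu
  simp only [h1]
  rw [Fintype.sum_sum_type, Fintype.sum_bool]
  set z := C.Δ u * (C.x v.1 - C.x u) with hz
  have h2 : ∀ j : κ, sg (satC G η (Sum.inl j) * z) = sg z := fun j =>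
    sg_mul_pos (satC_inl_pos P hG j)
  have h3 : ∀ b : Bool, sg (satC G η (Sum.inr b) * z) = -sg z := fun b => by
    simp only [satC]
    rw [sg_mul_neg (by norm_num)]
  simp only [h2, h3, satW]
  rw [← Finset.sum_mul]
  have h4 : (∑ j, (G.L.w j : ℤ)) = 2 * g := by exact_mod_cast hG.sumL
  rw [h4]
  ring

/-- own satellites -/
theorem group_own (P : Par R ρ r S T θ η ε) (hC : C.Good) (hQ : C.Quant r S T)
    (hG : G.Ok R ρ Γ A A' g) (v : υ × ν) :
    ∑ j, (satW G g j : ℤ) *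
        sg ((ins C G θ η ε R A A' g d).H v (Sum.inr (v.1, j)))
      = ∑ j, (G.L.w j : ℤ) * sg (G.L.H v.2 j) := by
  rw [Fintype.sum_sum_type, Fintype.sum_bool, (own_fan P hC hQ hG v true).1,
    (own_fan P hC hQ hG v false).1]
  simp only [own_gad_sg P hC hQ, satW]
  simp only [↓reduceIte, mul_one, Bool.false_eq_true, Int.reduceNeg, mul_neg, add_neg_cancel, add_zero]

/-- own thin bundle -/
theorem group_thin (P : Par R ρ r S T θ η ε) (hC : C.Good) (hQ : C.Quant r S T)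
    (hG : G.Ok R ρ Γ A A' g) (v : υ × ν) :
    ∑ b, (insWt C G A A' g d (C.q v.1) b : ℤ) *
        sg ((ins C G θ η ε R A A' g d).H v (Sum.inl (C.q v.1, b)))
      = ∑ b, (G.wQ b : ℤ) * sg (G.oQ b - G.L.x v.2) := by
  have h1 : C.Thin (C.q v.1) := ⟨v.1, rfl⟩
  have h2 := hC.not_thick v.1
  rw [Fintype.sum_sum_type, Fintype.sum_sum_type, Fintype.sum_bool,
    (thin_pad P hC hQ hG v true).1, (thin_pad P hC hQ hG v false).1]
  simp only [insWt, if_pos h1, if_neg h2, (thin_inl P hC hQ hG v _).1]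
  simp only [CharP.cast_eq_zero, zero_mul, Finset.sum_const_zero, Nat.cast_mul, Nat.cast_ofNat, ↓reduceIte, mul_one, Bool.false_eq_true, Int.reduceNeg, mul_neg, add_neg_cancel, add_zero]

/-- own thick bundle -/
theorem group_thick (P : Par R ρ r S T θ η ε) (hC : C.Good) (hQ : C.Quant r S T)
    (hG : G.Ok R ρ Γ A A' g) (v : υ × ν) :
    ∑ b, (insWt C G A A' g d (C.p v.1) b : ℤ) *
        sg ((ins C G θ η ε R A A' g d).H v (Sum.inl (C.p v.1, b)))
      = ∑ b, (G.wP b : ℤ) * sg (G.L.x v.2 + G.oP b) := by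
  have h1 : C.Thick (C.p v.1) := ⟨v.1, rfl⟩
  have h2 := hC.not_thin v.1
  rw [Fintype.sum_sum_type, Fintype.sum_sum_type, Fintype.sum_bool,
    (thick_pad P hC hQ hG v true).1, (thick_pad P hC hQ hG v false).1]
  simp only [insWt, if_pos h1, if_neg h2, (thick_P P hC hQ hG v _).1]
  simp only [CharP.cast_eq_zero, zero_mul, Finset.sum_const_zero, ↓reduceIte, mul_one, Bool.false_eq_true, Int.reduceNeg, mul_neg, add_neg_cancel, add_zero, zero_add]

theorem ins_bal (P : Par R ρ r S T θ η ε) (hC : C.Good) (hQ : C.Quant r S T)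
    (hG : G.Ok R ρ Γ A A' g) (hd : ∀ k, C.deg k ≤ d) (v : υ × ν) :
    ∑ k, ((ins C G θ η ε R A A' g d).w k : ℤ) * sg ((ins C G θ η ε R A A' g d).H v k) = 0 := by
  classical
  rw [Fintype.sum_sum_type, Fintype.sum_prod_type, Fintype.sum_prod_type]
  have e1 : ∀ k b, (ins C G θ η ε R A A' g d).w (Sum.inl (k, b)) = insWt C G A A' g d k b :=
    fun k b => rfl
  have e2 : ∀ u j, (ins C G θ η ε R A A' g d).w (Sum.inr (u, j)) = satW G g j :=
    fun u j => rfl
  simp only [e1, e2]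
  rw [sum_fib _ C, ← Finset.sum_add_distrib]
  set F : ι → ℤ := fun k => (∑ b, (insWt C G A A' g d k b : ℤ) *
        sg ((ins C G θ η ε R A A' g d).H v (Sum.inl (k, b)))) +
      ∑ u ∈ Finset.univ.filter (fun u => C.q u = k), ∑ j, (satW G g j : ℤ) *
        sg ((ins C G θ η ε R A A' g d).H v (Sum.inr (u, j))) with hF
  have hqp : C.q v.1 ≠ C.p v.1 := hC.bip _ _
  -- subtract the balanced sum of `C`
  have h1 : ∑ k, (F k - 2 * (A + 2 * g * d) * ((C.w k : ℤ) * sg (C.H v.1 k)))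
      = (F (C.q v.1) - 2 * (A + 2 * g * d) * ((C.w (C.q v.1) : ℤ) * sg (C.H v.1 (C.q v.1))))
      + (F (C.p v.1) - 2 * (A + 2 * g * d) * ((C.w (C.p v.1) : ℤ) * sg (C.H v.1 (C.p v.1)))) := by
    apply Fintype.sum_eq_add _ _ hqp
    rintro k ⟨hk, hk'⟩
    rw [sub_eq_zero]
    exact group_far P hC hQ hG hd v k hk hk'
  rw [Finset.sum_sub_distrib, ← Finset.mul_sum, hC.bal v.1, hC.on_q, hC.on_p, sg_zero] at h1
  have h2 : F (C.q v.1) = (∑ b, (G.wQ b : ℤ) * sg (G.oQ b - G.L.x v.2))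
      + ∑ j, (G.L.w j : ℤ) * sg (G.L.H v.2 j) := by
    simp only [hF]
    rw [group_thin P hC hQ hG v]
    congr 1
    rw [Finset.sum_eq_single_of_mem v.1 (by simp only [Finset.mem_filter, Finset.mem_univ, and_self])]
    · exact group_own P hC hQ hG v
    · intro u hu hu'
      exact group_near P hC hQ hG v u (by simpa only [Finset.mem_filter, Finset.mem_univ, true_and] using hu) hu'
  have h3 : F (C.p v.1) = ∑ b, (G.wP b : ℤ) * sg (G.L.x v.2 + G.oP b) := by
    simp only [hF]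
    rw [group_thick P hC hQ hG v]
    have : Finset.univ.filter (fun u => C.q u = C.p v.1) = ∅ := by
      rw [Finset.filter_eq_empty_iff]
      intro u _
      exact hC.bip u v.1
    rw [this, Finset.sum_empty, add_zero]
  have h4 := hG.bal v.2
  change ∑ k, F k = 0
  rw [h2, h3] at h1
  linarith only [h1, h4]

theorem ins_good (P : Par R ρ r S T θ η ε) (hC : C.Good) (hQ : C.Quant r S T)
    (hG : G.Ok R ρ Γ A A' g) (hd : ∀ k, C.deg k ≤ d) :
    (ins C G θ η ε R A A' g d).Good where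
  on_q := fun v => by
    have h := ins_H_gad (θ := θ) (η := η) (ε := ε) (R := R) (A := A) (A' := A') (g := g)
      (d := d) (G := G) hC v (G.L.q v.2)
    rw [hG.on_q, mul_zero] at h
    exact h
  on_p := fun v => by
    have h := ins_H_gad (θ := θ) (η := η) (ε := ε) (R := R) (A := A) (A' := A') (g := g)
      (d := d) (G := G) hC v (G.L.p v.2)
    rw [hG.on_p, mul_zero] at h
    exact h
  ne := fun v => by
    have h1 : (ins C G θ η ε R A A' g d).Δ v = θ * η * C.Δ v.1 * G.L.Δ v.2 := by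
      simp only [Cfg.Δ, ins, Sum.elim_inr, satC]
      ring
    rw [h1]
    have h2 := hG.lo v.2
    have h3 : G.L.Δ v.2 ≠ 0 := by
      rw [← abs_pos]; linarith only [h2]
    exact mul_ne_zero (mul_ne_zero (mul_ne_zero P.θ0.ne' P.η0.ne') (hC.ne _)) h3
  w_q := fun v => hG.w_q v.2
  w_p := fun v => hG.w_p v.2
  bip := fun v v' h => by
    simp only [ins, Sum.inr.injEq, Prod.mk.injEq, Sum.inl.injEq] at h
    exact hG.bip _ _ h.2
  inj := fun v v' h h' => by
    simp only [ins, Sum.inr.injEq, Prod.mk.injEq, Sum.inl.injEq] at h h'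
    exact Prod.ext h.1 (hG.inj _ _ h.2 h'.2)
  off := by
    intro v k hk hk'
    have e0 := e_pos P hQ v.1
    have hρ := P.ρ0
    have θ0 := P.θ0
    have hR := P.R1
    rw [← abs_pos]
    rcases k with ⟨k, b⟩ | ⟨u, j⟩
    · by_cases h1 : k = C.q v.1
      · subst h1
        have pos : 0 < θ * C.e ε v.1 * (ρ / 2) := by (clear * - θ0 e0 hρ; positivity)
        rcases b with b | b | b
        · exact lt_of_lt_of_le pos (thin_inl P hC hQ hG v b).2
        · exact lt_of_lt_of_le pos (thin_P P hC hQ hG v b)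
        · exact lt_of_lt_of_le pos (thin_pad P hC hQ hG v b).2
      · by_cases h2 : k = C.p v.1
        · subst h2
          have pos : 0 < C.e ε v.1 * (ρ / 2) := by (clear * - e0 hρ; positivity)
          rcases b with b | b | b
          · exact lt_of_lt_of_le pos (thick_Q P hC hQ hG v b)
          · exact lt_of_lt_of_le pos (thick_P P hC hQ hG v b).2
          · exact lt_of_lt_of_le pos (thick_pad P hC hQ hG v b).2
        · have h3 := far_inl (d := d) P hQ hG v k b h1 h2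
          have h4 := abs_ge_of_close h3
          have h5 := abs_pos.2 (hC.off v.1 k h1 h2)
          linarith only [h4, h5]
    · by_cases h1 : u = v.1
      · subst h1
        rcases j with j | j
        · have h3 : j ≠ G.L.q v.2 := by
            rintro rfl
            exact hk rfl
          have h4 : j ≠ G.L.p v.2 := by
            rintro rfl
            exact hk' rfl
          have h5 := own_gad_ge (d := d) P hC hQ hG v j h3 h4
          have h6 : 0 < θ * η * C.e ε v.1 := mul_pos (mul_pos P.θ0 P.η0) e0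
          have h7 : 0 < Γ * |(ins C G θ η ε R A A' g d).H v (Sum.inr (v.1, Sum.inl j))| :=
            lt_of_lt_of_le h6 h5
          exact (mul_pos_iff_of_pos_left (lt_of_lt_of_le one_pos hG.Γ1)).1 h7
        · exact lt_of_lt_of_le (by (clear * - θ0 e0 hR; positivity)) (own_fan P hC hQ hG v j).2
      · by_cases h2 : C.q u = C.q v.1
        · have h3 := near_ge (d := d) P hC hQ hG v u j h2 h1
          have h4 := near_lower hC hQ u v.1 h2 h1
          have h5 : 0 < |C.Δ u * (C.x v.1 - C.x u)| :=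
            lt_of_lt_of_le (mul_pos P.r0 (hQ.σ_pos v.1)) h4
          exact lt_of_lt_of_le (by (clear * - θ0 h5; positivity)) h3
        · have h3 := far_inr (d := d) P hC hQ hG v u j h2
          have h4 := abs_ge_of_close h3
          have h5 := abs_pos.2 (hC.off v.1 (C.q u) h2 (hC.bip u v.1))
          linarith only [h4, h5]
  bal := ins_bal P hC hQ hG hd

end

end Vale.Agent.P065

/-!
P065: insertion of a gadget into a configuration, clearances and bounds of the new configuration.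
-/

namespace Vale.Agent.P065

variable {ι υ κ ν βQ βP : Type}

section quant

variable [Fintype ι] [Fintype υ] [Fintype κ] [Fintype βQ] [Fintype βP]
  {C : Cfg ι υ} {G : Gad κ ν βQ βP} {R ρ Γ r S T θ η ε : ℝ} {A A' g d : ℕ}

omit [Fintype ι] [Fintype κ] [Fintype βQ] [Fintype βP] in
theorem ins_Δ (v : υ × ν) : (ins C G θ η ε R A A' g d).Δ v =
    θ * η * C.Δ v.1 * G.L.Δ v.2 := by
  simp only [ins, Cfg.Δ, Sum.elim_inr, satC]
  ring

theorem η_le (P : Par R ρ r S T θ η ε) : η ≤ 1 / 4 := by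
  have h := P.ηR
  have h1 := P.ρ1
  have h2 := P.R1
  have h3 := P.η0
  nlinarith only [h, h1, h2]

omit [Fintype ι] in
theorem ins_Δ_le (P : Par R ρ r S T θ η ε) (hG : G.Ok R ρ Γ A A' g) (v : υ × ν) :
    |(ins C G θ η ε R A A' g d).Δ v| ≤ θ * η * |C.Δ v.1| * (2 * R) := by
  rw [ins_Δ, abs_mul, abs_mul, abs_of_pos (mul_pos P.θ0 P.η0)]
  refine mul_le_mul_of_nonneg_left ?_
    (mul_nonneg (mul_pos P.θ0 P.η0).le (abs_nonneg _))
  have h1 := hG.mb (G.L.p v.2)
  have h2 := hG.mb (G.L.q v.2)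
  have h3 := abs_sub (G.L.m (G.L.p v.2)) (G.L.m (G.L.q v.2))
  unfold Cfg.Δ
  linarith

/-- consequences of the choice of the new clearance -/
theorem r'_facts (P : Par R ρ r S T θ η ε) (hΓ : 1 ≤ Γ) {r' : ℝ} (hr0 : 0 < r')
    (hr : 4 * S * R * Γ * r' = ρ * ε) :
    r' * S ≤ ρ * ε / 4 ∧ r' * S ≤ r / 256 ∧ Γ * (r' * S * R) = ρ * ε / 4 := by
  have hS := P.S1
  have hR := P.R1
  have h0 : 0 < r' * S := by positivity
  have h1 : Γ * (r' * S * R) = ρ * ε / 4 := by linarith only [hr]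
  have h2 : r' * S ≤ Γ * (r' * S * R) := by
    have h3 : r' * S ≤ r' * S * R := le_mul_of_one_le_right h0.le hR
    have h4 : r' * S * R ≤ Γ * (r' * S * R) :=
      le_mul_of_one_le_left (by positivity) hΓ
    linarith only [h3, h4]
  have h3 : ρ * ε ≤ ε := by
    have := P.ρ1
    have := P.ε0
    nlinarith
  have h4 := P.ε_le
  exact ⟨by linarith only [hr, h2], by linarith only [hr, h2, h3, h4], h1⟩

omit [Fintype ι] [Fintype υ] in
/-- far groups -/
theorem far_clear (P : Par R ρ r S T θ η ε) (hQ : C.Quant r S T) (hΓ : 1 ≤ Γ) {r' : ℝ}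
    (hr0 : 0 < r') (hr : 4 * S * R * Γ * r' = ρ * ε) (u0 : υ) (k : ι) (hk : k ≠ C.q u0)
    (hk' : k ≠ C.p u0) {H' : ℝ} (hH : |H' - C.H u0 k| ≤ |C.H u0 k| / 4) :
    r' * (|C.m k - C.m (C.q u0)| + S * C.σ k + S * C.σ (C.q u0)) ≤ |H'| := by
  obtain ⟨h1, h2, h3⟩ := r'_facts P hΓ hr0 hr
  have a1 := hQ.h1 u0 k hk hk'
  have a2 := hQ.h2 u0 k hk hk'
  have a3 := hQ.h3 u0 k hk hk'
  have hS := P.S1
  have hh := abs_ge_of_close hH
  have hr'r : r' ≤ r / 256 := by
    have : r' ≤ r' * S := le_mul_of_one_le_right hr0.le hS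
    linarith only [h2, this]
  have b1 : r' * |C.m k - C.m (C.q u0)| ≤ r / 256 * |C.m k - C.m (C.q u0)| :=
    mul_le_mul_of_nonneg_right hr'r (abs_nonneg _)
  have b2 : r' * S * C.σ k ≤ r / 256 * C.σ k :=
    mul_le_mul_of_nonneg_right h2 (hQ.σ_nonneg k)
  have b3 : r' * S * C.σ (C.q u0) ≤ r / 256 * C.σ (C.q u0) :=
    mul_le_mul_of_nonneg_right h2 (hQ.σ_nonneg _)
  have b4 : r' * (|C.m k - C.m (C.q u0)| + S * C.σ k + S * C.σ (C.q u0)) =
    r' * |C.m k - C.m (C.q u0)| + r' * S * C.σ k + r' * S * C.σ (C.q u0) := by ring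
  have := abs_nonneg (C.H u0 k)
  linarith only [a1, a2, a3, hh, b1, b2, b3, this]

/-- all clearances at once: `E` bounds the slope difference to the new thin line, the slope unit of
the new thin line and the slope unit of the line -/
theorem ins_clear (P : Par R ρ r S T θ η ε) (hC : C.Good) (hQ : C.Quant r S T)
    (hG : G.Ok R ρ Γ A A' g) {r' : ℝ} (hr0 : 0 < r') (hr : 4 * S * R * Γ * r' = ρ * ε)
    (v : υ × ν) (k : (ι × (βQ ⊕ (βP ⊕ Bool))) ⊕ (υ × (κ ⊕ Bool)))
    (hk : k ≠ (ins C G θ η ε R A A' g d).q v) (hk' : k ≠ (ins C G θ η ε R A A' g d).p v) :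
    ∃ E : ℝ, |(ins C G θ η ε R A A' g d).m k -
        (ins C G θ η ε R A A' g d).m ((ins C G θ η ε R A A' g d).q v)| ≤ E ∧
      (ins C G θ η ε R A A' g d).σ ((ins C G θ η ε R A A' g d).q v) ≤ E ∧
      (ins C G θ η ε R A A' g d).σ k ≤ E ∧
      r' * E ≤ |(ins C G θ η ε R A A' g d).H v k| := by
  have hΓ := hG.Γ1
  obtain ⟨h1, h2, h3⟩ := r'_facts P hΓ hr0 hr
  have hS := P.S1
  have hR := P.R1
  have θ0 := P.θ0
  have θ1 := P.θ1
  have η0 := P.η0
  have η1 := η_le P
  have ρ0 := P.ρ0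
  have ρ1 := P.ρ1
  have e0 := e_pos P hQ v.1
  have σ0 := hQ.σ_pos v.1
  have hi0 := hQ.hi v.1
  have Δ0 := Δ_pos hQ v.1
  have hq : (ins C G θ η ε R A A' g d).m ((ins C G θ η ε R A A' g d).q v) =
      C.m (C.q v.1) + θ * C.Δ v.1 * satC G η (Sum.inl (G.L.q v.2)) := rfl
  have hσq : (ins C G θ η ε R A A' g d).σ ((ins C G θ η ε R A A' g d).q v) =
      θ * η * |C.Δ v.1| / 2 := rfl
  have hc0 := satC_le P hG (Sum.inl (G.L.q v.2))
  set c0 := satC G η (Sum.inl (G.L.q v.2)) with hc0d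
  -- bound for the slope change
  have s0 : |θ * C.Δ v.1 * c0| ≤ 5 / 4 * (θ * (S * C.σ (C.q v.1))) := by
    have := abs_mul_le_mul (a := θ * C.Δ v.1) (b := c0) (x := θ * (S * C.σ (C.q v.1)))
      (by rw [abs_mul, abs_of_pos θ0]; exact mul_le_mul_of_nonneg_left hi0 θ0.le) hc0
    linarith only [this]
  have s1 : θ * η * |C.Δ v.1| / 2 ≤ θ * (S * C.σ (C.q v.1)) := by
    have a1 : θ * |C.Δ v.1| ≤ θ * (S * C.σ (C.q v.1)) := mul_le_mul_of_nonneg_left hi0 θ0.le
    have a2 : η * (θ * |C.Δ v.1|) ≤ 1 / 4 * (θ * |C.Δ v.1|) :=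
      mul_le_mul_of_nonneg_right η1 (by (clear * - θ0 Δ0; positivity))
    have a3 : θ * η * |C.Δ v.1| = η * (θ * |C.Δ v.1|) := by ring
    have a4 : 0 < θ * |C.Δ v.1| := by (clear * - θ0 Δ0; positivity)
    linarith only [a1, a2, a4]
  have s2 : 0 < S * C.σ (C.q v.1) := by (clear * - hS σ0; positivity)
  -- the basic comparison
  have c1 : r' * (S * C.σ (C.q v.1)) ≤ ρ * C.e ε v.1 / 4 := by
    have : r' * S * C.σ (C.q v.1) ≤ ρ * ε / 4 * C.σ (C.q v.1) :=
      mul_le_mul_of_nonneg_right h1 σ0.le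
    simp only [Cfg.e]
    linarith only [this]
  have c2 : Γ * (r' * (S * C.σ (C.q v.1) * R)) = ρ * C.e ε v.1 / 4 := by
    have : Γ * (r' * S * R) * C.σ (C.q v.1) = ρ * ε / 4 * C.σ (C.q v.1) := by rw [h3]
    simp only [Cfg.e]
    linarith only [this]
  have c3 : 64 * C.e ε v.1 ≤ r * C.σ (C.q v.1) := by
    have : ε * C.σ (C.q v.1) ≤ r / 64 * C.σ (C.q v.1) :=
      mul_le_mul_of_nonneg_right P.ε_le σ0.le
    simp only [Cfg.e]
    linarith only [this]
  have c4 : ρ * C.e ε v.1 ≤ C.e ε v.1 := by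
    have := mul_le_mul_of_nonneg_right ρ1 e0.le
    linarith only [this]
  have c5 : 0 < ρ * C.e ε v.1 := by (clear * - ρ0 e0; positivity)
  rcases k with ⟨k, b⟩ | ⟨u, j⟩
  · have hm : (ins C G θ η ε R A A' g d).m (Sum.inl (k, b)) = C.m k := rfl
    have hσk : (ins C G θ η ε R A A' g d).σ (Sum.inl (k, b)) = 0 := rfl
    rw [hq, hσq, hm, hσk]
    by_cases hkq : k = C.q v.1
    · -- thin bundle
      refine ⟨5 / 4 * (θ * (S * C.σ (C.q v.1))), ?_, ?_, ?_, ?_⟩
      · rw [hkq, sub_add_cancel_left, abs_neg]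
        exact s0
      · have : 0 < θ * (S * C.σ (C.q v.1)) := by (clear * - θ0 hS σ0; positivity)
        linarith only [s1, this]
      · (clear * - θ0 hS σ0; positivity)
      · have hH : θ * C.e ε v.1 * (ρ / 2) ≤
            |(ins C G θ η ε R A A' g d).H v (Sum.inl (k, b))| := by
          rw [hkq]
          rcases b with b | b | b
          · exact (thin_inl P hC hQ hG v b).2
          · exact thin_P P hC hQ hG v b
          · exact (thin_pad P hC hQ hG v b).2
        refine le_trans ?_ hH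
        have := mul_le_mul_of_nonneg_left c1 θ0.le
        have h0 : 0 < θ * (ρ * C.e ε v.1) := by (clear * - θ0 ρ0 e0; positivity)
        linarith only [this, h0]
    · by_cases hkp : k = C.p v.1
      · -- thick bundle
        refine ⟨2 * (S * C.σ (C.q v.1)), ?_, ?_, ?_, ?_⟩
        · rw [hkp]
          have e1 : C.m (C.p v.1) - (C.m (C.q v.1) + θ * C.Δ v.1 * c0) =
              C.Δ v.1 - θ * C.Δ v.1 * c0 := by
            simp only [Cfg.Δ]; ring
          rw [e1]
          have e2 := abs_sub (C.Δ v.1) (θ * C.Δ v.1 * c0)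
          have e3 : θ * (S * C.σ (C.q v.1)) ≤ 1 / 16 * (S * C.σ (C.q v.1)) :=
            mul_le_mul_of_nonneg_right θ1 s2.le
          linarith only [hi0, Δ0, s0, e2, e3]
        · have e3 : θ * (S * C.σ (C.q v.1)) ≤ 1 / 16 * (S * C.σ (C.q v.1)) :=
            mul_le_mul_of_nonneg_right θ1 s2.le
          linarith only [hi0, Δ0, s1, e3]
        · (clear * - hS σ0; positivity)
        · have hH : C.e ε v.1 * (ρ / 2) ≤
              |(ins C G θ η ε R A A' g d).H v (Sum.inl (k, b))| := by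
            rw [hkp]
            rcases b with b | b | b
            · exact thick_Q P hC hQ hG v b
            · exact (thick_P P hC hQ hG v b).2
            · exact (thick_pad P hC hQ hG v b).2
          refine le_trans ?_ hH
          linarith only [c1]
      · -- far bundle
        have hfar := far_clear P hQ hΓ hr0 hr v.1 k hkq hkp
          (far_inl (A := A) (A' := A') (g := g) (d := d) P hQ hG v k b hkq hkp)
        have hσk0 := hQ.σ_nonneg k
        have e3 : θ * (S * C.σ (C.q v.1)) ≤ 1 / 16 * (S * C.σ (C.q v.1)) :=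
          mul_le_mul_of_nonneg_right θ1 s2.le
        have e4 : 0 ≤ S * C.σ k := by (clear * - hS hσk0; positivity)
        refine ⟨_, ?_, ?_, ?_, hfar⟩
        · have e1 : C.m k - (C.m (C.q v.1) + θ * C.Δ v.1 * c0) =
              (C.m k - C.m (C.q v.1)) - θ * C.Δ v.1 * c0 := by ring
          rw [e1]
          have e2 := abs_sub (C.m k - C.m (C.q v.1)) (θ * C.Δ v.1 * c0)
          linarith only [hi0, Δ0, s0, e3, e4, e2]
        · have := abs_nonneg (C.m k - C.m (C.q v.1))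
          linarith only [hi0, Δ0, s1, e3, e4, this]
        · (clear * - hS hσk0 σ0; positivity)
  · have hm : (ins C G θ η ε R A A' g d).m (Sum.inr (u, j)) =
        C.m (C.q u) + θ * C.Δ u * satC G η j := rfl
    have hσk : (ins C G θ η ε R A A' g d).σ (Sum.inr (u, j)) = satσ C θ η u j := rfl
    have hcj := satC_le P hG j
    have hiu := hQ.hi u
    have σu := hQ.σ_pos u
    have sσ : satσ C θ η u j ≤ θ * (S * C.σ (C.q u)) := by
      rcases j with j | j
      · simp only [satσ]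
        have a1 : θ * |C.Δ u| ≤ θ * (S * C.σ (C.q u)) := mul_le_mul_of_nonneg_left hiu θ0.le
        have a2 : η * (θ * |C.Δ u|) ≤ 1 / 4 * (θ * |C.Δ u|) :=
          mul_le_mul_of_nonneg_right η1 (by (clear * - θ0; positivity))
        have a3 : θ * η * |C.Δ u| = η * (θ * |C.Δ u|) := by ring
        have a4 : 0 ≤ θ * |C.Δ u| := by (clear * - θ0; positivity)
        linarith only [a1, a2, a4]
      · simp only [satσ]
        (clear * - θ0 hS σu; positivity)
    have su : |θ * C.Δ u * satC G η j| ≤ 5 / 4 * (θ * (S * C.σ (C.q u))) := by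
      have := abs_mul_le_mul (a := θ * C.Δ u) (b := satC G η j) (x := θ * (S * C.σ (C.q u)))
        (by rw [abs_mul, abs_of_pos θ0]; exact mul_le_mul_of_nonneg_left hiu θ0.le) hcj
      linarith only [this]
    rw [hq, hσq, hm, hσk]
    by_cases hu : u = v.1
    · subst hu
      rcases j with j | j
      · -- own gadget
        have hjq : j ≠ G.L.q v.2 := by
          intro h
          exact hk (by rw [h]; rfl)
        have hjp : j ≠ G.L.p v.2 := by
          intro h
          exact hk' (by rw [h]; rfl)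
        refine ⟨θ * η * (S * C.σ (C.q v.1)) * (2 * R), ?_, ?_, ?_, ?_⟩
        · have e1 : C.m (C.q v.1) + θ * C.Δ v.1 * satC G η (Sum.inl j) -
              (C.m (C.q v.1) + θ * C.Δ v.1 * c0) =
              θ * η * C.Δ v.1 * (G.L.m j - G.L.m (G.L.q v.2)) := by
            rw [hc0d]
            simp only [satC]
            ring
          rw [e1]
          refine abs_mul_le_mul ?_ ?_
          · rw [abs_mul, abs_of_pos (mul_pos θ0 η0)]
            exact mul_le_mul_of_nonneg_left hi0 (mul_pos θ0 η0).le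
          · have a1 := hG.mb j
            have a2 := hG.mb (G.L.q v.2)
            have a3 := abs_sub (G.L.m j) (G.L.m (G.L.q v.2))
            linarith only [a1, a2, a3]
        · have a1 : θ * η * |C.Δ v.1| ≤ θ * η * (S * C.σ (C.q v.1)) :=
            mul_le_mul_of_nonneg_left hi0 (mul_pos θ0 η0).le
          have a2 : 0 < θ * η * (S * C.σ (C.q v.1)) := by (clear * - θ0 η0 hS σ0; positivity)
          nlinarith only [a1, a2, hR]
        · simp only [satσ]
          have a1 : θ * η * |C.Δ v.1| ≤ θ * η * (S * C.σ (C.q v.1)) :=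
            mul_le_mul_of_nonneg_left hi0 (mul_pos θ0 η0).le
          have a2 : 0 < θ * η * (S * C.σ (C.q v.1)) := by (clear * - θ0 η0 hS σ0; positivity)
          nlinarith only [a1, a2, hR]
        · have hH := own_gad_ge (A := A) (A' := A') (g := g) (d := d) P hC hQ hG v j hjq hjp
          have hΓ0 : 0 < Γ := by linarith only [hΓ]
          refine le_of_mul_le_mul_left (le_trans ?_ hH) hΓ0
          have a1 : Γ * (r' * (θ * η * (S * C.σ (C.q v.1)) * (2 * R))) =
              2 * (θ * η) * (Γ * (r' * (S * C.σ (C.q v.1) * R))) := by ring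
          rw [a1, c2]
          have a2 : 0 < θ * η := by (clear * - θ0 η0; positivity)
          have a3 := mul_le_mul_of_nonneg_left c4 a2.le
          have a4 : 0 < θ * η * C.e ε v.1 := by (clear * - θ0 η0 e0; positivity)
          linarith only [a3, a4]
      · -- own fan
        refine ⟨9 / 4 * (θ * (S * C.σ (C.q v.1))), ?_, ?_, ?_, ?_⟩
        · have e1 : C.m (C.q v.1) + θ * C.Δ v.1 * satC G η (Sum.inr j) -
              (C.m (C.q v.1) + θ * C.Δ v.1 * c0) =
              -(θ * C.Δ v.1) - θ * C.Δ v.1 * c0 := by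
            simp only [satC]
            ring
          rw [e1]
          have a1 := abs_sub (-(θ * C.Δ v.1)) (θ * C.Δ v.1 * c0)
          have a2 : |-(θ * C.Δ v.1)| ≤ θ * (S * C.σ (C.q v.1)) := by
            rw [abs_neg, abs_mul, abs_of_pos θ0]
            exact mul_le_mul_of_nonneg_left hi0 θ0.le
          linarith only [s0, a1, a2]
        · have : 0 < θ * (S * C.σ (C.q v.1)) := by (clear * - θ0 hS σ0; positivity)
          linarith only [s1, this]
        · simp only [satσ]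
          (clear * - θ0 hS σ0; positivity)
        · have hH := (own_fan (A := A) (A' := A') (g := g) (d := d) P hC hQ hG v j).2
          refine le_trans ?_ hH
          have a1 := mul_le_mul_of_nonneg_left c1 θ0.le
          have a2 : θ * (ρ * C.e ε v.1) ≤ θ * C.e ε v.1 := mul_le_mul_of_nonneg_left c4 θ0.le
          have a3 : θ * C.e ε v.1 ≤ θ * C.e ε v.1 * R :=
            le_mul_of_one_le_right (by (clear * - θ0 e0; positivity)) hR
          have a4 : 0 < θ * C.e ε v.1 := by (clear * - θ0 e0; positivity)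
          linarith only [a1, a2, a3, a4]
    · by_cases hqu : C.q u = C.q v.1
      · -- satellites of the same thin line
        rw [hqu] at su sσ ⊢
        refine ⟨5 / 2 * (θ * (S * C.σ (C.q v.1))), ?_, ?_, ?_, ?_⟩
        · have e1 : C.m (C.q v.1) + θ * C.Δ u * satC G η j -
              (C.m (C.q v.1) + θ * C.Δ v.1 * c0) =
              θ * C.Δ u * satC G η j - θ * C.Δ v.1 * c0 := by
            ring
          rw [e1]
          have a1 := abs_sub (θ * C.Δ u * satC G η j) (θ * C.Δ v.1 * c0)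
          linarith only [s0, su, a1]
        · have : 0 < θ * (S * C.σ (C.q v.1)) := by (clear * - θ0 hS σ0; positivity)
          linarith only [s1, this]
        · have : 0 < θ * (S * C.σ (C.q v.1)) := by (clear * - θ0 hS σ0; positivity)
          linarith only [sσ, this]
        · have hH := near_ge (A := A) (A' := A') (g := g) (d := d) P hC hQ hG v u j hqu hu
          have hlow := near_lower hC hQ u v.1 hqu hu
          refine le_trans ?_ hH
          have a1 := mul_le_mul_of_nonneg_left c1 θ0.le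
          have a2 : θ * (ρ * C.e ε v.1) ≤ θ * C.e ε v.1 := mul_le_mul_of_nonneg_left c4 θ0.le
          have a3 : θ * (64 * C.e ε v.1) ≤ θ * |C.Δ u * (C.x v.1 - C.x u)| :=
            mul_le_mul_of_nonneg_left (le_trans c3 hlow) θ0.le
          have a4 : 0 < θ * C.e ε v.1 := by (clear * - θ0 e0; positivity)
          linarith only [a1, a2, a3, a4]
      · -- far satellites
        have hqp : C.q u ≠ C.p v.1 := hC.bip u v.1
        have hfar := far_clear P hQ hΓ hr0 hr v.1 (C.q u) hqu hqp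
          (far_inr (A := A) (A' := A') (g := g) (d := d) P hC hQ hG v u j hqu)
        have s3 : 0 < S * C.σ (C.q u) := by (clear * - hS σu; positivity)
        have e3 : θ * (S * C.σ (C.q v.1)) ≤ 1 / 16 * (S * C.σ (C.q v.1)) :=
          mul_le_mul_of_nonneg_right θ1 s2.le
        have e4 : θ * (S * C.σ (C.q u)) ≤ 1 / 16 * (S * C.σ (C.q u)) :=
          mul_le_mul_of_nonneg_right θ1 s3.le
        have e5 := abs_nonneg (C.m (C.q u) - C.m (C.q v.1))
        refine ⟨_, ?_, ?_, ?_, hfar⟩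
        · have e1 : C.m (C.q u) + θ * C.Δ u * satC G η j -
              (C.m (C.q v.1) + θ * C.Δ v.1 * c0) =
              (C.m (C.q u) - C.m (C.q v.1)) + θ * C.Δ u * satC G η j - θ * C.Δ v.1 * c0 := by
            ring
          rw [e1]
          have a1 := abs_sub ((C.m (C.q u) - C.m (C.q v.1)) + θ * C.Δ u * satC G η j)
            (θ * C.Δ v.1 * c0)
          have a2 := abs_add_le (C.m (C.q u) - C.m (C.q v.1)) (θ * C.Δ u * satC G η j)
          linarith only [hi0, Δ0, s0, su, s3, e3, e4, a1, a2]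
        · linarith only [hi0, Δ0, s1, s3, e3, e5]
        · linarith only [hi0, Δ0, sσ, s3, e4, e5]

/-- the new tolerance -/
theorem ins_tol (P : Par R ρ r S T θ η ε) (hC : C.Good) (hQ : C.Quant r S T)
    (hG : G.Ok R ρ Γ A A' g) (v v' : υ × ν)
    (hne : (ins C G θ η ε R A A' g d).q v' ≠ (ins C G θ η ε R A A' g d).q v) :
    |(ins C G θ η ε R A A' g d).Δ v'| *
        |(ins C G θ η ε R A A' g d).x v - (ins C G θ η ε R A A' g d).x v'| ≤
      4 * R ^ 2 * Γ * |(ins C G θ η ε R A A' g d).H v ((ins C G θ η ε R A A' g d).q v')| := by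
  have hΓ := hG.Γ1
  have hS := P.S1
  have hR := P.R1
  have θ0 := P.θ0
  have θ1 := P.θ1
  have η0 := P.η0
  have ρ0 := P.ρ0
  have ρ1 := P.ρ1
  have hΔ := ins_Δ_le (C := C) (d := d) P hG v'
  have hbig : 4 ≤ 4 * R ^ 2 * Γ := by
    have : 1 ≤ R ^ 2 := one_le_pow₀ hR
    nlinarith only [this, hΓ]
  have hx : (ins C G θ η ε R A A' g d).x v - (ins C G θ η ε R A A' g d).x v' =
      (C.x v.1 - C.x v'.1) + (C.e ε v.1 / C.Δ v.1 * G.L.x v.2 -
        C.e ε v'.1 / C.Δ v'.1 * G.L.x v'.2) := by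
    simp only [ins]
    ring
  by_cases hu : v'.1 = v.1
  · -- same gadget
    have hj : G.L.q v'.2 ≠ G.L.q v.2 := by
      intro h
      apply hne
      show Sum.inr (v'.1, Sum.inl (G.L.q v'.2)) = Sum.inr (v.1, Sum.inl (G.L.q v.2))
      rw [hu, h]
    have hjp : G.L.q v'.2 ≠ G.L.p v.2 := hG.bip v'.2 v.2
    have hH := own_gad_ge (A := A) (A' := A') (g := g) (d := d) P hC hQ hG v _ hj hjp
    have hqq : (ins C G θ η ε R A A' g d).q v' = Sum.inr (v.1, Sum.inl (G.L.q v'.2)) := by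
      show Sum.inr (v'.1, Sum.inl (G.L.q v'.2)) = _
      rw [hu]
    rw [hqq]
    have e0 := e_pos P hQ v.1
    have Δ0 := Δ_pos hQ v.1
    rw [hx, hu, sub_self, zero_add, ← mul_sub, abs_mul, abs_div, abs_of_pos e0]
    rw [hu] at hΔ
    have a1 := hG.xb v.2
    have a2 := hG.xb v'.2
    have a3 := abs_sub (G.L.x v.2) (G.L.x v'.2)
    calc |(ins C G θ η ε R A A' g d).Δ v'| * (C.e ε v.1 / |C.Δ v.1| * |G.L.x v.2 - G.L.x v'.2|)
        ≤ (θ * η * |C.Δ v.1| * (2 * R)) * (C.e ε v.1 / |C.Δ v.1| * (2 * R)) := by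
          refine mul_le_mul hΔ ?_ (by (clear * - e0 Δ0; positivity)) (by (clear * - θ0 η0 Δ0 hR; positivity))
          exact mul_le_mul_of_nonneg_left (by linarith only [a1, a2, a3]) (by (clear * - e0 Δ0; positivity))
      _ = 4 * R ^ 2 * (θ * η * C.e ε v.1) := by
          field_simp
          ring
      _ ≤ 4 * R ^ 2 * (Γ * |(ins C G θ η ε R A A' g d).H v
            (Sum.inr (v.1, Sum.inl (G.L.q v'.2)))|) :=
          mul_le_mul_of_nonneg_left hH (by positivity)
      _ = _ := by ring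
  · have hd : |(ins C G θ η ε R A A' g d).x v - (ins C G θ η ε R A A' g d).x v'| ≤
        |C.x v.1 - C.x v'.1| + 2 * (ε * R) := by
      rw [hx]
      have a1 := dx_le P hQ hG v
      have a2 := dx_le P hQ hG v'
      have a3 := abs_add_le (C.x v.1 - C.x v'.1) (C.e ε v.1 / C.Δ v.1 * G.L.x v.2 -
        C.e ε v'.1 / C.Δ v'.1 * G.L.x v'.2)
      have a4 := abs_sub (C.e ε v.1 / C.Δ v.1 * G.L.x v.2)
        (C.e ε v'.1 / C.Δ v'.1 * G.L.x v'.2)
      linarith only [a1, a2, a3, a4]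
    have Δ' := Δ_pos hQ v'.1
    have hΔ' : |(ins C G θ η ε R A A' g d).Δ v'| ≤ θ / 2 * |C.Δ v'.1| := by
      refine le_trans hΔ ?_
      have a1 : θ * η * |C.Δ v'.1| * (2 * R) = 2 * (η * R) * (θ * |C.Δ v'.1|) := by ring
      rw [a1, P.ηR]
      have a2 : 0 < θ * |C.Δ v'.1| := by (clear * - θ0 Δ'; positivity)
      nlinarith only [ρ1, a2]
    have hprod : |(ins C G θ η ε R A A' g d).Δ v'| *
        |(ins C G θ η ε R A A' g d).x v - (ins C G θ η ε R A A' g d).x v'| ≤
        θ / 2 * (|C.Δ v'.1| * |C.x v.1 - C.x v'.1| + 2 * (C.σ (C.q v'.1) * (r / 64))) := by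
      have εR0 : 0 < ε * R := mul_pos P.ε0 (lt_of_lt_of_le one_pos P.R1)
      have a1 : |C.Δ v'.1| * (ε * R) ≤ C.σ (C.q v'.1) * (r / 64) := by
        have h1 : |C.Δ v'.1| * (ε * R) ≤ S * C.σ (C.q v'.1) * (ε * R) :=
          mul_le_mul_of_nonneg_right (hQ.hi v'.1) εR0.le
        have h2 : S * C.σ (C.q v'.1) * (ε * R) = C.σ (C.q v'.1) * (S * (ε * R)) := by ring
        rw [h2, P.SεR] at h1
        exact h1
      calc |(ins C G θ η ε R A A' g d).Δ v'| *
            |(ins C G θ η ε R A A' g d).x v - (ins C G θ η ε R A A' g d).x v'|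
          ≤ (θ / 2 * |C.Δ v'.1|) * (|C.x v.1 - C.x v'.1| + 2 * (ε * R)) :=
            mul_le_mul hΔ' hd (abs_nonneg _) (by (clear * - θ0 Δ'; positivity))
        _ = θ / 2 * (|C.Δ v'.1| * |C.x v.1 - C.x v'.1| + 2 * (|C.Δ v'.1| * (ε * R))) := by ring
        _ ≤ _ := by
            refine mul_le_mul_of_nonneg_left ?_ (by positivity)
            linarith only [a1]
    have hqq : (ins C G θ η ε R A A' g d).q v' = Sum.inr (v'.1, Sum.inl (G.L.q v'.2)) := rfl
    rw [hqq]
    refine le_trans hprod ?_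
    have hfin : θ / 2 * (|C.Δ v'.1| * |C.x v.1 - C.x v'.1| + 2 * (C.σ (C.q v'.1) * (r / 64))) ≤
        4 * |(ins C G θ η ε R A A' g d).H v (Sum.inr (v'.1, Sum.inl (G.L.q v'.2)))| := by
      by_cases hqu : C.q v'.1 = C.q v.1
      · have hH := near_ge (A := A) (A' := A') (g := g) (d := d) P hC hQ hG v v'.1
          (Sum.inl (G.L.q v'.2)) hqu hu
        have hlow := near_lower hC hQ v'.1 v.1 hqu hu
        rw [abs_mul] at hH hlow
        rw [hqu]
        have a1 : θ * (r * C.σ (C.q v.1)) ≤ θ * (|C.Δ v'.1| * |C.x v.1 - C.x v'.1|) :=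
          mul_le_mul_of_nonneg_left hlow θ0.le
        have a2 : 0 ≤ θ * (|C.Δ v'.1| * |C.x v.1 - C.x v'.1|) := by (clear * - θ0 Δ'; positivity)
        linarith only [hH, a1, a2]
      · have hqp : C.q v'.1 ≠ C.p v.1 := hC.bip v'.1 v.1
        have hH := abs_ge_of_close (far_inr (A := A) (A' := A') (g := g) (d := d) P hC hQ hG v
          v'.1 (Sum.inl (G.L.q v'.2)) hqu)
        have htol := hQ.tol v.1 v'.1 hqu
        have h3 := hQ.h3 v.1 (C.q v'.1) hqu hqp
        have a1 : θ * (|C.Δ v'.1| * |C.x v.1 - C.x v'.1|) ≤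
            θ * (T * |C.H v.1 (C.q v'.1)|) := mul_le_mul_of_nonneg_left htol θ0.le
        have a2 : θ * (T * |C.H v.1 (C.q v'.1)|) = 1 / 16 * |C.H v.1 (C.q v'.1)| := by
          rw [← mul_assoc, P.θT]
        have a3 : θ * (r * C.σ (C.q v'.1)) ≤ 1 / 16 * |C.H v.1 (C.q v'.1)| :=
          mul_le_mul θ1 h3 (mul_nonneg P.r0.le (hQ.σ_nonneg _)) (by norm_num)
        have a4 := abs_nonneg (C.H v.1 (C.q v'.1))
        linarith only [hH, a1, a2, a3, a4]
    refine le_trans hfin ?_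
    exact mul_le_mul_of_nonneg_right hbig (abs_nonneg _)

/-- T1b: clearances of the new configuration -/
theorem ins_quant (P : Par R ρ r S T θ η ε) (hC : C.Good) (hQ : C.Quant r S T)
    (hG : G.Ok R ρ Γ A A' g) {r' : ℝ} (hr0 : 0 < r') (hr : 4 * S * R * Γ * r' = ρ * ε) :
    (ins C G θ η ε R A A' g d).Quant r' (4 * R) (4 * R ^ 2 * Γ) where
  σ_nonneg k := by
    have θ0 := P.θ0
    have η0 := P.η0
    rcases k with ⟨k, b⟩ | ⟨u, j | j⟩
    · exact le_refl (0 : ℝ)
    · show 0 ≤ θ * η * |C.Δ u| / 2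
      (clear * - θ0 η0; positivity)
    · exact le_refl (0 : ℝ)
  σ_pos v := by
    have θ0 := P.θ0
    have η0 := P.η0
    have := Δ_pos hQ v.1
    show 0 < θ * η * |C.Δ v.1| / 2
    (clear * - θ0 η0 this; positivity)
  σ_eq _ := rfl
  lo v := by
    show θ * η * |C.Δ v.1| / 2 ≤ _
    have θ0 := P.θ0
    have η0 := P.η0
    rw [ins_Δ, abs_mul, abs_mul, abs_of_pos (mul_pos θ0 η0)]
    have h := mul_le_mul_of_nonneg_left (hG.lo v.2)
      (show 0 ≤ θ * η * |C.Δ v.1| by (clear * - θ0 η0; positivity))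
    linarith
  hi v := by
    show _ ≤ 4 * R * (θ * η * |C.Δ v.1| / 2)
    have h := ins_Δ_le (C := C) (d := d) P hG v
    linarith
  h1 v k hk hk' := by
    obtain ⟨E, e1, e2, e3, e4⟩ := ins_clear P hC hQ hG hr0 hr v k hk hk'
    exact le_trans (mul_le_mul_of_nonneg_left e1 hr0.le) e4
  h2 v k hk hk' := by
    obtain ⟨E, e1, e2, e3, e4⟩ := ins_clear P hC hQ hG hr0 hr v k hk hk'
    exact le_trans (mul_le_mul_of_nonneg_left e2 hr0.le) e4
  h3 v k hk hk' := by
    obtain ⟨E, e1, e2, e3, e4⟩ := ins_clear P hC hQ hG hr0 hr v k hk hk'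
    exact le_trans (mul_le_mul_of_nonneg_left e3 hr0.le) e4
  tol v v' h := ins_tol P hC hQ hG v v' h

omit [Fintype υ] in
theorem Cfg.Good.Δx (hC : C.Good) (u : υ) : C.Δ u * C.x u = C.t (C.q u) - C.t (C.p u) := by
  have h1 := hC.on_q u
  have h2 := hC.on_p u
  simp only [Cfg.H, Cfg.Δ] at *
  linear_combination h2 - h1

/-- T1b: bounds for the new configuration -/
theorem ins_bdd (P : Par R ρ r S T θ η ε) (hC : C.Good) (hQ : C.Quant r S T)
    (hG : G.Ok R ρ Γ A A' g) (hr1 : r ≤ 1) {B : ℝ} (hB : 1 ≤ B) (h : C.Bdd B) :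
    (ins C G θ η ε R A A' g d).Bdd (3 * B) := by
  have θ0 := P.θ0
  have θ1 := P.θ1
  have η0 := P.η0
  have η1 := η_le P
  have hR := P.R1
  have ε0 := P.ε0
  have hεR := P.εR'
  have hΔ : ∀ u, |C.Δ u| ≤ 2 * B := by
    intro u
    have a1 := h.m (C.p u)
    have a2 := h.m (C.q u)
    have a3 := abs_sub (C.m (C.p u)) (C.m (C.q u))
    unfold Cfg.Δ
    linarith only [a1, a2, a3]
  have hθΔ : ∀ u (j : κ ⊕ Bool), |θ * C.Δ u * satC G η j| ≤ B := by
    intro u j
    have a1 := abs_mul_le_mul (a := θ) (b := C.Δ u) (x := 1 / 16) (y := 2 * B)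
      (by rw [abs_of_pos θ0]; exact θ1) (hΔ u)
    have a2 := abs_mul_le_mul a1 (satC_le P hG j)
    linarith only [hB, a2]
  constructor
  · rintro (⟨k, b⟩ | ⟨u, j⟩)
    · show |C.m k| ≤ 3 * B
      have := h.m k
      linarith only [hB, this]
    · show |C.m (C.q u) + θ * C.Δ u * satC G η j| ≤ 3 * B
      have a1 := abs_add_le (C.m (C.q u)) (θ * C.Δ u * satC G η j)
      have a2 := h.m (C.q u)
      have a3 := hθΔ u j
      linarith only [hB, a1, a2, a3]
  · rintro (⟨k, b⟩ | ⟨u, j⟩)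
    · show |C.t k + ε * C.σ k * insOff C G θ R k b| ≤ 3 * B
      have a1 := abs_add_le (C.t k) (ε * C.σ k * insOff C G θ R k b)
      have a2 := h.t k
      have a3 := off_le (C := C) P hG k b
      have a4 := h.σ k
      have a5 := hQ.σ_nonneg k
      have a6 := abs_mul_le_mul (a := ε * C.σ k) (x := ε * C.σ k)
        (by rw [abs_of_nonneg (mul_nonneg ε0.le a5)]) a3
      have a7 : ε * C.σ k * (4 * R) = 4 * (ε * R) * C.σ k := by ring
      have a8 : 4 * (ε * R) * C.σ k ≤ 1 * B := by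
        refine mul_le_mul (by linarith only [hr1, hεR]) a4 a5 (by norm_num)
      linarith only [hB, a1, a2, a6, a8]
    · show |C.y u + θ * C.e ε u * satF G η R j
        - (C.m (C.q u) + θ * C.Δ u * satC G η j) * C.x u| ≤ 3 * B
      have e1 : C.y u + θ * C.e ε u * satF G η R j
        - (C.m (C.q u) + θ * C.Δ u * satC G η j) * C.x u =
          C.t (C.q u) + θ * (C.e ε u * satF G η R j) -
            θ * satC G η j * (C.Δ u * C.x u) := by
        have := hC.on_q u
        simp only [Cfg.H] at this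
        linear_combination -this
      rw [e1, hC.Δx u]
      have a1 := abs_sub (C.t (C.q u) + θ * (C.e ε u * satF G η R j))
        (θ * satC G η j * (C.t (C.q u) - C.t (C.p u)))
      have a2 := abs_add_le (C.t (C.q u)) (θ * (C.e ε u * satF G η R j))
      have a3 := h.t (C.q u)
      have a4 := h.t (C.p u)
      have a5 := abs_sub (C.t (C.q u)) (C.t (C.p u))
      have a6 := abs_mul_le_mul (a := θ) (b := satC G η j) (x := 1 / 16) (y := 5 / 4)
        (by rw [abs_of_pos θ0]; exact θ1) (satC_le P hG j)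
      have a7 := abs_mul_le_mul a6 (le_trans a5 (add_le_add a3 a4))
      have e0 := e_pos P hQ u
      have a8 := abs_mul_le_mul (a := C.e ε u) (x := C.e ε u)
        (by rw [abs_of_pos e0]) (satF_le P hG j)
      have a9 : C.e ε u * (4 * R) = 4 * (ε * R) * C.σ (C.q u) := by
        simp only [Cfg.e]; ring
      have a10 : 4 * (ε * R) * C.σ (C.q u) ≤ 1 * B := by
        refine mul_le_mul (by linarith only [hr1, hεR]) (h.σ _) (hQ.σ_nonneg _) (by norm_num)
      have a11 := abs_mul_le_mul (a := θ) (x := 1 / 16)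
        (by rw [abs_of_pos θ0]; exact θ1) (le_trans a8 (le_trans (le_of_eq a9) a10))
      linarith only [hB, a1, a2, a3, a7, a11]
  · rintro (⟨k, b⟩ | ⟨u, j | j⟩)
    · show (0 : ℝ) ≤ 3 * B
      linarith only [hB]
    · show θ * η * |C.Δ u| / 2 ≤ 3 * B
      have a1 : θ * η ≤ 1 / 16 * (1 / 4) := mul_le_mul θ1 η1 η0.le (by norm_num)
      have a2 : θ * η * |C.Δ u| ≤ 1 / 16 * (1 / 4) * (2 * B) :=
        mul_le_mul a1 (hΔ u) (abs_nonneg _) (by norm_num)
      linarith only [hB, a2]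
    · show (0 : ℝ) ≤ 3 * B
      linarith only [hB]

end quant

end Vale.Agent.P065
end
end
end

section

section

section

/-!
# P065: from lower bounds for halving configurations to lower bounds for `k`-sets (bookkeeping)
-/

namespace Vale.Agent.P065

open Filter

/-- sharp version of the transfer to `k`-sets -/
theorem ktransfer (F : ℕ → ℕ) (E : ℕ → ℕ → ℕ)
    (hF : ∃ (C : ℝ) (N : ℕ), 0 < C ∧ ∀ n : ℕ, N ≤ n → Even n →
      (n : ℝ) ^ (1 + Real.exp (-(C * Real.sqrt (Real.log (Real.log n))))) ≤ F n)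
    (hE : ∀ k n t : ℕ, 2 * k * t ≤ n → t * F (2 * k) ≤ E k n) :
    ∃ (C : ℝ) (K : ℕ), 0 < C ∧ ∀ k n : ℕ, K ≤ k → 2 * k ≤ n →
      (n : ℝ) * (k : ℝ) ^ Real.exp (-(C * Real.sqrt (Real.log (Real.log k)))) ≤ E k n := by
  obtain ⟨C0, N0, hC0, hF⟩ := hF
  have tend : Tendsto (fun n : ℕ => Real.sqrt (Real.log (Real.log n))) atTop atTop :=
    Real.tendsto_sqrt_atTop.comp (Real.tendsto_log_atTop.comp
      (Real.tendsto_log_atTop.comp tendsto_natCast_atTop_atTop))
  obtain ⟨K1, hK1⟩ := eventually_atTop.1 (tend.eventually_ge_atTop (2 * C0 + 3))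
  refine ⟨C0 + 1, K1 + N0 + 3, by linarith, fun k n hk hn => ?_⟩
  have hv := hK1 k (by omega)
  obtain ⟨v, hvdef⟩ : ∃ v : ℝ, v = Real.sqrt (Real.log (Real.log k)) := ⟨_, rfl⟩
  obtain ⟨w, hwdef⟩ : ∃ w : ℝ, w = Real.sqrt (Real.log (Real.log ((2 * k : ℕ) : ℝ))) := ⟨_, rfl⟩
  obtain ⟨l, hl⟩ : ∃ l : ℝ, l = Real.log k := ⟨_, rfl⟩
  obtain ⟨L, hL⟩ : ∃ L : ℝ, L = Real.log ((2 * k : ℕ) : ℝ) := ⟨_, rfl⟩
  rw [← hvdef] at hv ⊢
  have hk0 : (0 : ℝ) < k := by exact_mod_cast (by omega : 0 < k)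
  have hk1 : (1 : ℝ) ≤ k := by exact_mod_cast (by omega : 1 ≤ k)
  have hk2 : (0 : ℝ) < ((2 * k : ℕ) : ℝ) := by push_cast; linarith only [hk0]
  have hvpos : 0 < v := by linarith only [hC0, hv]
  have hlogl : 0 < Real.log l := by
    rw [hl]; exact Real.sqrt_pos.1 (by rw [← hvdef]; exact hvpos)
  have hl0 : 0 ≤ l := by rw [hl]; exact Real.log_nonneg hk1
  have hlpos : 0 < l := by
    rcases hl0.lt_or_eq with h | h
    · exact h
    · rw [← h] at hlogl; simp at hlogl
  have hvsq : v ^ 2 = Real.log l := by rw [hvdef, ← hl]; exact Real.sq_sqrt hlogl.le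
  have hl1 : 1 < l := by
    by_contra h
    push Not at h
    have := Real.log_nonpos hl0 h
    linarith only [hlogl, this]
  have hLl : L = l + Real.log 2 := by
    rw [hL, hl]
    push_cast
    rw [Real.log_mul (by norm_num) hk0.ne']
    ring
  have hlog2 : 0 < Real.log 2 := Real.log_pos (by norm_num)
  have hlog2' : Real.log 2 < 0.7 := by
    have := Real.log_two_lt_d9
    linarith only [this]
  have hLpos : 0 < L := by linarith only [hl1, hLl, hlog2]
  have hlogL : Real.log l ≤ Real.log L := Real.log_le_log hlpos (by linarith only [hLl, hlog2])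
  have hwsq : w ^ 2 = Real.log L := by
    rw [hwdef, ← hL]; exact Real.sq_sqrt (by linarith only [hlogl, hlogL])
  have hvw : v ≤ w := by
    rw [hvdef, hwdef, ← hl, ← hL]
    exact Real.sqrt_le_sqrt hlogL
  have hwv : w ≤ v + 1 := by
    have h1 : Real.log L ≤ Real.log l + Real.log 2 := by
      rw [← Real.log_mul hlpos.ne' (by norm_num)]
      apply Real.log_le_log hLpos
      linarith only [hl1, hLl, hlog2']
    have h2 : w ^ 2 ≤ (v + 1) ^ 2 := by
      rw [hwsq]
      linarith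
    exact le_of_sq_le_sq h2 (by linarith only [hC0, hv])
  -- the exponent inequality
  have hexp : Real.exp (-((C0 + 1) * v)) * l + Real.log 2 ≤ Real.exp (-(C0 * w)) * L := by
    have h1 : Real.exp (-((C0 + 1) * v)) ≤ Real.exp (-(C0 * w)) / 2 := by
      have h2 : (2 : ℝ) ≤ Real.exp 1 := by
        have := Real.exp_one_gt_d9
        linarith only [this]
      rw [le_div_iff₀ (by norm_num)]
      calc Real.exp (-((C0 + 1) * v)) * 2 ≤ Real.exp (-((C0 + 1) * v)) * Real.exp 1 := by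
            apply mul_le_mul_of_nonneg_left h2 (Real.exp_pos _).le
        _ = Real.exp (-((C0 + 1) * v) + 1) := by rw [Real.exp_add]
        _ ≤ Real.exp (-(C0 * w)) := by
            apply Real.exp_le_exp.2
            nlinarith only [hv, hC0, hwv]
    have h3 : Real.log 2 ≤ Real.exp (-(C0 * w)) * L / 2 := by
      have h4 : L = Real.exp (w ^ 2) := by rw [hwsq, Real.exp_log hLpos]
      have h5 : Real.exp (-(C0 * w)) * L = Real.exp (w ^ 2 - C0 * w) := by
        rw [h4, ← Real.exp_add]; congr 1; ring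
      have h6 : (1 : ℝ) ≤ w ^ 2 - C0 * w := by nlinarith only [hv, hvsq, hlogL, hwsq, hC0, hwv]
      have h7 : Real.exp 1 ≤ Real.exp (w ^ 2 - C0 * w) := Real.exp_le_exp.2 h6
      have h8 := Real.exp_one_gt_d9
      rw [h5]
      linarith only [hlog2', h7, h8]
    have h9 : 0 < Real.exp (-(C0 * w)) := Real.exp_pos _
    have h10 : Real.exp (-((C0 + 1) * v)) * l ≤ Real.exp (-(C0 * w)) / 2 * L :=
      mul_le_mul h1 (by linarith only [hLl, hlog2]) hl0 (by positivity)
    linarith only [h3, h10]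
  have hFk := hF (2 * k) (by (clear * - hk; omega)) (even_two_mul k)
  rw [← hwdef] at hFk
  -- number of blocks
  obtain ⟨t, ht⟩ : ∃ t : ℕ, t = n / (2 * k) := ⟨_, rfl⟩
  have hkpos : 0 < 2 * k := by omega
  have ht1 : 2 * k * t ≤ n := by rw [ht]; exact Nat.mul_div_le n (2 * k)
  have ht2 : n < 2 * k * (t + 1) := by
    rw [ht]; exact Nat.lt_mul_div_succ n hkpos
  have ht3 : 1 ≤ t := by
    rw [ht]; exact (Nat.one_le_div_iff hkpos).2 hn
  have ht4 : (n : ℝ) ≤ 2 * (2 * k) * t := by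
    have h1 : n ≤ 2 * (2 * k) * t := by nlinarith only [ht2, ht3]
    exact_mod_cast h1
  have hEk : (t : ℝ) * F (2 * k) ≤ E k n := by exact_mod_cast hE k n t ht1
  have hpow : ((2 * k : ℕ) : ℝ) ^ (1 + Real.exp (-(C0 * w))) =
      (2 * k) * Real.exp (L * Real.exp (-(C0 * w))) := by
    rw [Real.rpow_add hk2, Real.rpow_one, Real.rpow_def_of_pos hk2, ← hL]
    push_cast
    ring
  have hpow2 : (k : ℝ) ^ Real.exp (-((C0 + 1) * v)) = Real.exp (l * Real.exp (-((C0 + 1) * v))) := by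
    rw [Real.rpow_def_of_pos hk0, ← hl]
  have hmain : 2 * Real.exp (l * Real.exp (-((C0 + 1) * v))) ≤
      Real.exp (L * Real.exp (-(C0 * w))) := by
    have h1 : (2 : ℝ) = Real.exp (Real.log 2) := (Real.exp_log (by norm_num)).symm
    calc 2 * Real.exp (l * Real.exp (-((C0 + 1) * v)))
        = Real.exp (Real.log 2 + l * Real.exp (-((C0 + 1) * v))) := by
          rw [Real.exp_add, ← h1]
      _ ≤ _ := by
          apply Real.exp_le_exp.2
          linarith only [hexp]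
  rw [hpow2]
  obtain ⟨a, ha⟩ : ∃ a : ℝ, a = Real.exp (l * Real.exp (-((C0 + 1) * v))) := ⟨_, rfl⟩
  obtain ⟨b, hb⟩ : ∃ b : ℝ, b = Real.exp (L * Real.exp (-(C0 * w))) := ⟨_, rfl⟩
  rw [hpow, ← hb] at hFk
  rw [← ha, ← hb] at hmain
  rw [← ha]
  have ha0 : 0 < a := by rw [ha]; exact Real.exp_pos _
  have ht0 : (0 : ℝ) ≤ t := by (clear * - ht3; positivity)
  calc (n : ℝ) * a ≤ (2 * (2 * k) * t) * a := mul_le_mul_of_nonneg_right ht4 ha0.le
    _ = t * ((2 * k) * (2 * a)) := by ring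
    _ ≤ t * ((2 * k) * b) := by
        apply mul_le_mul_of_nonneg_left _ ht0
        apply mul_le_mul_of_nonneg_left hmain
        (clear * - hk0; positivity)
    _ ≤ t * F (2 * k) := mul_le_mul_of_nonneg_left hFk ht0
    _ ≤ E k n := hEk

end Vale.Agent.P065
end
end
end

section

section

section

/-!
# P065: from an indexed configuration with marks to a set in general position
-/

namespace Vale.Agent.P065

namespace Pt

open Finset Filter Topology

/-- height at abscissa `x` of the (non-vertical) line through `u` and `v` -/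
noncomputable def lineAt (u v : ℝ × ℝ) (x : ℝ) : ℝ :=
  u.2 + (v.2 - u.2) / (v.1 - u.1) * (x - u.1)

/-- `1`, `0`, `-1` according to `z` being above, on, below the line through `u` and `v` -/
noncomputable def sg3 (u v z : ℝ × ℝ) : ℤ :=
  (SignType.sign (z.2 - lineAt u v z.1) : SignType)

/-- `(i, j)` is a halving pair of the indexed family `p` -/
def Mk {ι : Type*} [Fintype ι] (p : ι → ℝ × ℝ) (i j : ι) : Prop :=
  (p i).1 ≠ (p j).1 ∧ (∀ k, sg3 (p i) (p j) (p k) = 0 → k = i ∨ k = j) ∧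
    ∑ k, sg3 (p i) (p j) (p k) = 0

lemma sg3_zero_iff {u v z : ℝ × ℝ} : sg3 u v z = 0 ↔ z.2 = lineAt u v z.1 := by
  unfold sg3
  rcases lt_trichotomy (z.2 - lineAt u v z.1) 0 with h | h | h
  · rw [sign_neg h]; constructor
    · intro h'; simp at h'
    · intro h'; linarith only [h, h']
  · rw [h, sign_zero]; constructor
    · intro _; linarith
    · intro _; simp
  · rw [sign_pos h]; constructor
    · intro h'; simp at h'
    · intro h'; linarith only [h, h']

lemma orient_eq_of_collinear {a b c : ℝ × ℝ}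
    (h : Collinear ℝ ({a, b, c} : Set (ℝ × ℝ))) : orient a b c = 0 := by
  rw [collinear_iff_of_mem (p₀ := a) (by simp)] at h
  obtain ⟨v, hv⟩ := h
  obtain ⟨r, hr⟩ := hv b (by simp)
  obtain ⟨s, hs⟩ := hv c (by simp)
  subst hr; subst hs
  simp only [orient, vadd_eq_add, Prod.fst_add, Prod.smul_fst, smul_eq_mul, add_sub_cancel_right, Prod.snd_add, Prod.smul_snd]
  ring

lemma sg3_eq_orient {u v z : ℝ × ℝ} (h : u.1 ≠ v.1) :
    z.2 - lineAt u v z.1 = orient u v z / (v.1 - u.1) := by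
  have h' : v.1 - u.1 ≠ 0 := sub_ne_zero.mpr (Ne.symm h)
  unfold lineAt orient
  field_simp
  ring

lemma quad_ne_zero (A B C : ℝ) (h : C ≠ 0) :
    ∀ᶠ ε in 𝓝[>] (0:ℝ), A + B * ε + C * ε ^ 2 ≠ 0 := by
  by_cases hA : A = 0
  · subst hA
    by_cases hB : B = 0
    · subst hB
      filter_upwards [self_mem_nhdsWithin] with ε hε
      have : (0:ℝ) < ε := hε
      have h2 : ε ^ 2 ≠ 0 := by positivity
      simpa using ⟨h, this.ne'⟩
    · have hc : Tendsto (fun ε : ℝ => B + C * ε) (𝓝[>] (0:ℝ)) (𝓝 (B + C * 0)) := by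
        apply Tendsto.mono_left _ nhdsWithin_le_nhds
        exact (Continuous.tendsto (by fun_prop) 0)
      have h1 : ∀ᶠ ε in 𝓝[>] (0:ℝ), B + C * ε ≠ 0 :=
        hc.eventually_ne (by simpa using hB)
      filter_upwards [h1, self_mem_nhdsWithin] with ε h2 hε
      have h3 : (0:ℝ) < ε := hε
      have : 0 + B * ε + C * ε ^ 2 = ε * (B + C * ε) := by ring
      rw [this]
      exact mul_ne_zero h3.ne' h2
  · have hc : Tendsto (fun ε : ℝ => A + B * ε + C * ε ^ 2) (𝓝[>] (0:ℝ))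
        (𝓝 (A + B * 0 + C * 0 ^ 2)) := by
      apply Tendsto.mono_left _ nhdsWithin_le_nhds
      exact (Continuous.tendsto (by fun_prop) 0)
    exact hc.eventually_ne (by simpa using hA)

/-- Perturbation lemma: an indexed family with a set `U` of marks yields a point set in general
position having at least `#U` halving pairs. -/
theorem exists_genPos_of_marks {ι : Type*} [Fintype ι] [DecidableEq ι] (p : ι → ℝ × ℝ)
    (U : Finset (ι × ι)) (hU : ∀ x ∈ U, Mk p x.1 x.2) (hasym : ∀ x ∈ U, (x.2, x.1) ∉ U) :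
    ∃ P : Finset (ℝ × ℝ), P.card = Fintype.card ι ∧ GenPos P ∧ U.card ≤ halvingNumber P := by
  classical
  set e : ι → ℝ := fun i => ((Fintype.equivFin ι i : ℕ) : ℝ) with he
  have einj : ∀ i j, i ≠ j → e i ≠ e j := by
    intro i j hij h
    apply hij
    have h' : ((Fintype.equivFin ι i : ℕ) : ℝ) = ((Fintype.equivFin ι j : ℕ) : ℝ) := h
    have : (Fintype.equivFin ι i : ℕ) = (Fintype.equivFin ι j : ℕ) := by
      exact_mod_cast h'
    exact (Fintype.equivFin ι).injective (Fin.ext this)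
  set q : ℝ → ι → ℝ × ℝ := fun ε i => ((p i).1 + ε * e i, (p i).2 + ε * (e i) ^ 2) with hq
  -- genericity
  have H1 : ∀ a b c : ι, a ≠ b → a ≠ c → b ≠ c →
      ∀ᶠ ε in 𝓝[>] (0:ℝ), orient (q ε a) (q ε b) (q ε c) ≠ 0 := by
    intro a b c hab hac hbc
    have hC : (e b - e a) * (e c - e a) * (e c - e b) ≠ 0 := by
      refine mul_ne_zero (mul_ne_zero ?_ ?_) ?_
      · exact sub_ne_zero.mpr (einj _ _ hab.symm)
      · exact sub_ne_zero.mpr (einj _ _ hac.symm)
      · exact sub_ne_zero.mpr (einj _ _ hbc.symm)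
    have := quad_ne_zero (orient (p a) (p b) (p c))
      (((p b).1 - (p a).1) * ((e c)^2 - (e a)^2) + (e b - e a) * ((p c).2 - (p a).2)
        - ((p b).2 - (p a).2) * (e c - e a) - ((e b)^2 - (e a)^2) * ((p c).1 - (p a).1)) _ hC
    filter_upwards [this] with ε hε
    intro h0
    apply hε
    rw [← h0]
    simp only [orient, hq]
    ring
  have H2 : ∀ a b : ι, a ≠ b → ∀ᶠ ε in 𝓝[>] (0:ℝ), (q ε a) ≠ (q ε b) := by
    intro a b hab
    have h1 : ∀ᶠ ε in 𝓝[>] (0:ℝ), ((p a).1 - (p b).1) + (e a - e b) * ε ≠ 0 := by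
      by_cases h0 : (p a).1 - (p b).1 = 0
      · filter_upwards [self_mem_nhdsWithin] with ε hε
        have h3 : (0:ℝ) < ε := hε
        rw [h0, zero_add]
        exact mul_ne_zero (sub_ne_zero.mpr (einj _ _ hab)) h3.ne'
      · have hc : Tendsto (fun ε : ℝ => ((p a).1 - (p b).1) + (e a - e b) * ε) (𝓝[>] (0:ℝ))
            (𝓝 (((p a).1 - (p b).1) + (e a - e b) * 0)) := by
          apply Tendsto.mono_left _ nhdsWithin_le_nhds
          exact (Continuous.tendsto (by fun_prop) 0)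
        exact hc.eventually_ne (by simpa using h0)
    filter_upwards [h1] with ε hε
    intro h0
    apply hε
    have := congrArg Prod.fst h0
    simp only [hq] at this
    linarith only [this]
  have H3 : ∀ x ∈ U, ∀ k, ∀ᶠ ε in 𝓝[>] (0:ℝ),
      SignType.sign (orient (q ε x.1) (q ε x.2) (q ε k)) =
        SignType.sign (orient (p x.1) (p x.2) (p k)) := by
    intro x hx k
    obtain ⟨hne, hz, -⟩ := hU x hx
    have hne' : x.1 ≠ x.2 := fun h => hne (by rw [h])
    by_cases hk1 : k = x.1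
    · refine Eventually.of_forall fun ε => ?_
      subst hk1
      have e1 : ∀ u v : ℝ × ℝ, orient u v u = 0 := by intro u v; simp [orient]
      rw [e1, e1]
    by_cases hk2 : k = x.2
    · refine Eventually.of_forall fun ε => ?_
      subst hk2
      have e1 : ∀ u v : ℝ × ℝ, orient u v v = 0 := by intro u v; simp [orient]; ring
      rw [e1, e1]
    have hc : Tendsto (fun ε : ℝ => orient (q ε x.1) (q ε x.2) (q ε k)) (𝓝[>] (0:ℝ))
        (𝓝 (orient (q 0 x.1) (q 0 x.2) (q 0 k))) := by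
      apply Tendsto.mono_left _ nhdsWithin_le_nhds
      refine (Continuous.tendsto ?_ 0)
      simp only [orient, hq]
      fun_prop
    have h0 : orient (q 0 x.1) (q 0 x.2) (q 0 k) = orient (p x.1) (p x.2) (p k) := by
      simp only [orient, hq, zero_mul, add_zero, Prod.mk.eta]
    rw [h0] at hc
    have hnz : orient (p x.1) (p x.2) (p k) ≠ 0 := by
      intro h0
      have : sg3 (p x.1) (p x.2) (p k) = 0 := by
        unfold sg3
        rw [sg3_eq_orient hne, h0]
        simp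
      rcases hz k this with h | h
      · exact hk1 h
      · exact hk2 h
    rcases lt_or_gt_of_ne hnz with h | h
    · filter_upwards [hc.eventually_lt_const h] with ε hε
      rw [sign_neg hε, sign_neg h]
    · filter_upwards [hc.eventually_const_lt h] with ε hε
      rw [sign_pos hε, sign_pos h]
  have HA : ∀ᶠ ε in 𝓝[>] (0:ℝ), (∀ a b c : ι, a ≠ b → a ≠ c → b ≠ c →
      orient (q ε a) (q ε b) (q ε c) ≠ 0) ∧ (∀ a b : ι, a ≠ b → (q ε a) ≠ (q ε b)) ∧
      (∀ x ∈ U, ∀ k, SignType.sign (orient (q ε x.1) (q ε x.2) (q ε k)) =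
        SignType.sign (orient (p x.1) (p x.2) (p k))) := by
    refine Filter.Eventually.and ?_ (Filter.Eventually.and ?_ ?_)
    · rw [Filter.eventually_all]; intro a
      rw [Filter.eventually_all]; intro b
      rw [Filter.eventually_all]; intro c
      by_cases h : a ≠ b ∧ a ≠ c ∧ b ≠ c
      · filter_upwards [H1 a b c h.1 h.2.1 h.2.2] with ε hε _ _ _ using hε
      · exact Eventually.of_forall fun ε h1 h2 h3 => (h ⟨h1, h2, h3⟩).elim
    · rw [Filter.eventually_all]; intro a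
      rw [Filter.eventually_all]; intro b
      by_cases h : a ≠ b
      · filter_upwards [H2 a b h] with ε hε _ using hε
      · exact Eventually.of_forall fun ε h1 => (h h1).elim
    · rw [Filter.eventually_all_finset]; intro x hx
      rw [Filter.eventually_all]; intro k
      exact H3 x hx k
  obtain ⟨ε, hε1, hε2, hε3⟩ := HA.exists
  have qinj : Function.Injective (q ε) := by
    intro a b hab
    by_contra h
    exact hε2 a b h hab
  refine ⟨univ.image (q ε), ?_, ?_, ?_⟩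
  · rw [card_image_of_injective _ qinj, card_univ]
  · intro a ha b hb c hc hab hac hbc hcol
    simp only [mem_image, mem_univ, true_and] at ha hb hc
    obtain ⟨i, rfl⟩ := ha
    obtain ⟨j, rfl⟩ := hb
    obtain ⟨k, rfl⟩ := hc
    exact hε1 i j k (fun h => hab (by rw [h])) (fun h => hac (by rw [h]))
      (fun h => hbc (by rw [h])) (orient_eq_of_collinear hcol)
  · -- counting
    set P := univ.image (q ε) with hP
    have hcardP : P.card = Fintype.card ι := by
      rw [hP, card_image_of_injective _ qinj, card_univ]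
    have hpos : ∀ x ∈ U, IsHalving P (q ε x.1) (q ε x.2) := by
      intro x hx
      obtain ⟨hne, hz, hs⟩ := hU x hx
      have hne' : x.1 ≠ x.2 := fun h => hne (by rw [h])
      refine ⟨hε2 _ _ hne', ?_⟩
      -- counts of positive and negative indices
      have c1 : {c ∈ P | 0 < orient (q ε x.1) (q ε x.2) c}.card =
          (univ.filter fun k => 0 < orient (p x.1) (p x.2) (p k)).card := by
        rw [hP, filter_image, card_image_of_injective _ qinj]
        congr 1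
        ext k
        simp only [mem_filter, mem_univ, true_and]
        rw [← sign_eq_one_iff, ← sign_eq_one_iff, hε3 x hx k]
      have c2 : {c ∈ P | orient (q ε x.1) (q ε x.2) c < 0}.card =
          (univ.filter fun k => orient (p x.1) (p x.2) (p k) < 0).card := by
        rw [hP, filter_image, card_image_of_injective _ qinj]
        congr 1
        ext k
        simp only [mem_filter, mem_univ, true_and]
        rw [← sign_eq_neg_one_iff, ← sign_eq_neg_one_iff, hε3 x hx k]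
      rw [c1, c2, hcardP]
      set f : ι → ℝ := fun k => orient (p x.1) (p x.2) (p k) with hf
      have hfz : ∀ k, f k = 0 ↔ (k = x.1 ∨ k = x.2) := by
        intro k
        constructor
        · intro h0
          apply hz k
          unfold sg3
          rw [sg3_eq_orient hne]
          simp only [hf] at h0
          rw [h0]; simp
        · rintro (rfl | rfl)
          · simp [hf, orient]
          · simp only [hf, orient]; ring
      have hcz : (univ.filter fun k => f k = 0).card = 2 := by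
        have : (univ.filter fun k => f k = 0) = {x.1, x.2} := by
          ext k
          simp only [mem_filter, mem_univ, hfz k, true_and, mem_insert, mem_singleton]
        rw [this, card_pair hne']
      have htot : (univ.filter fun k => 0 < f k).card + (univ.filter fun k => f k < 0).card
          + (univ.filter fun k => f k = 0).card = Fintype.card ι := by
        rw [← card_univ, ← card_union_of_disjoint, ← card_union_of_disjoint]
        · congr 1
          ext k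
          simp only [mem_union, mem_filter, mem_univ, true_and, iff_true]
          rcases lt_trichotomy (f k) 0 with h | h | h
          · left; right; exact h
          · right; exact h
          · left; left; exact h
        · rw [disjoint_left]
          intro k
          simp only [mem_union, mem_filter, mem_univ, true_and]
          rintro (h | h) h'
          · linarith only [h, h']
          · linarith only [h, h']
        · rw [disjoint_left]
          intro k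
          simp only [mem_filter, mem_univ, true_and]
          intro h h'
          linarith only [h, h']
      have hbal : (univ.filter fun k => 0 < f k).card = (univ.filter fun k => f k < 0).card := by
        have hsum : ∑ k, (SignType.sign (f k) : ℤ) = 0 := by
          rcases lt_or_gt_of_ne (sub_ne_zero.mpr hne) with hd | hd
          · -- x.1 < x.2 in abscissa
            have : ∀ k, sg3 (p x.1) (p x.2) (p k) = (SignType.sign (f k) : ℤ) := by
              intro k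
              unfold sg3
              rw [sg3_eq_orient hne]
              have hd' : 0 < (p x.2).1 - (p x.1).1 := by linarith only [hd]
              rcases lt_trichotomy (f k) 0 with h | h | h
              · rw [sign_neg h, sign_neg (div_neg_of_neg_of_pos h hd')]
              · have : orient (p x.1) (p x.2) (p k) = 0 := h
                rw [h, this]; simp
              · rw [sign_pos h, sign_pos (div_pos h hd')]
            rw [← hs]
            exact (Finset.sum_congr rfl fun k _ => (this k).symm)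
          · have : ∀ k, sg3 (p x.1) (p x.2) (p k) = -(SignType.sign (f k) : ℤ) := by
              intro k
              unfold sg3
              rw [sg3_eq_orient hne]
              have hd' : (p x.2).1 - (p x.1).1 < 0 := by linarith only [hd]
              rcases lt_trichotomy (f k) 0 with h | h | h
              · rw [sign_neg h, sign_pos (div_pos_of_neg_of_neg h hd')]; simp
              · have : orient (p x.1) (p x.2) (p k) = 0 := h
                rw [h, this]; simp only [zero_div, sign_zero, SignType.coe_zero, neg_zero]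
              · rw [sign_pos h, sign_neg (div_neg_of_pos_of_neg h hd')]; simp
            have h2 : ∑ k, sg3 (p x.1) (p x.2) (p k) = - ∑ k, (SignType.sign (f k) : ℤ) := by
              rw [← Finset.sum_neg_distrib]
              exact Finset.sum_congr rfl fun k _ => this k
            rw [hs] at h2
            linarith only [h2]
        have hsg : ∀ k, (SignType.sign (f k) : ℤ) =
            (if 0 < f k then 1 else 0) - (if f k < 0 then 1 else 0) := by
          intro k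
          rcases lt_trichotomy (f k) 0 with h | h | h
          · rw [sign_neg h]; simp [h, not_lt.mpr h.le]
          · rw [h]; simp
          · rw [sign_pos h]; simp [h, not_lt.mpr h.le]
        rw [Finset.sum_congr rfl fun k _ => hsg k, Finset.sum_sub_distrib] at hsum
        simp only [Finset.sum_boole] at hsum
        have : (((univ.filter fun k => 0 < f k).card : ℕ) : ℤ) =
            ((univ.filter fun k => f k < 0).card : ℕ) := by linarith only [hsum]
        exact_mod_cast this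
      constructor
      · change 2 * (univ.filter fun k => 0 < f k).card + 2 = _
        omega
      · change 2 * (univ.filter fun k => f k < 0).card + 2 = _
        omega
    unfold halvingNumber
    -- injection
    refine card_le_card_of_injOn (fun x => {q ε x.1, q ε x.2}) ?_ ?_
    · intro x hx
      have hx' : x ∈ U := hx
      have hh := hpos x hx'
      simp only [coe_filter, Set.mem_ofPred_eq, mem_powersetCard]
      refine ⟨⟨?_, ?_⟩, q ε x.1, q ε x.2, rfl, hh⟩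
      · intro z hz
        simp only [mem_insert, mem_singleton] at hz
        rcases hz with rfl | rfl
        · exact mem_image_of_mem _ (mem_univ _)
        · exact mem_image_of_mem _ (mem_univ _)
      · exact card_pair hh.1
    · intro x hx y hy hxy
      have hx' : x ∈ U := hx
      have hy' : y ∈ U := hy
      simp only at hxy
      have h1 : q ε x.1 ∈ ({q ε y.1, q ε y.2} : Finset (ℝ × ℝ)) := by
        rw [← hxy]; simp
      have h2 : q ε x.2 ∈ ({q ε y.1, q ε y.2} : Finset (ℝ × ℝ)) := by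
        rw [← hxy]; simp
      simp only [mem_insert, mem_singleton] at h1 h2
      have hne : x.1 ≠ x.2 := fun h => (hU x hx').1 (by rw [h])
      rcases h1 with h1 | h1
      · rcases h2 with h2 | h2
        · exact (hne (qinj (h1.trans h2.symm))).elim
        · exact Prod.ext (qinj h1) (qinj h2)
      · rcases h2 with h2 | h2
        · exfalso
          apply hasym y hy'
          have : (y.2, y.1) = x := Prod.ext (qinj h1).symm (qinj h2).symm
          rw [this]; exact hx'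
        · exact (hne (qinj (h1.trans h2.symm))).elim

end Pt

end Vale.Agent.P065
end
end
end

section

section

section

/-!
# P065: a good configuration with `V` used vertices and total weight `n` gives `V ≤ h(n)`
-/

namespace Vale.Agent.P065

open Finset

theorem Pt.sign_eq_sg (x : ℝ) : ((SignType.sign x : SignType) : ℤ) = sg x := by
  rcases lt_trichotomy x 0 with h | h | h
  · rw [sign_neg h]; simp [sg, h, not_lt.2 h.le]
  · rw [h]; simp [sg]
  · rw [sign_pos h]; simp [sg, h]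

/-- A good configuration of total weight `n` with `V` used vertices gives an `n`-point set in
general position with at least `V` halving lines. -/
theorem Cfg.Good.card_le_hmax {ι υ : Type} [Fintype ι] [Fintype υ] {C : Cfg ι υ} (hC : C.Good) :
    Fintype.card υ ≤ hmax C.wt := by
  classical
  -- the index type of the point set
  let I : Type := Σ k : ι, Fin (C.w k)
  let p : I → ℝ × ℝ := fun i => (C.m i.1, C.t i.1)
  have hq0 : ∀ v, 0 < C.w (C.q v) := fun v => by rw [hC.w_q]; exact one_pos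
  have hp0 : ∀ v, 0 < C.w (C.p v) := fun v => by rw [hC.w_p]; exact one_pos
  let fq : υ → I := fun v => ⟨C.q v, ⟨0, hq0 v⟩⟩
  let fp : υ → I := fun v => ⟨C.p v, ⟨0, hp0 v⟩⟩
  have huq : ∀ v (i : I), i.1 = C.q v → i = fq v := by
    rintro v ⟨k, c⟩ h
    simp only at h
    subst h
    have : C.w (C.q v) = 1 := hC.w_q v
    have hc : c = ⟨0, hq0 v⟩ := by
      apply Fin.ext
      have := c.2
      simp only
      omega
    rw [hc]
  have hup : ∀ v (i : I), i.1 = C.p v → i = fp v := by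
    rintro v ⟨k, c⟩ h
    simp only at h
    subst h
    have : C.w (C.p v) = 1 := hC.w_p v
    have hc : c = ⟨0, hp0 v⟩ := by
      apply Fin.ext
      have := c.2
      simp only
      omega
    rw [hc]
  have hline : ∀ v (i : I), (p i).2 - Pt.lineAt (p (fq v)) (p (fp v)) (p i).1 = C.H v i.1 := by
    intro v i
    have h1 := hC.on_q v
    have h2 := hC.on_p v
    have h3 := hC.ne v
    unfold Cfg.Δ at h3
    unfold Cfg.H at h1 h2 ⊢
    simp only [Pt.lineAt, p, fq, fp]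
    have h4 : (C.t (C.p v) - C.t (C.q v)) / (C.m (C.p v) - C.m (C.q v)) = - C.x v := by
      rw [div_eq_iff h3]
      linarith
    rw [h4]
    linarith only [h1]
  have hsg : ∀ v (i : I), Pt.sg3 (p (fq v)) (p (fp v)) (p i) = sg (C.H v i.1) := by
    intro v i
    unfold Pt.sg3
    rw [hline v i, Pt.sign_eq_sg]
  have hmk : ∀ v, Pt.Mk p (fq v) (fp v) := by
    intro v
    refine ⟨?_, ?_, ?_⟩
    · intro h
      apply hC.ne v
      have h' : C.m (C.q v) = C.m (C.p v) := h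
      unfold Cfg.Δ
      rw [h', sub_self]
    · intro i hi
      by_contra hcon
      push Not at hcon
      have h1 : i.1 ≠ C.q v := fun h => hcon.1 (huq v i h)
      have h2 : i.1 ≠ C.p v := fun h => hcon.2 (hup v i h)
      have h3 := hC.off v i.1 h1 h2
      have h4 : Pt.sg3 (p (fq v)) (p (fp v)) (p i) = 0 := hi
      rw [Pt.sg3_zero_iff] at h4
      have h5 := hline v i
      rw [h4, sub_self] at h5
      exact h3 h5.symm
    · have : ∑ i : I, Pt.sg3 (p (fq v)) (p (fp v)) (p i) = ∑ i : I, sg (C.H v i.1) :=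
        Finset.sum_congr rfl fun i _ => hsg v i
      rw [this, Fintype.sum_sigma]
      rw [← hC.bal v]
      refine Finset.sum_congr rfl fun k _ => ?_
      simp only [sum_const, card_univ, Fintype.card_fin, Int.nsmul_eq_mul]
  let U : Finset (I × I) := univ.image fun v => (fq v, fp v)
  have hUcard : U.card = Fintype.card υ := by
    rw [card_image_of_injective, card_univ]
    intro v v' h
    have h1 : fq v = fq v' := congrArg Prod.fst h
    have h2 : fp v = fp v' := congrArg Prod.snd h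
    exact hC.inj v v' (congrArg Sigma.fst h1) (congrArg Sigma.fst h2)
  obtain ⟨P, hP1, hP2, hP3⟩ := Pt.exists_genPos_of_marks p U
    (by
      intro x hx
      simp only [U, mem_image, mem_univ, true_and] at hx
      obtain ⟨v, rfl⟩ := hx
      exact hmk v)
    (by
      intro x hx hx'
      simp only [U, mem_image, mem_univ, true_and] at hx hx'
      obtain ⟨v, rfl⟩ := hx
      obtain ⟨v', hv'⟩ := hx'
      have h1 : fq v' = fp v := congrArg Prod.fst hv'
      exact hC.bip v' v (congrArg Sigma.fst h1))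
  have hcardI : Fintype.card I = C.wt := by
    simp only [Fintype.card_sigma, Fintype.card_fin, wt, I]
  rw [hUcard] at hP3
  rw [hcardI] at hP1
  exact hP3.trans (halvingNumber_le_hmax hP1 hP2)

end Vale.Agent.P065
end
end
end

section

section

section

/-!
# P065: from a good configuration of weight `2k` to many `k`-sets of `n`-point sets
-/

namespace Vale.Agent.P065

open Finset Filter Topology

namespace Pt

/-- general perturbation lemma: an indexed family can be perturbed to general position, keeping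
the strict sign patterns with respect to the lines spanned by finitely many pairs. -/
theorem exists_perturb {ι : Type*} [Fintype ι] [DecidableEq ι] (p : ι → ℝ × ℝ)
    (U : Finset (ι × ι)) (hlt : ∀ x ∈ U, (p x.1).1 < (p x.2).1)
    (hU : ∀ x ∈ U, ∀ k, k ≠ x.1 → k ≠ x.2 → orient (p x.1) (p x.2) (p k) ≠ 0) :
    ∃ q : ι → ℝ × ℝ, Function.Injective q ∧
      (∀ a b c : ι, a ≠ b → a ≠ c → b ≠ c → orient (q a) (q b) (q c) ≠ 0) ∧
      (∀ x ∈ U, (q x.1).1 < (q x.2).1) ∧
      (∀ x ∈ U, ∀ k, SignType.sign (orient (q x.1) (q x.2) (q k)) =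
        SignType.sign (orient (p x.1) (p x.2) (p k))) := by
  classical
  set e : ι → ℝ := fun i => ((Fintype.equivFin ι i : ℕ) : ℝ) with he
  have einj : ∀ i j, i ≠ j → e i ≠ e j := by
    intro i j hij h
    apply hij
    have h' : ((Fintype.equivFin ι i : ℕ) : ℝ) = ((Fintype.equivFin ι j : ℕ) : ℝ) := h
    have : (Fintype.equivFin ι i : ℕ) = (Fintype.equivFin ι j : ℕ) := by
      exact_mod_cast h'
    exact (Fintype.equivFin ι).injective (Fin.ext this)
  set q : ℝ → ι → ℝ × ℝ := fun ε i => ((p i).1 + ε * e i, (p i).2 + ε * (e i) ^ 2) with hq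
  have H1 : ∀ a b c : ι, a ≠ b → a ≠ c → b ≠ c →
      ∀ᶠ ε in 𝓝[>] (0:ℝ), orient (q ε a) (q ε b) (q ε c) ≠ 0 := by
    intro a b c hab hac hbc
    have hC : (e b - e a) * (e c - e a) * (e c - e b) ≠ 0 := by
      refine mul_ne_zero (mul_ne_zero ?_ ?_) ?_
      · exact sub_ne_zero.mpr (einj _ _ hab.symm)
      · exact sub_ne_zero.mpr (einj _ _ hac.symm)
      · exact sub_ne_zero.mpr (einj _ _ hbc.symm)
    have := quad_ne_zero (orient (p a) (p b) (p c))
      (((p b).1 - (p a).1) * ((e c)^2 - (e a)^2) + (e b - e a) * ((p c).2 - (p a).2)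
        - ((p b).2 - (p a).2) * (e c - e a) - ((e b)^2 - (e a)^2) * ((p c).1 - (p a).1)) _ hC
    filter_upwards [this] with ε hε
    intro h0
    apply hε
    rw [← h0]
    simp only [orient, hq]
    ring
  have H2 : ∀ a b : ι, a ≠ b → ∀ᶠ ε in 𝓝[>] (0:ℝ), (q ε a) ≠ (q ε b) := by
    intro a b hab
    have h1 : ∀ᶠ ε in 𝓝[>] (0:ℝ), ((p a).1 - (p b).1) + (e a - e b) * ε ≠ 0 := by
      by_cases h0 : (p a).1 - (p b).1 = 0
      · filter_upwards [self_mem_nhdsWithin] with ε hε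
        have h3 : (0:ℝ) < ε := hε
        rw [h0, zero_add]
        exact mul_ne_zero (sub_ne_zero.mpr (einj _ _ hab)) h3.ne'
      · have hc : Tendsto (fun ε : ℝ => ((p a).1 - (p b).1) + (e a - e b) * ε) (𝓝[>] (0:ℝ))
            (𝓝 (((p a).1 - (p b).1) + (e a - e b) * 0)) := by
          apply Tendsto.mono_left _ nhdsWithin_le_nhds
          exact (Continuous.tendsto (by fun_prop) 0)
        exact hc.eventually_ne (by simpa using h0)
    filter_upwards [h1] with ε hε
    intro h0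
    apply hε
    have := congrArg Prod.fst h0
    simp only [hq] at this
    linarith only [this]
  have H4 : ∀ x ∈ U, ∀ᶠ ε in 𝓝[>] (0:ℝ), (q ε x.1).1 < (q ε x.2).1 := by
    intro x hx
    have hc : Tendsto (fun ε : ℝ => (q ε x.2).1 - (q ε x.1).1) (𝓝[>] (0:ℝ))
        (𝓝 ((q 0 x.2).1 - (q 0 x.1).1)) := by
      apply Tendsto.mono_left _ nhdsWithin_le_nhds
      refine (Continuous.tendsto ?_ 0)
      simp only [hq]
      fun_prop
    have h0 : 0 < (q 0 x.2).1 - (q 0 x.1).1 := by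
      have := hlt x hx
      simp only [hq]
      linarith
    filter_upwards [hc.eventually_const_lt h0] with ε hε
    linarith
  have H3 : ∀ x ∈ U, ∀ k, ∀ᶠ ε in 𝓝[>] (0:ℝ),
      SignType.sign (orient (q ε x.1) (q ε x.2) (q ε k)) =
        SignType.sign (orient (p x.1) (p x.2) (p k)) := by
    intro x hx k
    by_cases hk1 : k = x.1
    · refine Eventually.of_forall fun ε => ?_
      subst hk1
      have e1 : ∀ u v : ℝ × ℝ, orient u v u = 0 := by intro u v; simp [orient]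
      rw [e1, e1]
    by_cases hk2 : k = x.2
    · refine Eventually.of_forall fun ε => ?_
      subst hk2
      have e1 : ∀ u v : ℝ × ℝ, orient u v v = 0 := by intro u v; simp [orient]; ring
      rw [e1, e1]
    have hc : Tendsto (fun ε : ℝ => orient (q ε x.1) (q ε x.2) (q ε k)) (𝓝[>] (0:ℝ))
        (𝓝 (orient (q 0 x.1) (q 0 x.2) (q 0 k))) := by
      apply Tendsto.mono_left _ nhdsWithin_le_nhds
      refine (Continuous.tendsto ?_ 0)
      simp only [orient, hq]
      fun_prop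
    have h0 : orient (q 0 x.1) (q 0 x.2) (q 0 k) = orient (p x.1) (p x.2) (p k) := by
      simp only [orient, hq, zero_mul, add_zero, Prod.mk.eta]
    rw [h0] at hc
    have hnz : orient (p x.1) (p x.2) (p k) ≠ 0 := hU x hx k hk1 hk2
    rcases lt_or_gt_of_ne hnz with h | h
    · filter_upwards [hc.eventually_lt_const h] with ε hε
      rw [sign_neg hε, sign_neg h]
    · filter_upwards [hc.eventually_const_lt h] with ε hε
      rw [sign_pos hε, sign_pos h]
  have HA : ∀ᶠ ε in 𝓝[>] (0:ℝ), (∀ a b c : ι, a ≠ b → a ≠ c → b ≠ c →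
      orient (q ε a) (q ε b) (q ε c) ≠ 0) ∧ (∀ a b : ι, a ≠ b → (q ε a) ≠ (q ε b)) ∧
      (∀ x ∈ U, (q ε x.1).1 < (q ε x.2).1) ∧
      (∀ x ∈ U, ∀ k, SignType.sign (orient (q ε x.1) (q ε x.2) (q ε k)) =
        SignType.sign (orient (p x.1) (p x.2) (p k))) := by
    refine Filter.Eventually.and ?_ (Filter.Eventually.and ?_ (Filter.Eventually.and ?_ ?_))
    · rw [Filter.eventually_all]; intro a
      rw [Filter.eventually_all]; intro b
      rw [Filter.eventually_all]; intro c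
      by_cases h : a ≠ b ∧ a ≠ c ∧ b ≠ c
      · filter_upwards [H1 a b c h.1 h.2.1 h.2.2] with ε hε _ _ _ using hε
      · exact Eventually.of_forall fun ε h1 h2 h3 => (h ⟨h1, h2, h3⟩).elim
    · rw [Filter.eventually_all]; intro a
      rw [Filter.eventually_all]; intro b
      by_cases h : a ≠ b
      · filter_upwards [H2 a b h] with ε hε _ using hε
      · exact Eventually.of_forall fun ε h1 => (h h1).elim
    · rw [Filter.eventually_all_finset]; intro x hx
      exact H4 x hx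
    · rw [Filter.eventually_all_finset]; intro x hx
      rw [Filter.eventually_all]; intro k
      exact H3 x hx k
  obtain ⟨ε, hε1, hε2, hε3, hε4⟩ := HA.exists
  refine ⟨q ε, ?_, hε1, hε3, hε4⟩
  intro a b hab
  by_contra h
  exact hε2 a b h hab

/-- Counting `k`-sets: every mark `(i, j)` (with `i` to the left of `j`, and exactly `k - 1` points
strictly below the line) gives its own `k`-set. -/
theorem card_le_kSetNumber {ι : Type*} [Fintype ι] [DecidableEq ι] (q : ι → ℝ × ℝ)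
    (hinj : Function.Injective q) (U : Finset (ι × ι)) (k : ℕ)
    (hlt : ∀ x ∈ U, (q x.1).1 < (q x.2).1)
    (hU : ∀ x ∈ U, ∀ c, c ≠ x.1 → c ≠ x.2 → orient (q x.1) (q x.2) (q c) ≠ 0)
    (hcard : ∀ x ∈ U,
      (univ.filter fun c => orient (q x.1) (q x.2) (q c) < 0).card + 1 = k) :
    U.card ≤ kSetNumber (univ.image q) k := by
  classical
  set B : ι × ι → Finset ι := fun x =>
    insert x.1 (univ.filter fun c => orient (q x.1) (q x.2) (q c) < 0) with hB
  have o1 : ∀ u v : ℝ × ℝ, orient u v u = 0 := by intro u v; simp [orient]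
  have o2 : ∀ u v : ℝ × ℝ, orient u v v = 0 := by intro u v; simp [orient]; ring
  have hBcard : ∀ x ∈ U, (B x).card = k := by
    intro x hx
    rw [hB]
    simp only
    rw [card_insert_of_notMem, hcard x hx]
    simp only [mem_filter, mem_univ, o1, lt_self_iff_false, and_false, not_false_eq_true]
  have hnot : ∀ x ∈ U, ∀ c, c ∉ B x → 0 < orient (q x.1) (q x.2) (q c) ∨ c = x.2 := by
    intro x hx c hc
    simp only [hB, mem_insert, mem_filter, mem_univ, true_and, not_or, not_lt] at hc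
    by_cases h2 : c = x.2
    · right; exact h2
    · left
      exact lt_of_le_of_ne hc.2 (hU x hx c hc.1 h2).symm
  unfold kSetNumber
  refine card_le_card_of_injOn (fun x => (B x).image q) ?_ ?_
  · intro x hx
    have hx' : x ∈ U := hx
    simp only [coe_filter, Set.mem_ofPred_eq, mem_powerset]
    have hsub : (B x).image q ⊆ univ.image q := image_subset_image (subset_univ _)
    refine ⟨hsub, hsub, ?_, ?_⟩
    · rw [card_image_of_injective _ hinj]
      exact hBcard x hx'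
    · -- separating line: rotate the line about the midpoint
      set u := q x.1 with hu
      set v := q x.2 with hv
      have hxy : u.1 < v.1 := hlt x hx'
      set mid : ℝ := (u.1 + v.1) / 2 with hmid
      have key : ∀ᶠ ε in 𝓝[>] (0:ℝ), (∀ c, (c ∈ B x → orient u v (q c) + ε * ((q c).1 - mid) < 0) ∧
          (c ∉ B x → 0 < orient u v (q c) + ε * ((q c).1 - mid))) := by
        rw [Filter.eventually_all]
        intro c
        have hc : Tendsto (fun ε : ℝ => orient u v (q c) + ε * ((q c).1 - mid)) (𝓝[>] (0:ℝ))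
            (𝓝 (orient u v (q c) + 0 * ((q c).1 - mid))) := by
          apply Tendsto.mono_left _ nhdsWithin_le_nhds
          exact (Continuous.tendsto (by fun_prop) 0)
        rw [zero_mul, add_zero] at hc
        by_cases hcB : c ∈ B x
        · have h1 := hcB
          simp only [hB, mem_insert, mem_filter, mem_univ, true_and] at h1
          rcases h1 with h1 | h1
          · filter_upwards [self_mem_nhdsWithin] with ε hε
            have h3 : (0:ℝ) < ε := hε
            refine ⟨fun _ => ?_, fun h => (h hcB).elim⟩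
            have h4 : orient u v (q c) = 0 := by rw [h1]; exact o1 u v
            have h5 : (q c).1 - mid < 0 := by
              rw [h1, ← hu, hmid]; linarith only [hxy]
            rw [h4, zero_add]
            exact mul_neg_of_pos_of_neg h3 h5
          · filter_upwards [hc.eventually_lt_const h1] with ε hε
            exact ⟨fun _ => hε, fun h => (h hcB).elim⟩
        · rcases hnot x hx' c hcB with h1 | h1
          · filter_upwards [hc.eventually_const_lt h1] with ε hε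
            exact ⟨fun h => (hcB h).elim, fun _ => hε⟩
          · filter_upwards [self_mem_nhdsWithin] with ε hε
            have h3 : (0:ℝ) < ε := hε
            refine ⟨fun h => (hcB h).elim, fun _ => ?_⟩
            have h4 : orient u v (q c) = 0 := by rw [h1]; exact o2 u v
            have h5 : 0 < (q c).1 - mid := by
              rw [h1, ← hv, hmid]; linarith only [hxy]
            rw [h4, zero_add]
            exact mul_pos h3 h5
      obtain ⟨ε, hε⟩ := key.exists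
      have hform : ∀ z : ℝ × ℝ, orient u v z + ε * (z.1 - mid) =
          (ε - (v.2 - u.2)) * z.1 + (v.1 - u.1) * z.2 -
            (ε * mid + (v.1 - u.1) * u.2 - (v.2 - u.2) * u.1) := by
        intro z; unfold orient; ring
      refine ⟨ε - (v.2 - u.2), v.1 - u.1, ε * mid + (v.1 - u.1) * u.2 - (v.2 - u.2) * u.1,
        Or.inr (sub_pos.mpr hxy).ne', ?_, ?_⟩
      · intro z hz
        rw [mem_image] at hz
        obtain ⟨c, hc, rfl⟩ := hz
        have := (hε c).1 hc
        rw [hform] at this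
        linarith only [this]
      · intro z hz hz'
        rw [mem_image] at hz
        obtain ⟨c, -, rfl⟩ := hz
        have hcB : c ∉ B x := fun h => hz' (mem_image_of_mem _ h)
        have := (hε c).2 hcB
        rw [hform] at this
        linarith only [this]
  · intro x hx y hy hxy
    have hx' : x ∈ U := hx
    have hy' : y ∈ U := hy
    have hBB : B x = B y := image_injective hinj hxy
    -- x.1, y.1 in both sets; x.2, y.2 in neither
    have hlx := hlt x hx'
    have hly := hlt y hy'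
    have hle : ∀ z ∈ U, ∀ c ∈ B z, orient (q z.1) (q z.2) (q c) ≤ 0 := by
      intro z hz c hc
      simp only [hB, mem_insert, mem_filter, mem_univ, true_and] at hc
      rcases hc with hc | hc
      · rw [hc, o1]
      · exact hc.le
    have hge : ∀ z ∈ U, ∀ c, c ∉ B z → 0 ≤ orient (q z.1) (q z.2) (q c) := by
      intro z hz c hc
      rcases hnot z hz c hc with h | h
      · exact h.le
      · rw [h, o2]
    have hx1 : x.1 ∈ B x := by simp only [hB, mem_insert, mem_filter, mem_univ, true_and, true_or]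
    have hy1 : y.1 ∈ B y := by simp only [hB, mem_insert, mem_filter, mem_univ, true_and, true_or]
    have hx2 : x.2 ∉ B x := by
      simp only [hB, mem_insert, mem_filter, mem_univ, true_and, not_or, not_lt, o2, le_refl,
        and_true]
      intro h
      rw [h] at hlx
      exact lt_irrefl _ hlx
    have hy2 : y.2 ∉ B y := by
      simp only [hB, mem_insert, mem_filter, mem_univ, true_and, not_or, not_lt, o2, le_refl,
        and_true]
      intro h
      rw [h] at hly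
      exact lt_irrefl _ hly
    have i1 : orient (q y.1) (q y.2) (q x.1) ≤ 0 := hle y hy' _ (hBB ▸ hx1)
    have i2 : 0 ≤ orient (q y.1) (q y.2) (q x.2) := hge y hy' _ (hBB ▸ hx2)
    have i3 : orient (q x.1) (q x.2) (q y.1) ≤ 0 := hle x hx' _ (hBB ▸ hy1)
    have i4 : 0 ≤ orient (q x.1) (q x.2) (q y.2) := hge x hx' _ (hBB ▸ hy2)
    -- all four vanish
    have hsum : (orient (q x.1) (q x.2) (q y.2) - orient (q x.1) (q x.2) (q y.1)) +
        (orient (q y.1) (q y.2) (q x.2) - orient (q y.1) (q y.2) (q x.1)) = 0 := by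
      unfold orient; ring
    have j3 : orient (q x.1) (q x.2) (q y.1) = 0 := by linarith only [i1, i2, i4, hsum, i3]
    have j4 : orient (q x.1) (q x.2) (q y.2) = 0 := by linarith only [i4, i1, i2, i3, hsum]
    have k1 : y.1 = x.1 ∨ y.1 = x.2 := by
      by_contra h
      push Not at h
      exact hU x hx' y.1 h.1 h.2 j3
    have k2 : y.2 = x.1 ∨ y.2 = x.2 := by
      by_contra h
      push Not at h
      exact hU x hx' y.2 h.1 h.2 j4
    have k1' : y.1 = x.1 := by
      rcases k1 with h | h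
      · exact h
      · exfalso; apply hx2; rw [← h, hBB]; exact hy1
    have k2' : y.2 = x.2 := by
      rcases k2 with h | h
      · exfalso; apply hy2; rw [h, ← hBB]; exact hx1
      · exact h
    exact (Prod.ext k1' k2').symm

end Pt

end Vale.Agent.P065
end
end
end

section

section

section

/-!
# P065: a good configuration of weight `2k` with `V` used vertices gives `t * V ≤ e_k(n)`
whenever `2kt ≤ n`
-/

namespace Vale.Agent.P065

open Finset Filter Topology

theorem Pt.card_neg_of_sum_sg {α : Type*} [Fintype α] (f : α → ℝ) (hs : ∑ a, sg (f a) = 0)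
    (hz : (univ.filter fun a => f a = 0).card = 2) :
    2 * (univ.filter fun a => f a < 0).card + 2 = Fintype.card α := by
  classical
  have htot : (univ.filter fun k => 0 < f k).card + (univ.filter fun k => f k < 0).card
      + (univ.filter fun k => f k = 0).card = Fintype.card α := by
    rw [← card_univ, ← card_union_of_disjoint, ← card_union_of_disjoint]
    · congr 1
      ext k
      simp only [mem_union, mem_filter, mem_univ, true_and, iff_true]
      rcases lt_trichotomy (f k) 0 with h | h | h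
      · left; right; exact h
      · right; exact h
      · left; left; exact h
    · rw [disjoint_left]
      intro k
      simp only [mem_union, mem_filter, mem_univ, true_and]
      rintro (h | h) h'
      · linarith only [h, h']
      · linarith only [h, h']
    · rw [disjoint_left]
      intro k
      simp only [mem_filter, mem_univ, true_and]
      intro h h'
      linarith only [h, h']
  have hsg : ∀ k, sg (f k) = (if 0 < f k then 1 else 0) - (if f k < 0 then 1 else 0) := by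
    intro k
    unfold sg
    rcases lt_trichotomy (f k) 0 with h | h | h
    · simp [h, not_lt.mpr h.le]
    · rw [h]; simp
    · simp [h, not_lt.mpr h.le]
  rw [Finset.sum_congr rfl fun k _ => hsg k, Finset.sum_sub_distrib] at hs
  simp only [Finset.sum_boole] at hs
  have : (((univ.filter fun k => 0 < f k).card : ℕ) : ℤ) =
      ((univ.filter fun k => f k < 0).card : ℕ) := by linarith only [hs]
  have h2 : (univ.filter fun k => 0 < f k).card = (univ.filter fun k => f k < 0).card := by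
    exact_mod_cast this
  omega

theorem Pt.orient_eq {u v z : ℝ × ℝ} {a b : ℝ} (hu : u.2 - a * u.1 - b = 0)
    (hv : v.2 - a * v.1 - b = 0) : orient u v z = (v.1 - u.1) * (z.2 - a * z.1 - b) := by
  have h1 : u.2 = a * u.1 + b := by linarith only [hu]
  have h2 : v.2 = a * v.1 + b := by linarith only [hv]
  unfold orient
  rw [h1, h2]
  ring

/-- A good configuration of total weight `2k` with `V` used vertices gives `n`-point sets in
general position with at least `t * V` different `k`-sets, for all `n ≥ 2kt`. -/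
theorem Cfg.Good.mul_card_le_emax {ι υ : Type} [Fintype ι] [Fintype υ] {C : Cfg ι υ}
    (hC : C.Good) {k n t : ℕ} (hw : C.wt = 2 * k) (hn : 2 * k * t ≤ n) :
    t * Fintype.card υ ≤ emax k n := by
  classical
  let S : Type := Σ κ : ι, Fin (C.w κ)
  have hcardS : Fintype.card S = 2 * k := by
    rw [← hw]
    simp only [Fintype.card_sigma, Fintype.card_fin, wt, S]
  let I : Type := (Fin t × S) ⊕ Fin (n - 2 * k * t)
  have hcardI : Fintype.card I = n := by
    simp only [I, Fintype.card_sum, Fintype.card_prod, Fintype.card_fin, hcardS]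
    have : t * (2 * k) = 2 * k * t := by ring
    omega
  have hq0 : ∀ v, 0 < C.w (C.q v) := fun v => by rw [hC.w_q]; exact one_pos
  have hp0 : ∀ v, 0 < C.w (C.p v) := fun v => by rw [hC.w_p]; exact one_pos
  let fq : υ → S := fun v => ⟨C.q v, ⟨0, hq0 v⟩⟩
  let fp : υ → S := fun v => ⟨C.p v, ⟨0, hp0 v⟩⟩
  have huq : ∀ v (i : S), i.1 = C.q v → i = fq v := by
    rintro v ⟨κ, c⟩ h
    simp only at h
    subst h
    have : C.w (C.q v) = 1 := hC.w_q v
    have hc : c = ⟨0, hq0 v⟩ := by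
      apply Fin.ext
      have := c.2
      simp only
      omega
    rw [hc]
  have hup : ∀ v (i : S), i.1 = C.p v → i = fp v := by
    rintro v ⟨κ, c⟩ h
    simp only at h
    subst h
    have : C.w (C.p v) = 1 := hC.w_p v
    have hc : c = ⟨0, hp0 v⟩ := by
      apply Fin.ext
      have := c.2
      simp only
      omega
    rw [hc]
  -- left and right point of a mark
  let fl : υ → S := fun v => if C.m (C.q v) < C.m (C.p v) then fq v else fp v
  let fr : υ → S := fun v => if C.m (C.q v) < C.m (C.p v) then fp v else fq v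
  have hml : ∀ v, C.m (fl v).1 < C.m (fr v).1 := by
    intro v
    simp only [fl, fr]
    split_ifs with h
    · exact h
    · have h3 := hC.ne v
      unfold Cfg.Δ at h3
      exact lt_of_le_of_ne (not_lt.mp h) (sub_ne_zero.mp h3)
  have hHl : ∀ v, C.H v (fl v).1 = 0 := by
    intro v
    simp only [fl]
    split_ifs with h
    · exact hC.on_q v
    · exact hC.on_p v
  have hHr : ∀ v, C.H v (fr v).1 = 0 := by
    intro v
    simp only [fr]
    split_ifs with h
    · exact hC.on_p v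
    · exact hC.on_q v
  have hzero : ∀ v (i : S), C.H v i.1 = 0 → i = fl v ∨ i = fr v := by
    intro v i hi
    have h1 : i = fq v ∨ i = fp v := by
      by_contra hcon
      push Not at hcon
      exact hC.off v i.1 (fun h => hcon.1 (huq v i h)) (fun h => hcon.2 (hup v i h)) hi
    simp only [fl, fr]
    split_ifs with h
    · exact h1
    · exact h1.symm
  -- the positions
  let pos : ℝ → I → ℝ × ℝ := fun η i =>
    match i with
    | Sum.inl (s, i) => ((s : ℝ) + η * C.m i.1,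
        (s : ℝ) ^ 2 + 2 * (s : ℝ) * (η * C.m i.1) + η ^ 2 * C.t i.1)
    | Sum.inr _ => (0, 1)
  -- slope and intercept of the line of the mark `(s, v)`
  let aa : ℝ → Fin t → υ → ℝ := fun η s v => 2 * (s : ℝ) - η * C.x v
  let bb : ℝ → Fin t → υ → ℝ := fun η s v =>
    (s : ℝ) ^ 2 - 2 * (s : ℝ) * s + η * C.x v * s + η ^ 2 * C.y v
  have hG : ∀ η s v (i : S), (pos η (Sum.inl (s, i))).2 - aa η s v * (pos η (Sum.inl (s, i))).1
      - bb η s v = η ^ 2 * C.H v i.1 := by
    intro η s v i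
    simp only [pos, aa, bb, Cfg.H]
    ring
  have hor : ∀ η s v z, orient (pos η (Sum.inl (s, fl v))) (pos η (Sum.inl (s, fr v))) z =
      η * (C.m (fr v).1 - C.m (fl v).1) * (z.2 - aa η s v * z.1 - bb η s v) := by
    intro η s v z
    rw [Pt.orient_eq (a := aa η s v) (b := bb η s v)]
    · simp only [pos]
      ring
    · rw [hG, hHl, mul_zero]
    · rw [hG, hHr, mul_zero]
  -- for small η everything outside the own copy is above
  have hev : ∀ᶠ η in 𝓝[>] (0:ℝ), ∀ (s : Fin t) (v : υ) (c : I),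
      (∀ i, c ≠ Sum.inl (s, i)) → 0 < (pos η c).2 - aa η s v * (pos η c).1 - bb η s v := by
    rw [Filter.eventually_all]; intro s
    rw [Filter.eventually_all]; intro v
    rw [Filter.eventually_all]; intro c
    rcases c with ⟨s', i⟩ | r
    · by_cases hs : s' = s
      · exact Eventually.of_forall fun η h => (h i (by rw [hs])).elim
      · have hc : Tendsto (fun η : ℝ => (pos η (Sum.inl (s', i))).2 -
            aa η s v * (pos η (Sum.inl (s', i))).1 - bb η s v) (𝓝[>] (0:ℝ))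
            (𝓝 ((pos 0 (Sum.inl (s', i))).2 - aa 0 s v * (pos 0 (Sum.inl (s', i))).1
              - bb 0 s v)) := by
          apply Tendsto.mono_left _ nhdsWithin_le_nhds
          refine (Continuous.tendsto ?_ 0)
          simp only [pos, aa, bb]
          fun_prop
        have h0 : (pos 0 (Sum.inl (s', i))).2 - aa 0 s v * (pos 0 (Sum.inl (s', i))).1
              - bb 0 s v = ((s' : ℝ) - (s : ℝ)) ^ 2 := by
          simp only [pos, aa, bb]
          ring
        rw [h0] at hc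
        have hpos : 0 < ((s' : ℝ) - (s : ℝ)) ^ 2 := by
          have hne : ((s' : ℕ) : ℝ) - ((s : ℕ) : ℝ) ≠ 0 := by
            rw [sub_ne_zero]
            intro h
            apply hs
            exact Fin.ext (by exact_mod_cast h)
          (clear * - hne; positivity)
        filter_upwards [hc.eventually_const_lt hpos] with η hη _ using hη
    · have hc : Tendsto (fun η : ℝ => (pos η (Sum.inr r)).2 -
            aa η s v * (pos η (Sum.inr r)).1 - bb η s v) (𝓝[>] (0:ℝ))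
            (𝓝 ((pos 0 (Sum.inr r)).2 - aa 0 s v * (pos 0 (Sum.inr r)).1
              - bb 0 s v)) := by
        apply Tendsto.mono_left _ nhdsWithin_le_nhds
        refine (Continuous.tendsto ?_ 0)
        simp only [pos, aa, bb]
        fun_prop
      have h0 : (pos 0 (Sum.inr r)).2 - aa 0 s v * (pos 0 (Sum.inr r)).1
              - bb 0 s v = 1 + (s : ℝ) ^ 2 := by
        simp only [pos, aa, bb]
        ring
      rw [h0] at hc
      have hpos : 0 < 1 + ((s : ℕ) : ℝ) ^ 2 := by (clear * -; positivity)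
      filter_upwards [hc.eventually_const_lt hpos] with η hη _ using hη
  obtain ⟨η, hη, hη0⟩ := (hev.and self_mem_nhdsWithin).exists
  have hη0' : 0 < η := hη0
  -- signs
  have hfac : ∀ v, 0 < η * (C.m (fr v).1 - C.m (fl v).1) := fun v =>
    mul_pos hη0' (sub_pos.mpr (hml v))
  have hown : ∀ s v (i : S), orient (pos η (Sum.inl (s, fl v))) (pos η (Sum.inl (s, fr v)))
      (pos η (Sum.inl (s, i))) = η * (C.m (fr v).1 - C.m (fl v).1) * (η ^ 2 * C.H v i.1) := by
    intro s v i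
    rw [hor, hG]
  have hoth : ∀ s v (c : I), (∀ i, c ≠ Sum.inl (s, i)) →
      0 < orient (pos η (Sum.inl (s, fl v))) (pos η (Sum.inl (s, fr v))) (pos η c) := by
    intro s v c hc
    rw [hor]
    exact mul_pos (hfac v) (hη s v c hc)
  let U : Finset (I × I) := (univ : Finset (Fin t × υ)).image
    fun x => (Sum.inl (x.1, fl x.2), Sum.inl (x.1, fr x.2))
  have hUcard : U.card = t * Fintype.card υ := by
    rw [card_image_of_injective, card_univ, Fintype.card_prod, Fintype.card_fin]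
    rintro ⟨s, v⟩ ⟨s', v'⟩ h
    have ha1 : ((s, fl v) : Fin t × S) = (s', fl v') := Sum.inl_injective (congrArg Prod.fst h)
    have ha2 : ((s, fr v) : Fin t × S) = (s', fr v') := Sum.inl_injective (congrArg Prod.snd h)
    have h1 : s = s' := congrArg Prod.fst ha1
    have h2 : fl v = fl v' := congrArg Prod.snd ha1
    have h3 : fr v = fr v' := congrArg Prod.snd ha2
    have : v = v' := by
      simp only [fl, fr] at h2 h3
      split_ifs at h2 h3 with ha hb hb
      · exact hC.inj v v' (congrArg Sigma.fst h2) (congrArg Sigma.fst h3)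
      · exact (hC.bip v v' (congrArg Sigma.fst h2)).elim
      · exact (hC.bip v' v (congrArg Sigma.fst h2.symm)).elim
      · exact hC.inj v v' (congrArg Sigma.fst h3) (congrArg Sigma.fst h2)
    rw [h1, this]
  have hUlt : ∀ x ∈ U, (pos η x.1).1 < (pos η x.2).1 := by
    intro x hx
    simp only [U, mem_image, mem_univ, true_and] at hx
    obtain ⟨⟨s, v⟩, rfl⟩ := hx
    simp only [pos]
    have := mul_lt_mul_of_pos_left (hml v) hη0'
    linarith only [this]
  have hUne : ∀ x ∈ U, ∀ c, c ≠ x.1 → c ≠ x.2 →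
      orient (pos η x.1) (pos η x.2) (pos η c) ≠ 0 := by
    intro x hx c h1 h2
    simp only [U, mem_image, mem_univ, true_and] at hx
    obtain ⟨⟨s, v⟩, rfl⟩ := hx
    simp only at h1 h2 ⊢
    by_cases hc : ∀ i, c ≠ Sum.inl (s, i)
    · exact (hoth s v c hc).ne'
    · push Not at hc
      obtain ⟨i, rfl⟩ := hc
      rw [hown]
      refine mul_ne_zero (hfac v).ne' (mul_ne_zero (by positivity) ?_)
      intro h0
      rcases hzero v i h0 with h | h
      · exact h1 (by rw [h])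
      · exact h2 (by rw [h])
  obtain ⟨q, hqinj, hqgen, hqlt, hqsign⟩ := Pt.exists_perturb (pos η) U hUlt hUne
  have hqne : ∀ x ∈ U, ∀ c, c ≠ x.1 → c ≠ x.2 → orient (q x.1) (q x.2) (q c) ≠ 0 := by
    intro x hx c h1 h2
    have hx12 : x.1 ≠ x.2 := fun h => lt_irrefl _ (h ▸ hqlt x hx)
    exact hqgen _ _ _ hx12 h1.symm h2.symm
  have hcount : ∀ x ∈ U,
      (univ.filter fun c => orient (q x.1) (q x.2) (q c) < 0).card + 1 = k := by
    intro x hx
    have e1 : (univ.filter fun c => orient (q x.1) (q x.2) (q c) < 0) =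
        univ.filter fun c => orient (pos η x.1) (pos η x.2) (pos η c) < 0 := by
      ext c
      simp only [mem_filter, mem_univ, true_and]
      rw [← sign_eq_neg_one_iff, ← sign_eq_neg_one_iff, hqsign x hx c]
    rw [e1]
    simp only [U, mem_image, mem_univ, true_and] at hx
    obtain ⟨⟨s, v⟩, rfl⟩ := hx
    simp only
    have e2 : (univ.filter fun c => orient (pos η (Sum.inl (s, fl v)))
        (pos η (Sum.inl (s, fr v))) (pos η c) < 0) =
        (univ.filter fun i : S => C.H v i.1 < 0).image fun i => Sum.inl (s, i) := by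
      ext c
      simp only [mem_filter, mem_univ, true_and, mem_image]
      constructor
      · intro h
        by_cases hc : ∀ i, c ≠ Sum.inl (s, i)
        · exact absurd h (not_lt.mpr (hoth s v c hc).le)
        · push Not at hc
          obtain ⟨i, rfl⟩ := hc
          refine ⟨i, ?_, rfl⟩
          rw [hown] at h
          by_contra hcon
          push Not at hcon
          have : 0 ≤ η * (C.m (fr v).1 - C.m (fl v).1) * (η ^ 2 * C.H v i.1) :=
            mul_nonneg (hfac v).le (mul_nonneg (by positivity) hcon)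
          linarith only [h, this]
      · rintro ⟨i, hi, rfl⟩
        rw [hown]
        exact mul_neg_of_pos_of_neg (hfac v) (mul_neg_of_pos_of_neg (by positivity) hi)
    rw [e2, card_image_of_injective _ (by
      intro i j hij
      have h' : ((s, i) : Fin t × S) = (s, j) := Sum.inl_injective hij
      exact congrArg Prod.snd h')]
    have h1 : ∑ i : S, sg (C.H v i.1) = 0 := by
      rw [Fintype.sum_sigma]
      rw [← hC.bal v]
      refine Finset.sum_congr rfl fun κ _ => ?_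
      simp only [sum_const, card_univ, Fintype.card_fin, Int.nsmul_eq_mul]
    have h2 : (univ.filter fun i : S => C.H v i.1 = 0).card = 2 := by
      have : (univ.filter fun i : S => C.H v i.1 = 0) = {fl v, fr v} := by
        ext i
        simp only [mem_filter, mem_univ, true_and, mem_insert, mem_singleton]
        constructor
        · exact hzero v i
        · rintro (rfl | rfl)
          · exact hHl v
          · exact hHr v
      rw [this, card_pair]
      intro h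
      have := hml v
      rw [h] at this
      exact lt_irrefl _ this
    have h3 := Pt.card_neg_of_sum_sg (fun i : S => C.H v i.1) h1 h2
    rw [hcardS] at h3
    omega
  have hfin := Pt.card_le_kSetNumber q hqinj U k hqlt hqne hcount
  rw [hUcard] at hfin
  refine hfin.trans (kSetNumber_le_emax ?_ ?_)
  · rw [card_image_of_injective _ hqinj, card_univ, hcardI]
  · intro a ha b hb c hc hab hac hbc hcol
    simp only [mem_image, mem_univ, true_and] at ha hb hc
    obtain ⟨i, rfl⟩ := ha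
    obtain ⟨j, rfl⟩ := hb
    obtain ⟨l, rfl⟩ := hc
    exact hqgen i j l (fun h => hab (by rw [h])) (fun h => hac (by rw [h]))
      (fun h => hbc (by rw [h])) (Pt.orient_eq_of_collinear hcol)

end Vale.Agent.P065
end
end
end

section

section

section

/-! P065, T5a: the k-fold meta step.  The product theorem, the lattice gadget, the rounding
theorem and the trivial configuration enter as hypotheses (explicit statements). -/

namespace Vale.Agent.P065

/-- statement of the product (insertion) theorem -/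
def ProductStmt : Prop :=
  ∀ {N d V : ℕ} {r S T s B : ℝ}, RC N d V r S T s B → 0 < r → r ≤ 1 → 1 ≤ S → 1 ≤ T → 0 < s →
    1 ≤ B → ∀ {κ ν βQ βP : Type} [Fintype κ] [Fintype ν] [Fintype βQ] [Fintype βP]
      (G : Gad κ ν βQ βP) {R ρ Γ : ℝ} {A A' g D : ℕ}, G.Ok R ρ Γ A A' g →
      (∀ j, G.L.deg j ≤ D) →
      RC (N * (2 * (A + 2 * g * d))) D (V * Fintype.card ν) (ρ * r / (256 * S ^ 2 * R ^ 2 * Γ))
        (4 * R) (4 * R ^ 2 * Γ) (ρ * s / (128 * T * R)) (3 * B)

/-- statement of the lattice gadget theorem -/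
def LatticeStmt : Prop :=
  ∀ {h d V A : ℕ} {B Γ : ℝ}, IC h d V A B Γ → 1 ≤ h → 1 ≤ A → 1 ≤ B → 1 ≤ Γ →
    ∀ {X Y : ℕ}, 1 ≤ X → 1 ≤ Y →
    ∃ (κ ν βQ βP : Type) (_ : Fintype κ) (_ : Fintype ν) (_ : Fintype βQ) (_ : Fintype βP)
      (G : Gad κ ν βQ βP),
      G.Ok (8 * A * X * Y) (1 / (128 * A * Y)) (1024 * A ^ 2 * B * Y * Γ) (X * Y * (2 * h))
        ((X - 1) * Y * (2 * h)) (h * (2 * (Y + A * X) + 1)) ∧
      Fintype.card ν = X * (2 * Y + 1) * V ∧ ∀ j, G.L.deg j ≤ X * d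

/-- statement of the rounding theorem -/
def RoundStmt : Prop :=
  ∀ {h d V : ℕ} {r S T s B : ℝ}, RC (2 * h) d V r S T s B → 1 ≤ h → 0 < r → r ≤ 1 → 0 < s →
    1 ≤ B → ∀ {L A : ℕ}, 8 * B / (r * s ^ 2) ≤ L → 8 * h * L * B ≤ A →
    IC h d V A (2 * A * B) (6 * B / (r * s ^ 2))

/-- Integer configuration with all parameters bounded by `P`, degree at most `D`, and at least
`x` used vertices per unit of weight. -/
def IC' (P D : ℕ) (x : ℝ) : Prop :=
  ∃ (h V A : ℕ) (B Γ : ℝ), IC h D V A B Γ ∧ 1 ≤ h ∧ h ≤ P ∧ 1 ≤ A ∧ A ≤ P ∧ 1 ≤ B ∧ B ≤ P ∧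
    1 ≤ Γ ∧ Γ ≤ P ∧ x * (2 * h) ≤ V

theorem RC.mono {N d V : ℕ} {r S T s B r' S' T' s' B' : ℝ} (h : RC N d V r S T s B)
    (hr : r' ≤ r) (hS : S ≤ S') (hT : T ≤ T') (hs : s' ≤ s) (hB : B ≤ B') :
    RC N d V r' S' T' s' B' := by
  obtain ⟨ι, υ, _, _, C, hG, hQ, hBd, hd, hN, hV, hσ⟩ := h
  refine ⟨ι, υ, _, _, C, hG, ?_, ?_, hd, hN, hV, fun v => hs.trans (hσ v)⟩
  · refine ⟨hQ.σ_nonneg, hQ.σ_pos, hQ.σ_eq, hQ.lo, fun v => (hQ.hi v).trans ?_,
      fun v k h1 h2 => le_trans ?_ (hQ.h1 v k h1 h2), fun v k h1 h2 => le_trans ?_ (hQ.h2 v k h1 h2),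
      fun v k h1 h2 => le_trans ?_ (hQ.h3 v k h1 h2), fun v v' h1 => (hQ.tol v v' h1).trans ?_⟩
    · exact mul_le_mul_of_nonneg_right hS (hQ.σ_nonneg _)
    · exact mul_le_mul_of_nonneg_right hr (abs_nonneg _)
    · exact mul_le_mul_of_nonneg_right hr (hQ.σ_nonneg _)
    · exact mul_le_mul_of_nonneg_right hr (hQ.σ_nonneg _)
    · exact mul_le_mul_of_nonneg_right hT (abs_nonneg _)
  · exact ⟨fun k => (hBd.m k).trans hB, fun k => (hBd.t k).trans hB, fun k => (hBd.σ k).trans hB⟩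

/-- numeric bounds for the parameters of the gadget -/
theorem num_R {P A X Y : ℝ} (hP : 1024 ≤ P) (A0 : 0 ≤ A) (X0 : 0 ≤ X) (Y0 : 0 ≤ Y) (AP : A ≤ P)
    (hX : X ≤ P ^ 2) (hY : Y ≤ P ^ 3) : 8 * A * X * Y ≤ P ^ 7 := by
  calc 8 * A * X * Y ≤ P * P * P ^ 2 * P ^ 3 := by
        gcongr; linarith only [hP]
    _ = P ^ 7 := by ring

theorem num_Γ {P A B Γ Y : ℝ} (hP : 1024 ≤ P) (A0 : 0 ≤ A) (B0 : 0 ≤ B) (Γ0 : 0 ≤ Γ) (Y0 : 0 ≤ Y)
    (AP : A ≤ P) (BP : B ≤ P) (ΓP : Γ ≤ P) (hY : Y ≤ P ^ 3) :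
    1024 * A ^ 2 * B * Y * Γ ≤ P ^ 8 := by
  calc 1024 * A ^ 2 * B * Y * Γ ≤ P * P ^ 2 * P * P ^ 3 * P := by gcongr
    _ = P ^ 8 := by ring

theorem num_r {P A Y R Γg r : ℝ} (hP : 1024 ≤ P) (A0 : 1 ≤ A) (Y0 : 1 ≤ Y) (R0 : 1 ≤ R)
    (Γ0 : 1 ≤ Γg) (hr0 : 0 ≤ r) (AP : A ≤ P) (hY : Y ≤ P ^ 3) (hR : R ≤ P ^ 7)
    (hΓ : Γg ≤ P ^ 8) :
    r / P ^ 44 ≤ 1 / (128 * A * Y) * r / (256 * (P ^ 8) ^ 2 * R ^ 2 * Γg) := by
  have hPpos : 0 < P := by linarith only [hP]
  have hconst : (32768 : ℝ) ≤ P ^ 2 := by nlinarith only [hP]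
  rw [div_mul_eq_mul_div, div_div, one_mul]
  refine div_le_div_of_nonneg_left hr0 (by positivity) ?_
  calc 128 * A * Y * (256 * (P ^ 8) ^ 2 * R ^ 2 * Γg)
      = 32768 * A * Y * (P ^ 8) ^ 2 * R ^ 2 * Γg := by ring
    _ ≤ P ^ 2 * P * P ^ 3 * (P ^ 8) ^ 2 * (P ^ 7) ^ 2 * P ^ 8 := by gcongr
    _ = P ^ 44 := by ring

theorem num_s {P A Y R s : ℝ} (hP : 1024 ≤ P) (A0 : 1 ≤ A) (Y0 : 1 ≤ Y) (R0 : 1 ≤ R)
    (hs : 0 ≤ s) (AP : A ≤ P) (hY : Y ≤ P ^ 3) (hR : R ≤ P ^ 7) :
    s / P ^ 36 ≤ 1 / (128 * A * Y) * s / (128 * P ^ 23 * R) := by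
  have hPpos : 0 < P := by linarith
  have hconst : (16384 : ℝ) ≤ P ^ 2 := by nlinarith only [hP]
  rw [div_mul_eq_mul_div, div_div, one_mul]
  refine div_le_div_of_nonneg_left hs (by positivity) ?_
  calc 128 * A * Y * (128 * P ^ 23 * R)
      = 16384 * A * Y * P ^ 23 * R := by ring
    _ ≤ P ^ 2 * P * P ^ 3 * P ^ 23 * P ^ 7 := by gcongr
    _ = P ^ 36 := by ring

theorem num_T {P R Γg : ℝ} (hP : 1024 ≤ P) (R0 : 1 ≤ R) (Γ0 : 1 ≤ Γg) (hR : R ≤ P ^ 7)
    (hΓ : Γg ≤ P ^ 8) : 4 * R ^ 2 * Γg ≤ P ^ 23 := by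
  calc 4 * R ^ 2 * Γg ≤ P * (P ^ 7) ^ 2 * P ^ 8 := by
        gcongr; linarith only [hP]
    _ = P ^ 23 := by ring

theorem num_F {P h A X Y d : ℝ} (hP : 1024 ≤ P) (h0 : 0 ≤ h) (A0 : 0 ≤ A) (X0 : 0 ≤ X)
    (Y0 : 0 ≤ Y) (d0 : 0 ≤ d) (hh : h ≤ P) (AP : A ≤ P) (hX : X ≤ P ^ 2) (hY : Y ≤ P ^ 3)
    (hd : d ≤ P) :
    2 * (X * Y * (2 * h) + 2 * (h * (2 * (Y + A * X) + 1)) * d) ≤ P ^ 8 := by
  have hP1 : 1 ≤ P := by linarith only [hP]
  have e1 : X * Y * (2 * h) ≤ P ^ 2 * P ^ 3 * (2 * P) := by (clear * - hX hY Y0 hP hh h0; gcongr)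
  have e2 : 2 * (h * (2 * (Y + A * X) + 1)) * d ≤
      2 * (P * (2 * (P ^ 3 + P * P ^ 2) + 1)) * P := by gcongr
  have e3 : (1 : ℝ) ≤ P ^ 3 := one_le_pow₀ hP1
  have hconst : (32768 : ℝ) ≤ P ^ 2 := by nlinarith only [hP]
  have p2 : (0 : ℝ) ≤ P ^ 2 := by positivity
  have p5 : (0 : ℝ) ≤ P ^ 5 := by positivity
  have p6 : (0 : ℝ) ≤ P ^ 6 := by positivity
  have a1 : P ^ 2 * 1 ≤ P ^ 2 * P ^ 3 := mul_le_mul_of_nonneg_left e3 p2
  have a2 : P ^ 5 * 1 ≤ P ^ 5 * P := mul_le_mul_of_nonneg_left hP1 p5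
  have a3 : P ^ 6 * 32768 ≤ P ^ 6 * P ^ 2 := mul_le_mul_of_nonneg_left hconst p6
  have b1 : P ^ 2 * P ^ 3 = P ^ 5 := by ring
  have b2 : P ^ 5 * P = P ^ 6 := by ring
  have b3 : P ^ 6 * P ^ 2 = P ^ 8 := by ring
  have b4 : P ^ 2 * P ^ 3 * (2 * P) = 2 * P ^ 6 := by ring
  have b5 : 2 * (P * (2 * (P ^ 3 + P * P ^ 2) + 1)) * P = 8 * P ^ 5 + 2 * P ^ 2 := by ring
  rw [b4] at e1
  rw [b5] at e2
  rw [b1] at a1
  rw [b2] at a2
  rw [b3] at a3
  linarith only [e1, e2, hconst, a1, a2, a3]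

theorem num_ratio {K A d h X Y V x : ℝ} (K1 : 1 ≤ K) (A1 : 1 ≤ A) (d1 : 1 ≤ d) (h0 : 0 ≤ h)
    (hX : X = 8 * K * d) (hY : Y = 8 * K * A * d) (hx0 : 0 ≤ x) (hx : x * (2 * h) ≤ V) :
    x / (1 + 1 / K) * (2 * (X * Y * (2 * h) + 2 * (h * (2 * (Y + A * X) + 1)) * d)) ≤
      X * (2 * Y + 1) * V := by
  have K0 : 0 < K := by linarith only [K1]
  have X0 : 0 ≤ X := by rw [hX]; positivity
  have Y0 : 0 ≤ Y := by rw [hY]; positivity
  have V0 : 0 ≤ V := le_trans (by positivity) hx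
  have e : (2 * (Y + A * X) + 1) * d ≤ 1 / K * (X * Y) := by
    rw [one_div, ← div_eq_inv_mul, le_div_iff₀ K0, hX, hY]
    have h1 : d * K ≤ K * (K * (A * (d * d))) := by
      calc d * K = K * (1 * (1 * (1 * d))) := by ring
        _ ≤ K * (K * (A * (d * d))) := by (clear * - K1 A1 d1; gcongr)
    have h2 : (2 * (8 * K * A * d + A * (8 * K * d)) + 1) * d * K =
        32 * (K * (K * (A * (d * d)))) + d * K := by ring
    have h3 : 8 * K * d * (8 * K * A * d) = 64 * (K * (K * (A * (d * d)))) := by ring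
    have h4 : 0 ≤ K * (K * (A * (d * d))) := by positivity
    rw [h2, h3]
    linarith only [hX, X0, h1]
  have hkey : X * Y * (2 * h) + 2 * (h * (2 * (Y + A * X) + 1)) * d ≤
      (1 + 1 / K) * (X * Y * (2 * h)) := by
    have e1 : 2 * (h * (2 * (Y + A * X) + 1)) * d = (2 * h) * ((2 * (Y + A * X) + 1) * d) := by
      ring
    rw [e1]
    have e' := mul_le_mul_of_nonneg_left e (by positivity : (0 : ℝ) ≤ 2 * h)
    linarith only [e']
  calc x / (1 + 1 / K) * (2 * (X * Y * (2 * h) + 2 * (h * (2 * (Y + A * X) + 1)) * d))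
      ≤ x / (1 + 1 / K) * (2 * ((1 + 1 / K) * (X * Y * (2 * h)))) := by (clear * - hkey hx0 K1; gcongr)
    _ = X * (2 * Y) * (x * (2 * h)) := by
        have : (1 + 1 / K) ≠ 0 := by positivity
        (clear * - K1; field_simp)
    _ ≤ X * (2 * Y + 1) * V := by
        gcongr
        linarith only []

/-- one step of the construction, with explicit bounds in terms of `P` -/
theorem one_step (hprod : ProductStmt) (hlat : LatticeStmt)
    {P K D h V A : ℕ} {B Γ x : ℝ} (hIC : IC h D V A B Γ) (h1 : 1 ≤ h) (hP : h ≤ P)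
    (A1 : 1 ≤ A) (AP : A ≤ P) (B1 : 1 ≤ B) (BP : B ≤ P) (Γ1 : 1 ≤ Γ) (ΓP : Γ ≤ P)
    (hx : x * (2 * h) ≤ V) (hx0 : 0 ≤ x) (hK : 1 ≤ K) (hKP : 8 * K ≤ P) (hP0 : 1024 ≤ P)
    {N d W : ℕ} {r s b : ℝ} (hRC : RC N d W r ((P : ℝ) ^ 8) ((P : ℝ) ^ 23) s b)
    (hd1 : 1 ≤ d) (hdP : d ≤ P) (hr0 : 0 < r) (hr1 : r ≤ 1) (hs : 0 < s) (hb : 1 ≤ b) :
    ∃ F G : ℕ, RC (N * (2 * F)) (8 * K * D * d) (W * G) (r / (P : ℝ) ^ 44) ((P : ℝ) ^ 8)
        ((P : ℝ) ^ 23) (s / (P : ℝ) ^ 36) (3 * b) ∧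
      1 ≤ F ∧ 2 * F ≤ P ^ 8 ∧ x / (1 + 1 / (K : ℝ)) * (2 * F) ≤ G := by
  obtain ⟨X, hXdef⟩ : ∃ X : ℕ, X = 8 * K * d := ⟨_, rfl⟩
  obtain ⟨Y, hYdef⟩ : ∃ Y : ℕ, Y = 8 * K * A * d := ⟨_, rfl⟩
  have hX1 : 1 ≤ X := by rw [hXdef]; exact Nat.one_le_iff_ne_zero.mpr (by positivity)
  have hY1 : 1 ≤ Y := by rw [hYdef]; exact Nat.one_le_iff_ne_zero.mpr (by positivity)
  obtain ⟨κ, ν, βQ, βP, _, _, _, _, G, hG, hcard, hdeg⟩ :=
    hlat hIC h1 A1 B1 Γ1 (X := X) (Y := Y) hX1 hY1
  have hPr : (1024 : ℝ) ≤ P := by exact_mod_cast hP0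
  have hP1 : (1 : ℝ) ≤ P := by linarith only [hPr]
  have hmain := hprod hRC hr0 hr1 (one_le_pow₀ hP1) (one_le_pow₀ hP1) hs hb G hG hdeg
  have A1r : (1 : ℝ) ≤ A := by exact_mod_cast A1
  have APr : (A : ℝ) ≤ P := by exact_mod_cast AP
  have hhr : (h : ℝ) ≤ P := by exact_mod_cast hP
  have d1r : (1 : ℝ) ≤ d := by exact_mod_cast hd1
  have dPr : (d : ℝ) ≤ P := by exact_mod_cast hdP
  have K1r : (1 : ℝ) ≤ K := by exact_mod_cast hK
  have KPr : 8 * (K : ℝ) ≤ P := by exact_mod_cast hKP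
  have X1r : (1 : ℝ) ≤ X := by exact_mod_cast hX1
  have Y1r : (1 : ℝ) ≤ Y := by exact_mod_cast hY1
  have hXe : (X : ℝ) = 8 * K * d := by rw [hXdef]; push_cast; ring
  have hYe : (Y : ℝ) = 8 * K * A * d := by rw [hYdef]; push_cast; ring
  have hX : (X : ℝ) ≤ (P : ℝ) ^ 2 := by
    rw [hXe]
    calc 8 * (K : ℝ) * d ≤ (P : ℝ) * P := by (clear * - KPr dPr hd1 hP0; gcongr)
      _ = (P : ℝ) ^ 2 := by ring
  have hY : (Y : ℝ) ≤ (P : ℝ) ^ 3 := by
    rw [hYe]
    calc 8 * (K : ℝ) * A * d ≤ (P : ℝ) * P * P := by (clear * - KPr APr A1 hP0 dPr hd1; gcongr)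
      _ = (P : ℝ) ^ 3 := by ring
  have hR1 := hG.R1
  have hΓ1 := hG.Γ1
  have hR := num_R hPr (by linarith only [] : (0 : ℝ) ≤ A) (by linarith only [] : (0 : ℝ) ≤ X)
    (by linarith only [] : (0 : ℝ) ≤ Y) APr hX hY
  have hΓ := num_Γ hPr (by linarith only [] : (0 : ℝ) ≤ A) (by linarith only [B1] : (0 : ℝ) ≤ B)
    (by linarith only [Γ1] : (0 : ℝ) ≤ Γ) (by linarith only [] : (0 : ℝ) ≤ Y) APr BP ΓP hY
  refine ⟨X * Y * (2 * h) + 2 * (h * (2 * (Y + A * X) + 1)) * d, X * (2 * Y + 1) * V, ?_, ?_, ?_,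
    ?_⟩
  · have hD : X * D = 8 * K * D * d := by rw [hXdef]; ring
    rw [← hD, ← hcard]
    refine hmain.mono ?_ ?_ ?_ ?_ le_rfl
    · exact num_r hPr A1r Y1r hR1 hΓ1 hr0.le APr hY hR hΓ
    · calc 4 * (8 * (A : ℝ) * X * Y) ≤ (P : ℝ) * (P : ℝ) ^ 7 := by
            gcongr; linarith only [hPr]
        _ = (P : ℝ) ^ 8 := by ring
    · exact num_T hPr hR1 hΓ1 hR hΓ
    · exact num_s hPr A1r Y1r hR1 hs.le APr hY hR
  · have : 1 ≤ X * Y * (2 * h) := Nat.one_le_iff_ne_zero.mpr (by (clear * - hX1 hY1 h1; positivity))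
    exact this.trans (Nat.le_add_right _ _)
  · have hF := num_F hPr (by positivity : (0 : ℝ) ≤ h) (by linarith only [] : (0 : ℝ) ≤ A)
      (by linarith only [] : (0 : ℝ) ≤ X) (by linarith only [] : (0 : ℝ) ≤ Y) (by linarith only [] : (0 : ℝ) ≤ d) hhr APr
      hX hY dPr
    exact_mod_cast hF
  · have := num_ratio K1r A1r d1r (by positivity : (0 : ℝ) ≤ h) hXe hYe hx0 hx
    push_cast
    exact this

/-- the invariant of the iteration after `j` steps -/
theorem iterate (hprod : ProductStmt) (hlat : LatticeStmt) (htriv : RC 2 1 1 1 1 1 1 1)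
    {P K D h V A : ℕ} {B Γ x : ℝ} (hIC : IC h D V A B Γ) (h1 : 1 ≤ h) (hP : h ≤ P)
    (A1 : 1 ≤ A) (AP : A ≤ P) (B1 : 1 ≤ B) (BP : B ≤ P) (Γ1 : 1 ≤ Γ) (ΓP : Γ ≤ P)
    (hx : x * (2 * h) ≤ V) (hx0 : 0 ≤ x) (hK : 1 ≤ K) (hD : 1 ≤ D) (hKP : 8 * K ≤ P)
    (hP0 : 1024 ≤ P) {k : ℕ} (hk : (8 * K * D) ^ k ≤ P) :
    ∀ j ≤ k, ∃ h' W : ℕ, 1 ≤ h' ∧ 2 * h' ≤ 2 * P ^ (8 * j) ∧
      RC (2 * h') ((8 * K * D) ^ j) W (1 / (P : ℝ) ^ (44 * j)) ((P : ℝ) ^ 8) ((P : ℝ) ^ 23)
        (1 / (P : ℝ) ^ (36 * j)) (3 ^ j) ∧ (x / (1 + 1 / (K : ℝ))) ^ j * (2 * h') ≤ 2 * W := by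
  have hPr : (1024 : ℝ) ≤ P := by exact_mod_cast hP0
  have hP1 : (1 : ℝ) ≤ P := by linarith only [hPr]
  have hPpos : (0 : ℝ) < P := by linarith only [hPr]
  intro j
  induction j with
  | zero =>
    intro _
    refine ⟨1, 1, le_rfl, by simp, ?_, by simp only [one_div, pow_zero, Nat.cast_one, mul_one, one_mul, Std.le_refl]⟩
    refine RC.mono (by simpa using htriv) ?_ (one_le_pow₀ hP1) (one_le_pow₀ hP1) ?_ ?_ <;> simp only [mul_zero, pow_zero, ne_eq, one_ne_zero, not_false_eq_true, div_self, Std.le_refl]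
  | succ j ih =>
    intro hj
    obtain ⟨h', W, hh1, hhP, hRC, hrat⟩ := ih (by omega)
    have hKD : 1 ≤ 8 * K * D := Nat.one_le_iff_ne_zero.mpr (by positivity)
    have hd1 : 1 ≤ (8 * K * D) ^ j := Nat.one_le_pow _ _ hKD
    have hdP : (8 * K * D) ^ j ≤ P := (Nat.pow_le_pow_right hKD (by omega)).trans hk
    obtain ⟨F, G, hR, hF1, hFP, hFG⟩ := one_step hprod hlat hIC h1 hP A1 AP B1 BP Γ1 ΓP hx hx0 hK
      hKP hP0 hRC hd1 hdP (by positivity)
      (by
        rw [div_le_one (by positivity)]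
        exact one_le_pow₀ hP1) (by positivity) (one_le_pow₀ (by norm_num))
    refine ⟨2 * h' * F, W * G, ?_, ?_, ?_, ?_⟩
    · exact Nat.one_le_iff_ne_zero.mpr (by positivity)
    · have e : P ^ (8 * (j + 1)) = P ^ (8 * j) * P ^ 8 := by rw [← pow_add]; ring_nf
      calc 2 * (2 * h' * F) = (2 * h') * (2 * F) := by ring
        _ ≤ (2 * P ^ (8 * j)) * P ^ 8 := Nat.mul_le_mul hhP hFP
        _ = 2 * P ^ (8 * (j + 1)) := by rw [e]; ring
    · have e1 : 2 * (2 * h' * F) = 2 * h' * (2 * F) := by ring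
      have e2 : (8 * K * D) ^ (j + 1) = 8 * K * D * (8 * K * D) ^ j := by rw [pow_succ]; ring
      have e3 : (1 : ℝ) / (P : ℝ) ^ (44 * (j + 1)) = 1 / (P : ℝ) ^ (44 * j) / (P : ℝ) ^ 44 := by
        rw [div_div, ← pow_add]; ring_nf
      have e4 : (1 : ℝ) / (P : ℝ) ^ (36 * (j + 1)) = 1 / (P : ℝ) ^ (36 * j) / (P : ℝ) ^ 36 := by
        rw [div_div, ← pow_add]; ring_nf
      have e5 : (3 : ℝ) ^ (j + 1) = 3 * 3 ^ j := by ring
      rw [e1, e2, e3, e4, e5]
      exact hR
    · have hq : 0 ≤ x / (1 + 1 / (K : ℝ)) := by (clear * - hx0 hK; positivity)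
      push_cast
      calc (x / (1 + 1 / (K : ℝ))) ^ (j + 1) * (2 * (2 * (h' : ℝ) * F))
          = ((x / (1 + 1 / (K : ℝ))) ^ j * (2 * h')) * (x / (1 + 1 / (K : ℝ)) * (2 * F)) := by ring
        _ ≤ (2 * W) * G := by
            (clear * - hrat hFG hx0 hK hF1; gcongr)
        _ = 2 * (W * G) := by ring

/-- **T5a, the meta step.** -/
theorem meta_step (hprod : ProductStmt) (hlat : LatticeStmt) (hround : RoundStmt)
    (htriv : RC 2 1 1 1 1 1 1 1) :
    ∀ {K P D k : ℕ} {x : ℝ}, 1 ≤ K → 1 ≤ D → 1 ≤ k → 0 ≤ x → IC' P D x → (8 * K * D) ^ k ≤ P →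
      1024 ≤ P → 8 * K ≤ P →
      IC' (P ^ (131 * k)) ((8 * K * D) ^ k) ((x / (1 + 1 / (K : ℝ))) ^ k / 2) := by
  intro K P D k x hK hD hk hx0 hIC' hkP hP0 hKP
  obtain ⟨h, V, A, B, Γ, hIC, h1, hP, A1, AP, B1, BP, Γ1, ΓP, hx⟩ := hIC'
  obtain ⟨h', W, hh1, hhP, hRC, hrat⟩ := iterate hprod hlat htriv hIC h1 hP A1 AP B1 BP Γ1 ΓP hx
    hx0 hK hD hKP hP0 hkP k le_rfl
  have hPr : (1024 : ℝ) ≤ P := by exact_mod_cast hP0
  have hP1 : (1 : ℝ) ≤ P := by linarith only [hPr]
  have hPpos : (0 : ℝ) < P := by linarith only [hPr]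
  have hP1' : 1 ≤ P := by omega
  have h3 : (3 : ℝ) ^ k ≤ P ^ k := by gcongr; linarith only [hPr]
  have hPk : (P : ℝ) ≤ P ^ k := by
    calc (P : ℝ) = P ^ 1 := (pow_one _).symm
      _ ≤ P ^ k := pow_le_pow_right₀ hP1 hk
  have hinv : (1 : ℝ) / (P : ℝ) ^ (44 * k) * (1 / (P : ℝ) ^ (36 * k)) ^ 2 = 1 / P ^ (116 * k) := by
    rw [div_pow, one_pow, ← pow_mul, one_div_mul_one_div, ← pow_add]; ring_nf
  have hquot : ∀ c : ℝ, 0 ≤ c → c ≤ 8 →
      c * 3 ^ k / ((1 : ℝ) / (P : ℝ) ^ (44 * k) * (1 / (P : ℝ) ^ (36 * k)) ^ 2) ≤ P ^ (118 * k) := by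
    intro c hc0 hc
    rw [hinv, div_div_eq_mul_div, div_one]
    calc c * 3 ^ k * (P : ℝ) ^ (116 * k) ≤ P ^ k * P ^ k * P ^ (116 * k) := by
          gcongr
          exact hc.trans (le_trans (by linarith only [hPr]) hPk)
      _ = P ^ (118 * k) := by rw [← pow_add, ← pow_add]; ring_nf
  have hA : (8 * (h' : ℝ) * ((P ^ (118 * k) : ℕ) : ℝ) * 3 ^ k) ≤ ((P ^ (129 * k) : ℕ) : ℝ) := by
    have e0 : (h' : ℝ) ≤ P ^ (8 * k) := by
      have : h' ≤ P ^ (8 * k) := by omega
      exact_mod_cast this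
    push_cast
    calc 8 * (h' : ℝ) * P ^ (118 * k) * 3 ^ k ≤ P ^ k * P ^ (8 * k) * P ^ (118 * k) * P ^ k := by
          gcongr
          linarith only [hPr, hPk]
      _ = P ^ (128 * k) := by rw [← pow_add, ← pow_add, ← pow_add]; ring_nf
      _ ≤ P ^ (129 * k) := pow_le_pow_right₀ hP1 (by omega)
  have hL := hquot 8 (by norm_num) le_rfl
  have hIC2 := hround hRC hh1 (by positivity)
    (by
      rw [div_le_one (by positivity)]
      exact one_le_pow₀ hP1) (by positivity) (one_le_pow₀ (by norm_num : (1 : ℝ) ≤ 3))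
    (L := P ^ (118 * k)) (A := P ^ (129 * k)) (by push_cast; exact hL) hA
  refine ⟨h', W, P ^ (129 * k), _, _, hIC2, hh1, ?_, Nat.one_le_pow _ _ hP1', ?_, ?_, ?_, ?_, ?_,
    ?_⟩
  · have : h' ≤ P ^ (8 * k) := by omega
    exact this.trans (Nat.pow_le_pow_right hP1' (by omega))
  · exact Nat.pow_le_pow_right hP1' (by omega)
  · have e1 : (1 : ℝ) ≤ ((P ^ (129 * k) : ℕ) : ℝ) := by
      exact_mod_cast Nat.one_le_pow _ _ hP1'
    have e2 : (1 : ℝ) ≤ 3 ^ k := one_le_pow₀ (by norm_num)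
    nlinarith only [e1, e2]
  · push_cast
    calc 2 * (P : ℝ) ^ (129 * k) * 3 ^ k ≤ (P : ℝ) ^ k * (P : ℝ) ^ (129 * k) * (P : ℝ) ^ k := by
          gcongr
          linarith only [hPr, hPk]
      _ = (P : ℝ) ^ (131 * k) := by rw [← pow_add, ← pow_add]; ring_nf
  · rw [hinv, div_div_eq_mul_div, div_one]
    calc (1 : ℝ) ≤ 6 * 1 * 1 := by norm_num
      _ ≤ 6 * 3 ^ k * (P : ℝ) ^ (116 * k) := by
          gcongr
          · exact one_le_pow₀ (by norm_num)
          · exact one_le_pow₀ hP1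
  · refine (hquot 6 (by norm_num) (by norm_num)).trans ?_
    push_cast
    exact pow_le_pow_right₀ hP1 (by (clear * - hk; omega))
  · linarith only [hrat]

end Vale.Agent.P065
end
end
end

section

section

section

/-!
P065: the product theorem.
-/

namespace Vale.Agent.P065

theorem RC_product {N d V : ℕ} {r S T s B : ℝ} (h : RC N d V r S T s B) (hr : 0 < r)
    (hr1 : r ≤ 1) (hS : 1 ≤ S) (hT : 1 ≤ T) (_hs : 0 < s) (hB : 1 ≤ B)
    {κ ν βQ βP : Type} [Fintype κ] [Fintype ν] [Fintype βQ] [Fintype βP]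
    (G : Gad κ ν βQ βP) {R ρ Γ : ℝ} {A A' g D : ℕ} (hG : G.Ok R ρ Γ A A' g)
    (hD : ∀ j, G.L.deg j ≤ D) :
    RC (N * (2 * (A + 2 * g * d))) D (V * Fintype.card ν) (ρ * r / (256 * S ^ 2 * R ^ 2 * Γ))
      (4 * R) (4 * R ^ 2 * Γ) (ρ * s / (128 * T * R)) (3 * B) := by
  obtain ⟨ι, υ, _, _, C, hC, hQ, hBd, hd, hN, hV, hσ⟩ := h
  have hR := hG.R1
  have hρ := hG.ρ0
  have hΓ := hG.Γ1
  have R0 : 0 < R := by linarith only [hR]
  have S0 : 0 < S := by linarith only [hS]
  have T0 : 0 < T := by linarith only [hT]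
  have Γ0 : 0 < Γ := by linarith only [hΓ]
  have P : Par R ρ r S T (1 / (16 * T)) (ρ / (4 * R)) (r / (64 * S * R)) := by
    refine ⟨hR, hρ, hG.ρ1, hr, hS, hT, by positivity, ?_, by (clear * - hρ hR; positivity), ?_, by positivity, ?_⟩
    · field_simp
    · (clear * - hR hρ; field_simp)
    · (clear * - hS hR hr; field_simp)
  refine ⟨_, _, inferInstance, inferInstance,
    ins C G (1 / (16 * T)) (ρ / (4 * R)) (r / (64 * S * R)) R A A' g d,
    ins_good P hC hQ hG hd, ins_quant P hC hQ hG (by (clear * - hρ hr hS hR hΓ; positivity)) ?_,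
    ins_bdd P hC hQ hG hr1 hB hBd, ins_deg hD, ?_, ?_, ?_⟩
  · field_simp
    ring
  · rw [ins_wt hC hG hd, hN]
  · rw [Fintype.card_prod, hV]
  · intro v
    show ρ * s / (128 * T * R) ≤ 1 / (16 * T) * (ρ / (4 * R)) * |C.Δ v.1| / 2
    have h1 : s ≤ |C.Δ v.1| := (hσ v.1).trans (hQ.lo v.1)
    have h2 : 1 / (16 * T) * (ρ / (4 * R)) * |C.Δ v.1| / 2 =
        ρ * |C.Δ v.1| / (128 * T * R) := by
      field_simp
      ring
    rw [h2]
    (clear * - h1 hρ hT hR; gcongr)

theorem productStmt : ProductStmt := fun h hr hr1 hS hT hs hB _ _ _ _ _ _ _ _ G _ _ _ _ _ _ _ hG hD =>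
  RC_product h hr hr1 hS hT hs hB G hG hD

end Vale.Agent.P065
end
end
end

section

section

section

/-!
P065: the lattice gadget (task T2).
-/

namespace Vale.Agent.P065

namespace LatG

lemma sg_pos {x : ℝ} (h : 0 < x) : sg x = 1 := by simp [sg, h]

lemma sg_neg {x : ℝ} (h : x < 0) : sg x = -1 := by
  simp [sg, h, not_lt.mpr h.le]

lemma sg_div_pos {x c : ℝ} (hc : 0 < c) : sg (x / c) = sg x := by
  rcases lt_trichotomy x 0 with h | h | h
  · rw [sg_neg h, sg_neg (div_neg_of_neg_of_pos h hc)]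
  · subst h; simp [sg]
  · rw [sg_pos h, sg_pos (div_pos h hc)]

lemma sg_mul_pos {x c : ℝ} (hc : 0 < c) : sg (c * x) = sg x := by
  rcases lt_trichotomy x 0 with h | h | h
  · rw [sg_neg h, sg_neg (mul_neg_of_pos_of_neg hc h)]
  · subst h; simp [sg]
  · rw [sg_pos h, sg_pos (mul_pos hc h)]

/-- the sign of a nonzero integer plus a small error -/
lemma sg_int_add {n : ℤ} {e : ℝ} (he : |e| < 1) (hn : n ≠ 0) : sg ((n : ℝ) + e) = n.sign := by
  have h1 := abs_lt.mp he
  rcases lt_or_gt_of_ne hn with h | h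
  · have h2 : (n : ℝ) ≤ -1 := by exact_mod_cast (by omega : n ≤ -1)
    rw [sg_neg (by linarith only [h1, h2]), Int.sign_eq_neg_one_of_neg h]
  · have h2 : (1 : ℝ) ≤ n := by exact_mod_cast h
    rw [sg_pos (by linarith only [h1, h2]), Int.sign_eq_one_of_pos h]

lemma sum_sign_range (m : ℕ) : ∀ N : ℕ, m ≤ N →
    ∑ i ∈ Finset.range (N + 1), ((i : ℤ) - m).sign = (N : ℤ) - 2 * m := by
  intro N hN
  induction N, hN using Nat.le_induction with
  | base =>
    rw [Finset.sum_range_succ]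
    have : ∑ i ∈ Finset.range m, ((i : ℤ) - m).sign = ∑ i ∈ Finset.range m, (-1 : ℤ) := by
      apply Finset.sum_congr rfl
      intro i hi
      rw [Finset.mem_range] at hi
      exact Int.sign_eq_neg_one_of_neg (by omega)
    rw [this]
    simp
    ring
  | succ N hN ih =>
    rw [Finset.sum_range_succ, ih]
    rw [Int.sign_eq_one_of_pos (by push_cast; omega)]
    push_cast
    ring

lemma sum_ite_range (m : ℕ) : ∀ N : ℕ, m ≤ N →
    ∑ i ∈ Finset.range N, (if i < m then (1 : ℤ) else -1) = 2 * (m : ℤ) - N := by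
  intro N hN
  induction N, hN using Nat.le_induction with
  | base =>
    have : ∑ i ∈ Finset.range m, (if i < m then (1 : ℤ) else -1)
        = ∑ i ∈ Finset.range m, (1 : ℤ) := by
      apply Finset.sum_congr rfl
      intro i hi
      rw [Finset.mem_range] at hi
      simp [hi]
    rw [this]
    simp
    ring
  | succ N hN ih =>
    rw [Finset.sum_range_succ, ih, if_neg (by omega)]
    push_cast
    ring

/-- centered sum of signs -/
lemma sum_sign_fin (C : ℕ) (n : ℤ) (hn : |n| ≤ (C : ℤ)) :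
    ∑ c : Fin (2 * C + 1), (((c : ℕ) : ℤ) - C - n).sign = -2 * n := by
  have h1 := abs_le.mp hn
  obtain ⟨m, hm⟩ : ∃ m : ℕ, (m : ℤ) = C + n := ⟨(C + n).toNat, by omega⟩
  have h2 := sum_sign_range m (2 * C) (by omega)
  rw [← Fin.sum_univ_eq_sum_range (fun i => ((i : ℤ) - m).sign) (2 * C + 1)] at h2
  rw [show (∑ c : Fin (2 * C + 1), (((c : ℕ) : ℤ) - C - n).sign)
    = ∑ i : Fin (2 * C + 1), (((i : ℕ) : ℤ) - m).sign from ?_, h2]
  · push_cast; omega
  · apply Finset.sum_congr rfl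
    intro i _
    congr 1
    omega

lemma sum_sign_fin' (X : ℕ) (hX : 1 ≤ X) (k : ℕ) (hk : k < X) :
    ∑ c : Fin X, (((c : ℕ) : ℤ) - k).sign = (X : ℤ) - 1 - 2 * k := by
  obtain ⟨N, rfl⟩ : ∃ N, X = N + 1 := ⟨X - 1, by omega⟩
  have h2 := sum_sign_range k N (by omega)
  rw [← Fin.sum_univ_eq_sum_range (fun i => ((i : ℤ) - k).sign) (N + 1)] at h2
  rw [h2]
  push_cast
  ring

lemma sum_ite_fin (N m : ℕ) (hm : m ≤ N) :
    ∑ c : Fin N, (if (c : ℕ) < m then (1 : ℤ) else -1) = 2 * (m : ℤ) - N := by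
  have h2 := sum_ite_range m N hm
  rwa [← Fin.sum_univ_eq_sum_range (fun i => if i < m then (1 : ℤ) else -1) N] at h2

/-- index of an integer in a centered interval -/
def idx (C : ℕ) (z : ℤ) : Fin (2 * C + 1) := ⟨min (z + C).toNat (2 * C), by omega⟩

lemma idx_spec {C : ℕ} {z : ℤ} (hz : |z| ≤ (C : ℤ)) : (((idx C z : Fin (2 * C + 1)) : ℕ) : ℤ) - C = z := by
  have h1 := abs_le.mp hz
  simp only [idx]
  omega

lemma idx_unique {C : ℕ} {z : ℤ} (c : Fin (2 * C + 1)) (h : ((c : ℕ) : ℤ) - C = z) :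
    c = idx C z := by
  apply Fin.ext
  simp only [idx]
  have := c.2
  omega


section gadget

variable {ι υ : Type}

/-- the lattice configuration -/
noncomputable def LC (C : Cfg ι υ) (a : ι → ℤ) (X Y N : ℕ) (δ ζ : ℝ) :
    Cfg (ι × Fin (2 * N + 1)) (Fin X × Fin (2 * Y + 1) × υ) where
  m j := (a j.1 : ℝ) / (1 - δ * a j.1)
  t j := ((((j.2 : ℕ) : ℝ) - N) + ζ * C.t j.1) / (1 - δ * a j.1)
  w j := C.w j.1
  σ _ := 0
  q v := (C.q v.2.2, idx N ((((v.2.1 : ℕ) : ℤ) - Y) - a (C.q v.2.2) * ((v.1 : ℕ) : ℤ)))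
  p v := (C.p v.2.2, idx N ((((v.2.1 : ℕ) : ℤ) - Y) - a (C.p v.2.2) * ((v.1 : ℕ) : ℤ)))
  x v := (((v.1 : ℕ) : ℝ) + ζ * C.x v.2.2) - δ * (((((v.2.1 : ℕ) : ℝ) - Y)) + ζ * C.y v.2.2)
  y v := (((v.2.1 : ℕ) : ℝ) - Y) + ζ * C.y v.2.2

/-- the integer part of the height -/
def nn (a : ι → ℤ) {X Y N : ℕ} (v : Fin X × Fin (2 * Y + 1) × υ) (j : ι × Fin (2 * N + 1)) : ℤ :=
  (((j.2 : ℕ) : ℤ) - N) - ((((v.2.1 : ℕ) : ℤ) - Y) - a j.1 * ((v.1 : ℕ) : ℤ))

lemma LC_H {C : Cfg ι υ} {a : ι → ℤ} {X Y N : ℕ} {δ ζ : ℝ} (hm : ∀ k, C.m k = a k)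
    (v : Fin X × Fin (2 * Y + 1) × υ) (j : ι × Fin (2 * N + 1)) (hd : 1 - δ * a j.1 ≠ 0) :
    (LC C a X Y N δ ζ).H v j = ((nn a v j : ℤ) + ζ * C.H v.2.2 j.1) / (1 - δ * a j.1) := by
  simp only [Cfg.H, LC, nn, hm]
  push_cast
  rw [eq_div_iff hd]
  have e1 : (a j.1 : ℝ) / (1 - δ * a j.1) * (1 - δ * a j.1) = a j.1 := div_mul_cancel₀ _ hd
  have e2 : ((((j.2 : ℕ) : ℝ) - N) + ζ * C.t j.1) / (1 - δ * a j.1) * (1 - δ * a j.1)
    = (((j.2 : ℕ) : ℝ) - N) + ζ * C.t j.1 := div_mul_cancel₀ _ hd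
  generalize (a j.1 : ℝ) / (1 - δ * a j.1) = u at e1 ⊢
  generalize ((((j.2 : ℕ) : ℝ) - N) + ζ * C.t j.1) / (1 - δ * a j.1) = w at e2 ⊢
  linear_combination (((v.1 : ℕ) : ℝ) + ζ * C.x v.2.2
    - δ * (((((v.2.1 : ℕ) : ℝ) - Y)) + ζ * C.y v.2.2)) * e1 + e2

/-- bundled hypotheses -/
structure Hyp [Fintype ι] [Fintype υ] (C : Cfg ι υ) (a : ι → ℤ) (h d A X Y : ℕ)
    (B Γ δ ζ : ℝ) : Prop where
  good : C.Good
  hm : ∀ k, C.m k = a k
  ha : ∀ k, |a k| ≤ (A : ℤ)
  hwa : ∑ k, (C.w k : ℤ) * a k = 0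
  ht : ∀ k, |C.t k| ≤ B
  hx : ∀ v, |C.x v| ≤ B
  hy : ∀ v, |C.y v| ≤ B
  hH : ∀ v k, k ≠ C.q v → k ≠ C.p v → 1 ≤ Γ * |C.H v k|
  hdeg : ∀ k, C.deg k ≤ d
  hwt : C.wt = 2 * h
  hA : (1 : ℝ) ≤ A
  hB : 1 ≤ B
  hΓ : 1 ≤ Γ
  hX : (1 : ℝ) ≤ X
  hY : (1 : ℝ) ≤ Y
  hδ : δ * (A * Y) = 1 / 32
  hδ0 : 0 < δ
  hζ : ζ * (A * B) = δ / 16
  hζ0 : 0 < ζ

namespace Hyp

variable [Fintype ι] [Fintype υ] {C : Cfg ι υ} {a : ι → ℤ} {h d A X Y : ℕ} {B Γ δ ζ : ℝ}
  (hh : Hyp C a h d A X Y B Γ δ ζ)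

include hh

lemma haR (k : ι) : |(a k : ℝ)| ≤ A := by
  have := hh.ha k
  exact_mod_cast this

lemma δA : δ * A ≤ 1 / 32 := by
  have h1 := hh.hδ
  have h2 : 0 ≤ δ * A * (Y - 1) := by
    have := hh.hδ0; have := hh.hA; have := hh.hY
    apply mul_nonneg
    · (clear h1 this; positivity)
    · linarith only [this]
  linarith

lemma δY : δ * Y ≤ 1 / 32 := by
  have h1 := hh.hδ
  have h2 : 0 ≤ δ * Y * (A - 1) := by
    have := hh.hδ0; have := hh.hA; have := hh.hY
    apply mul_nonneg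
    · positivity
    · (clear h1 this; linarith)
  linarith

lemma δle : δ ≤ 1 / 32 := by
  have h1 := hh.δY
  have h2 : 0 ≤ δ * (Y - 1) := by
    have := hh.hδ0; have := hh.hY
    apply mul_nonneg
    · positivity
    · linarith only [this]
  linarith

lemma ζB : ζ * B ≤ δ / 16 := by
  have h1 := hh.hζ
  have h2 : 0 ≤ ζ * B * (A - 1) := by
    have := hh.hζ0; have := hh.hA; have := hh.hB
    apply mul_nonneg
    · positivity
    · (clear h1 this; linarith)
  linarith

lemma δa (k : ι) : |δ * a k| ≤ 1 / 32 := by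
  rw [abs_mul, abs_of_pos hh.hδ0]
  exact (mul_le_mul_of_nonneg_left (hh.haR k) hh.hδ0.le).trans hh.δA

lemma dlo (k : ι) : 31 / 32 ≤ 1 - δ * a k := by
  have := abs_le.mp (hh.δa k); linarith

lemma dhi (k : ι) : 1 - δ * a k ≤ 33 / 32 := by
  have := abs_le.mp (hh.δa k); linarith

lemma dpos (k : ι) : 0 < 1 - δ * a k := by
  have := hh.dlo k; linarith

lemma Hb (v : υ) (k : ι) : |ζ * C.H v k| ≤ 3 / 512 := by
  have h1 : |C.H v k| ≤ 3 * (A * B) := by
    have e : C.H v k = a k * C.x v + C.t k - C.y v := by simp [Cfg.H, hh.hm]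
    have h2 : |(a k : ℝ) * C.x v| ≤ A * B := by
      rw [abs_mul]
      exact mul_le_mul (hh.haR k) (hh.hx v) (abs_nonneg _) (by have := hh.hA; linarith)
    have h3 : B ≤ A * B := by
      have := hh.hA; have := hh.hB; (clear v k e h2; nlinarith)
    rw [e]
    have h4 := hh.ht k
    have h5 := hh.hy v
    rw [abs_le] at *
    constructor <;> linarith only [h2, h3, h4, h5]
  rw [abs_mul, abs_of_pos hh.hζ0]
  have h6 : ζ * |C.H v k| ≤ ζ * (3 * (A * B)) := mul_le_mul_of_nonneg_left h1 hh.hζ0.le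
  have h7 := hh.hζ
  have h8 := hh.δle
  linarith

lemma Hf (N : ℕ) (v : Fin X × Fin (2 * Y + 1) × υ) (j : ι × Fin (2 * N + 1)) :
    (LC C a X Y N δ ζ).H v j = ((nn a v j : ℤ) + ζ * C.H v.2.2 j.1) / (1 - δ * a j.1) :=
  LC_H hh.hm v j (hh.dpos j.1).ne'

/-- the sign of the height -/
lemma sgH (N : ℕ) (v : Fin X × Fin (2 * Y + 1) × υ) (j : ι × Fin (2 * N + 1)) :
    sg ((LC C a X Y N δ ζ).H v j)
      = (nn a v j).sign + (if nn a v j = 0 then sg (C.H v.2.2 j.1) else 0) := by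
  rw [hh.Hf, sg_div_pos (hh.dpos j.1)]
  by_cases hn : nn a v j = 0
  · rw [hn]
    simp only [Int.cast_zero, zero_add, Int.sign_zero, if_true]
    exact sg_mul_pos hh.hζ0
  · rw [if_neg hn, add_zero]
    exact sg_int_add (lt_of_le_of_lt (hh.Hb _ _) (by norm_num)) hn

lemma cb (k : ι) (v : Fin X × Fin (2 * Y + 1) × υ) :
    |((((v.2.1 : ℕ) : ℤ) - Y) - a k * ((v.1 : ℕ) : ℤ))| ≤ ((Y + A * X : ℕ) : ℤ) := by
  have h1 := v.2.1.2
  have h2 := v.1.2
  have h3 := abs_le.mp (hh.ha k)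
  have h4 : |a k * ((v.1 : ℕ) : ℤ)| ≤ A * X := by
    rw [abs_mul]
    apply mul_le_mul (hh.ha k) _ (abs_nonneg _) (by positivity)
    rw [abs_of_nonneg (by positivity)]
    exact_mod_cast h2.le
  rw [abs_le] at *
  push_cast
  constructor <;> [skip; skip]
  · have := h4.2; omega
  · have := h4.1; omega

lemma nn_q (v : Fin X × Fin (2 * Y + 1) × υ) :
    nn a v ((LC C a X Y (Y + A * X) δ ζ).q v) = 0 := by
  simp only [nn, LC]
  rw [idx_spec (hh.cb (C.q v.2.2) v)]
  ring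

lemma nn_p (v : Fin X × Fin (2 * Y + 1) × υ) :
    nn a v ((LC C a X Y (Y + A * X) δ ζ).p v) = 0 := by
  simp only [nn, LC]
  rw [idx_spec (hh.cb (C.p v.2.2) v)]
  ring

lemma eq_of_nn_q (v : Fin X × Fin (2 * Y + 1) × υ) (j : ι × Fin (2 * (Y + A * X) + 1))
    (h1 : j.1 = C.q v.2.2) (h2 : nn a v j = 0) : j = (LC C a X Y (Y + A * X) δ ζ).q v := by
  obtain ⟨j1, j2⟩ := j
  simp only at h1
  subst h1
  simp only [LC]
  congr 1
  apply idx_unique
  simp only [nn] at h2
  linarith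

lemma eq_of_nn_p (v : Fin X × Fin (2 * Y + 1) × υ) (j : ι × Fin (2 * (Y + A * X) + 1))
    (h1 : j.1 = C.p v.2.2) (h2 : nn a v j = 0) : j = (LC C a X Y (Y + A * X) δ ζ).p v := by
  obtain ⟨j1, j2⟩ := j
  simp only at h1
  subst h1
  simp only [LC]
  congr 1
  apply idx_unique
  simp only [nn] at h2
  linarith only [h2]

lemma on_q (v : Fin X × Fin (2 * Y + 1) × υ) :
    (LC C a X Y (Y + A * X) δ ζ).H v ((LC C a X Y (Y + A * X) δ ζ).q v) = 0 := by
  rw [hh.Hf, hh.nn_q]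
  have : C.H v.2.2 ((LC C a X Y (Y + A * X) δ ζ).q v).1 = 0 := hh.good.on_q v.2.2
  rw [this]
  simp

lemma on_p (v : Fin X × Fin (2 * Y + 1) × υ) :
    (LC C a X Y (Y + A * X) δ ζ).H v ((LC C a X Y (Y + A * X) δ ζ).p v) = 0 := by
  rw [hh.Hf, hh.nn_p]
  have : C.H v.2.2 ((LC C a X Y (Y + A * X) δ ζ).p v).1 = 0 := hh.good.on_p v.2.2
  rw [this]
  simp

lemma an (v : υ) : a (C.p v) ≠ a (C.q v) := by
  intro h1
  apply hh.good.ne v
  simp only [Cfg.Δ, hh.hm, h1, sub_self]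

lemma inj (v v' : Fin X × Fin (2 * Y + 1) × υ)
    (h1 : (LC C a X Y (Y + A * X) δ ζ).q v = (LC C a X Y (Y + A * X) δ ζ).q v')
    (h2 : (LC C a X Y (Y + A * X) δ ζ).p v = (LC C a X Y (Y + A * X) δ ζ).p v') : v = v' := by
  have q1 : C.q v.2.2 = C.q v'.2.2 := congrArg Prod.fst h1
  have p1 : C.p v.2.2 = C.p v'.2.2 := congrArg Prod.fst h2
  have e1 : v.2.2 = v'.2.2 := hh.good.inj _ _ q1 p1
  have n1 := hh.nn_q v
  have n2 := hh.nn_q v'
  have n3 := hh.nn_p v
  have n4 := hh.nn_p v'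
  rw [h1] at n1
  rw [h2] at n3
  simp only [nn] at n1 n2 n3 n4
  have f1 : ((LC C a X Y (Y + A * X) δ ζ).q v').1 = C.q v.2.2 := q1.symm
  have f2 : ((LC C a X Y (Y + A * X) δ ζ).p v').1 = C.p v.2.2 := p1.symm
  rw [f1] at n1 n2
  rw [f2] at n3 n4
  have hne := hh.an v.2.2
  have g1 : (a (C.p v.2.2) - a (C.q v.2.2)) * (((v.1 : ℕ) : ℤ) - ((v'.1 : ℕ) : ℤ)) = 0 := by
    linear_combination n3 - n4 - n1 + n2
  have g2 : ((v.1 : ℕ) : ℤ) - ((v'.1 : ℕ) : ℤ) = 0 := by
    rcases mul_eq_zero.mp g1 with g | g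
    · exact absurd (by linarith only [g]) hne
    · exact g
  have g3 : (((v.2.1 : ℕ) : ℤ)) - ((v'.2.1 : ℕ) : ℤ) = 0 := by
    linear_combination n2 - n1 + a (C.q v.2.2) * g2
  refine Prod.ext (Fin.ext (by omega)) (Prod.ext (Fin.ext (by omega)) e1)

lemma lo (v : Fin X × Fin (2 * Y + 1) × υ) :
    1 / 2 ≤ |(LC C a X Y (Y + A * X) δ ζ).Δ v| := by
  have e : (LC C a X Y (Y + A * X) δ ζ).Δ v
      = ((a (C.p v.2.2) - a (C.q v.2.2) : ℤ) : ℝ)
        / ((1 - δ * a (C.p v.2.2)) * (1 - δ * a (C.q v.2.2))) := by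
    simp only [Cfg.Δ, LC]
    have d1 := (hh.dpos (C.p v.2.2)).ne'
    have d2 := (hh.dpos (C.q v.2.2)).ne'
    rw [div_sub_div _ _ d1 d2]
    congr 1
    push_cast
    ring
  have h1 : (1 : ℝ) ≤ |((a (C.p v.2.2) - a (C.q v.2.2) : ℤ) : ℝ)| := by
    have h2 : a (C.p v.2.2) - a (C.q v.2.2) ≠ 0 := sub_ne_zero.mpr (hh.an v.2.2)
    exact_mod_cast Int.one_le_abs h2
  have d1 := hh.dlo (C.p v.2.2)
  have d2 := hh.dlo (C.q v.2.2)
  have d3 := hh.dhi (C.p v.2.2)
  have d4 := hh.dhi (C.q v.2.2)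
  have h3 : 0 < (1 - δ * a (C.p v.2.2)) * (1 - δ * a (C.q v.2.2)) := by (clear * - d1 d2; positivity)
  have h4 : (1 - δ * a (C.p v.2.2)) * (1 - δ * a (C.q v.2.2)) ≤ 33 / 32 * (33 / 32) :=
    mul_le_mul d3 d4 (by linarith only [d2]) (by norm_num)
  rw [e, abs_div, abs_of_pos h3, le_div_iff₀ h3]
  linarith only [h1, h4]

lemma AXY : (A : ℝ) ≤ A * X * Y ∧ (X : ℝ) ≤ A * X * Y ∧ (Y : ℝ) ≤ A * X * Y ∧ 1 ≤ (A : ℝ) * X * Y
    ∧ (A : ℝ) * X ≤ A * X * Y := by
  have h1 := hh.hA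
  have h2 := hh.hX
  have h3 := hh.hY
  have e1 : (1 : ℝ) ≤ A * X := by nlinarith
  have e2 : (1 : ℝ) ≤ X * Y := by nlinarith only [h2, h3]
  have e3 : (1 : ℝ) ≤ A * Y := by nlinarith only [h1, h3]
  refine ⟨by nlinarith only [e2], by nlinarith only [e3], by nlinarith only [e1], by nlinarith only [h1, e2], by nlinarith only [h3, e1]⟩

lemma divb {z : ℝ} (k : ι) : |z / (1 - δ * a k)| ≤ 32 / 31 * |z| := by
  have d1 := hh.dlo k
  rw [abs_div, abs_of_pos (hh.dpos k), div_le_iff₀ (hh.dpos k)]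
  have := abs_nonneg z
  nlinarith

lemma mb (j : ι × Fin (2 * (Y + A * X) + 1)) :
    |(LC C a X Y (Y + A * X) δ ζ).m j| ≤ 8 * A * X * Y := by
  have h1 := hh.divb (z := (a j.1 : ℝ)) j.1
  have h2 := hh.haR j.1
  have h3 := hh.AXY
  have h4 : 8 * (A : ℝ) * X * Y = 8 * (A * X * Y) := by ring
  simp only [LC]
  rw [h4]
  linarith only [h1, h2, h3]

lemma jb (j : ι × Fin (2 * (Y + A * X) + 1)) :
    |(((j.2 : ℕ) : ℝ) - ((Y + A * X : ℕ) : ℝ))| ≤ (Y : ℝ) + A * X := by
  have h1 : ((j.2 : ℕ) : ℝ) ≤ 2 * ((Y + A * X : ℕ) : ℝ) := by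
    have := j.2.2
    exact_mod_cast (by omega : (j.2 : ℕ) ≤ 2 * (Y + A * X))
  have h2 : (0 : ℝ) ≤ ((j.2 : ℕ) : ℝ) := by positivity
  push_cast at h1 ⊢
  rw [abs_le]
  constructor <;> linarith only [h1]

lemma tb (j : ι × Fin (2 * (Y + A * X) + 1)) :
    |(LC C a X Y (Y + A * X) δ ζ).t j| ≤ 8 * A * X * Y := by
  have h1 := hh.divb (z := (((j.2 : ℕ) : ℝ) - ((Y + A * X : ℕ) : ℝ)) + ζ * C.t j.1) j.1
  have h2 := hh.jb j
  have h3 := hh.AXY
  have h4 : 8 * (A : ℝ) * X * Y = 8 * (A * X * Y) := by ring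
  have h5 : |ζ * C.t j.1| ≤ 1 := by
    rw [abs_mul, abs_of_pos hh.hζ0]
    have := mul_le_mul_of_nonneg_left (hh.ht j.1) hh.hζ0.le
    have := hh.ζB
    have := hh.δle
    (clear h1 h2 h3 h4; linarith)
  have h6 := abs_add_le ((((j.2 : ℕ) : ℝ) - ((Y + A * X : ℕ) : ℝ))) (ζ * C.t j.1)
  simp only [LC]
  rw [h4]
  linarith only [h1, h2, h3, h5, h6]

lemma ζx (v : υ) : |ζ * C.x v| ≤ δ / 16 := by
  rw [abs_mul, abs_of_pos hh.hζ0]
  have := mul_le_mul_of_nonneg_left (hh.hx v) hh.hζ0.le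
  have := hh.ζB
  linarith

lemma ζy (v : υ) : |ζ * C.y v| ≤ δ / 16 := by
  rw [abs_mul, abs_of_pos hh.hζ0]
  have := mul_le_mul_of_nonneg_left (hh.hy v) hh.hζ0.le
  have := hh.ζB
  linarith

lemma δζy (v : υ) : |δ * (ζ * C.y v)| ≤ δ / 16 := by
  have h1 := hh.ζy v
  have h2 := hh.δle
  have h3 := hh.hδ0
  rw [abs_mul, abs_of_pos hh.hδ0]
  nlinarith [abs_nonneg (ζ * C.y v)]

omit hh in
lemma lb (l : Fin (2 * Y + 1)) : |((l : ℕ) : ℝ) - Y| ≤ Y := by
  have h1 : ((l : ℕ) : ℝ) ≤ 2 * (Y : ℝ) := by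
    have := l.2
    exact_mod_cast (by omega : (l : ℕ) ≤ 2 * Y)
  have h2 : (0 : ℝ) ≤ ((l : ℕ) : ℝ) := by positivity
  rw [abs_le]
  constructor <;> linarith only [h1]

omit hh in
lemma kb (k : Fin X) : ((k : ℕ) : ℝ) + 1 ≤ X := by
  exact_mod_cast k.2

lemma δl (l : Fin (2 * Y + 1)) : |δ * (((l : ℕ) : ℝ) - Y)| ≤ 1 / 32 := by
  rw [abs_mul, abs_of_pos hh.hδ0]
  have h1 := mul_le_mul_of_nonneg_left (lb l) hh.hδ0.le
  have h2 := hh.δY
  linarith

lemma xb (v : Fin X × Fin (2 * Y + 1) × υ) :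
    |(LC C a X Y (Y + A * X) δ ζ).x v| ≤ 8 * A * X * Y := by
  have h3 := hh.AXY
  have h4 : 8 * (A : ℝ) * X * Y = 8 * (A * X * Y) := by ring
  have h5 := abs_le.mp (hh.ζx v.2.2)
  have h6 := abs_le.mp (hh.δζy v.2.2)
  have h7 := abs_le.mp (hh.δl v.2.1)
  have h8 := kb v.1
  have h9 : (0 : ℝ) ≤ ((v.1 : ℕ) : ℝ) := by positivity
  have h10 := hh.δle
  simp only [LC]
  rw [h4, mul_add, abs_le]
  constructor <;> linarith [h3.2.1, h3.2.2.2.1]

lemma yb (v : Fin X × Fin (2 * Y + 1) × υ) :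
    |(LC C a X Y (Y + A * X) δ ζ).y v| ≤ 8 * A * X * Y := by
  have h3 := hh.AXY
  have h4 : 8 * (A : ℝ) * X * Y = 8 * (A * X * Y) := by ring
  have h5 := abs_le.mp (hh.ζy v.2.2)
  have h7 := abs_le.mp (lb v.2.1)
  have h10 := hh.δle
  simp only [LC]
  rw [h4, abs_le]
  constructor <;> linarith [h3.2.2.1, h3.2.2.2.1]

lemma off (v : Fin X × Fin (2 * Y + 1) × υ) (j : ι × Fin (2 * (Y + A * X) + 1))
    (hq : j ≠ (LC C a X Y (Y + A * X) δ ζ).q v) (hp : j ≠ (LC C a X Y (Y + A * X) δ ζ).p v)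
    (hζ1 : ζ * (1024 * A ^ 2 * B * Y) = 2) :
    1 ≤ (1024 * A ^ 2 * B * Y * Γ) * |(LC C a X Y (Y + A * X) δ ζ).H v j| := by
  rw [hh.Hf, abs_div, abs_of_pos (hh.dpos j.1)]
  have hK : 0 ≤ 1024 * (A : ℝ) ^ 2 * B * Y * Γ := by
    have := hh.hA; have := hh.hB; have := hh.hY; have := hh.hΓ
    (clear v j hq hp hζ1; positivity)
  rw [← mul_div_assoc, le_div_iff₀ (hh.dpos j.1), one_mul]
  refine (hh.dhi j.1).trans ?_
  by_cases hn : nn a v j = 0
  · have h1 : j.1 ≠ C.q v.2.2 := fun e => hq (hh.eq_of_nn_q v j e hn)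
    have h2 : j.1 ≠ C.p v.2.2 := fun e => hp (hh.eq_of_nn_p v j e hn)
    have h3 := hh.hH v.2.2 j.1 h1 h2
    rw [hn, Int.cast_zero, zero_add, abs_mul, abs_of_pos hh.hζ0]
    have h4 : 1024 * (A : ℝ) ^ 2 * B * Y * Γ * (ζ * |C.H v.2.2 j.1|)
      = (ζ * (1024 * A ^ 2 * B * Y)) * (Γ * |C.H v.2.2 j.1|) := by ring
    rw [h4, hζ1]
    linarith only [h3]
  · have h1 : (1 : ℝ) ≤ |((nn a v j : ℤ) : ℝ)| := by exact_mod_cast Int.one_le_abs hn
    have h2 := hh.Hb v.2.2 j.1
    have h3 : 1 / 2 ≤ |((nn a v j : ℤ) : ℝ) + ζ * C.H v.2.2 j.1| := by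
      have := abs_sub_abs_le_abs_sub ((nn a v j : ℤ) : ℝ) (-(ζ * C.H v.2.2 j.1))
      rw [abs_neg, sub_neg_eq_add] at this
      linarith only [h1, h2, this]
    have h4 : (1024 : ℝ) ≤ 1024 * (A : ℝ) ^ 2 * B * Y * Γ := by
      have e2 : (1 : ℝ) ≤ (A : ℝ) ^ 2 * B := one_le_mul_of_one_le_of_one_le (one_le_pow₀ hh.hA) hh.hB
      have e3 : (1 : ℝ) ≤ (A : ℝ) ^ 2 * B * Y := one_le_mul_of_one_le_of_one_le e2 hh.hY
      have e4 : (1 : ℝ) ≤ (A : ℝ) ^ 2 * B * Y * Γ := one_le_mul_of_one_le_of_one_le e3 hh.hΓ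
      nlinarith only [e4]
    nlinarith only [h4, h3]

/-- balance of the lattice configuration alone -/
lemma balL (v : Fin X × Fin (2 * Y + 1) × υ) :
    ∑ j, ((LC C a X Y (Y + A * X) δ ζ).w j : ℤ) * sg ((LC C a X Y (Y + A * X) δ ζ).H v j)
      = -(2 * (2 * (h : ℤ)) * (((v.2.1 : ℕ) : ℤ) - Y)) := by
  rw [Fintype.sum_prod_type]
  have h1 : ∀ i : ι, ∑ c : Fin (2 * (Y + A * X) + 1),
      ((LC C a X Y (Y + A * X) δ ζ).w (i, c) : ℤ)
        * sg ((LC C a X Y (Y + A * X) δ ζ).H v (i, c))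
      = (C.w i : ℤ) * (-2 * ((((v.2.1 : ℕ) : ℤ) - Y) - a i * ((v.1 : ℕ) : ℤ)))
        + (C.w i : ℤ) * sg (C.H v.2.2 i) := by
    intro i
    have h2 : ∀ c : Fin (2 * (Y + A * X) + 1),
        ((LC C a X Y (Y + A * X) δ ζ).w (i, c) : ℤ)
          * sg ((LC C a X Y (Y + A * X) δ ζ).H v (i, c))
        = (C.w i : ℤ) * ((((c : ℕ) : ℤ) - ((Y + A * X : ℕ) : ℤ)
            - ((((v.2.1 : ℕ) : ℤ) - Y) - a i * ((v.1 : ℕ) : ℤ))).sign)
          + (if c = idx (Y + A * X) ((((v.2.1 : ℕ) : ℤ) - Y) - a i * ((v.1 : ℕ) : ℤ)) then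
            (C.w i : ℤ) * sg (C.H v.2.2 i) else 0) := by
      intro c
      rw [hh.sgH]
      have e1 : (LC C a X Y (Y + A * X) δ ζ).w (i, c) = C.w i := rfl
      rw [e1, mul_add]
      congr 1
      by_cases hc : c = idx (Y + A * X) ((((v.2.1 : ℕ) : ℤ) - Y) - a i * ((v.1 : ℕ) : ℤ))
      · have e2 : nn a v ((i, c) : ι × Fin (2 * (Y + A * X) + 1)) = 0 := by
          simp only [nn]
          rw [hc, idx_spec (hh.cb i v)]
          ring
        rw [if_pos hc, if_pos e2]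
      · have e2 : nn a v ((i, c) : ι × Fin (2 * (Y + A * X) + 1)) ≠ 0 := by
          intro e3
          apply hc
          apply idx_unique
          simp only [nn] at e3
          linarith only [e3]
        rw [if_neg hc, if_neg e2, mul_zero]
    rw [Finset.sum_congr rfl (fun c _ => h2 c), Finset.sum_add_distrib, ← Finset.mul_sum,
      sum_sign_fin _ _ (hh.cb i v), Finset.sum_ite_eq' Finset.univ]
    simp only [Int.reduceNeg, neg_mul, mul_neg, Finset.mem_univ, ↓reduceIte]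
  rw [Finset.sum_congr rfl (fun i _ => h1 i), Finset.sum_add_distrib, hh.good.bal v.2.2, add_zero]
  have h3 : ∑ i, (C.w i : ℤ) * (-2 * ((((v.2.1 : ℕ) : ℤ) - Y) - a i * ((v.1 : ℕ) : ℤ)))
      = -2 * (((v.2.1 : ℕ) : ℤ) - Y) * (∑ i, (C.w i : ℤ))
        + 2 * ((v.1 : ℕ) : ℤ) * (∑ i, (C.w i : ℤ) * a i) := by
    rw [Finset.mul_sum, Finset.mul_sum, ← Finset.sum_add_distrib]
    apply Finset.sum_congr rfl
    intro i _
    ring
  rw [h3, hh.hwa]
  have h4 : ∑ i, (C.w i : ℤ) = 2 * (h : ℤ) := by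
    have := hh.hwt
    simp only [Cfg.wt] at this
    exact_mod_cast this
  rw [h4]
  ring

/-- sign and distance for the Q-lines -/
lemma Qline (v : Fin X × Fin (2 * Y + 1) × υ) (b : Fin X × Fin (2 * Y)) :
    δ / 4 ≤ |(((b.1 : ℕ) : ℝ) - δ * ((((b.2 : ℕ) : ℝ) - Y) + 1 / 2))
      - (LC C a X Y (Y + A * X) δ ζ).x v| ∧
    sg ((((b.1 : ℕ) : ℝ) - δ * ((((b.2 : ℕ) : ℝ) - Y) + 1 / 2))
      - (LC C a X Y (Y + A * X) δ ζ).x v)
      = (((b.1 : ℕ) : ℤ) - ((v.1 : ℕ) : ℤ)).sign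
        + (if b.1 = v.1 then (if (b.2 : ℕ) < (v.2.1 : ℕ) then 1 else -1) else 0) := by
  have h5 := abs_le.mp (hh.ζx v.2.2)
  have h6 := abs_le.mp (hh.δζy v.2.2)
  have h10 := hh.δle
  have hδ0 := hh.hδ0
  set E : ℝ := δ * (ζ * C.y v.2.2) - ζ * C.x v.2.2 with hE
  have hE1 : |E| ≤ δ / 8 := by
    rw [abs_le, hE]; constructor <;> linarith
  have hE2 := abs_le.mp hE1
  have e : (((b.1 : ℕ) : ℝ) - δ * ((((b.2 : ℕ) : ℝ) - Y) + 1 / 2))
      - (LC C a X Y (Y + A * X) δ ζ).x v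
      = ((((b.1 : ℕ) : ℤ) - ((v.1 : ℕ) : ℤ) : ℤ) : ℝ)
        + (δ * ((((v.2.1 : ℕ) : ℝ) - ((b.2 : ℕ) : ℝ)) - 1 / 2) + E) := by
    simp only [LC, hE]
    push_cast
    ring
  rw [e]
  have hl1 : ((v.2.1 : ℕ) : ℝ) ≤ 2 * (Y : ℝ) := by
    have := v.2.1.2
    exact_mod_cast (by omega : (v.2.1 : ℕ) ≤ 2 * Y)
  have hl2 : (0 : ℝ) ≤ ((v.2.1 : ℕ) : ℝ) := by (clear * -; positivity)
  have hb1 : ((b.2 : ℕ) : ℝ) + 1 ≤ 2 * (Y : ℝ) := by
    have := b.2.2
    exact_mod_cast (by omega : (b.2 : ℕ) + 1 ≤ 2 * Y)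
  have hb2 : (0 : ℝ) ≤ ((b.2 : ℕ) : ℝ) := by (clear * -; positivity)
  by_cases hk : b.1 = v.1
  · rw [hk, sub_self, Int.sign_zero, Int.cast_zero, zero_add, zero_add, if_pos rfl]
    by_cases hl : (b.2 : ℕ) < (v.2.1 : ℕ)
    · have g1 : ((b.2 : ℕ) : ℝ) + 1 ≤ ((v.2.1 : ℕ) : ℝ) := by exact_mod_cast hl
      have g2 : δ / 4 ≤ δ * ((((v.2.1 : ℕ) : ℝ) - ((b.2 : ℕ) : ℝ)) - 1 / 2) + E := by
        have : δ * (1 / 2) ≤ δ * ((((v.2.1 : ℕ) : ℝ) - ((b.2 : ℕ) : ℝ)) - 1 / 2) :=
          mul_le_mul_of_nonneg_left (by linarith only [g1]) hδ0.le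
        linarith only [h5, h6, this]
      rw [if_pos hl]
      exact ⟨g2.trans (le_abs_self _), sg_pos (by linarith only [hδ0, g2])⟩
    · have g1 : ((v.2.1 : ℕ) : ℝ) ≤ ((b.2 : ℕ) : ℝ) := by exact_mod_cast not_lt.mp hl
      have g2 : δ * ((((v.2.1 : ℕ) : ℝ) - ((b.2 : ℕ) : ℝ)) - 1 / 2) + E ≤ -(δ / 4) := by
        have : δ * ((((v.2.1 : ℕ) : ℝ) - ((b.2 : ℕ) : ℝ)) - 1 / 2) ≤ δ * (-(1 / 2)) :=
          mul_le_mul_of_nonneg_left (by linarith only [g1]) hδ0.le
        linarith only [h5, h6, this]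
      rw [if_neg hl]
      refine ⟨?_, sg_neg (by linarith only [hδ0, g2])⟩
      rw [le_abs]
      right
      linarith only [g2]
  · have hn : ((b.1 : ℕ) : ℤ) - ((v.1 : ℕ) : ℤ) ≠ 0 := by
      intro h0
      apply hk
      apply Fin.ext
      omega
    have g0 := hh.δY
    have g1 : |δ * ((((v.2.1 : ℕ) : ℝ) - ((b.2 : ℕ) : ℝ)) - 1 / 2) + E| ≤ 1 / 8 := by
      have g2 : δ * ((((v.2.1 : ℕ) : ℝ) - ((b.2 : ℕ) : ℝ)) - 1 / 2) ≤ δ * (2 * Y) :=
        mul_le_mul_of_nonneg_left (by linarith only [hl1]) hδ0.le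
      have g3 : δ * (-(2 * Y)) ≤ δ * ((((v.2.1 : ℕ) : ℝ) - ((b.2 : ℕ) : ℝ)) - 1 / 2) :=
        mul_le_mul_of_nonneg_left (by linarith only [hb1]) hδ0.le
      rw [abs_le]
      constructor <;> linarith only [h5, h6, h10, g0, g2, g3]
    rw [if_neg hk, add_zero]
    refine ⟨?_, sg_int_add (lt_of_le_of_lt g1 (by norm_num)) hn⟩
    have g4 : (1 : ℝ) ≤ |((((b.1 : ℕ) : ℤ) - ((v.1 : ℕ) : ℤ) : ℤ) : ℝ)| := by
      exact_mod_cast Int.one_le_abs hn
    have := abs_sub_abs_le_abs_sub ((((b.1 : ℕ) : ℤ) - ((v.1 : ℕ) : ℤ) : ℤ) : ℝ)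
      (-(δ * ((((v.2.1 : ℕ) : ℝ) - ((b.2 : ℕ) : ℝ)) - 1 / 2) + E))
    rw [abs_neg, sub_neg_eq_add] at this
    linarith only [h10, g1, g4, this]

/-- sign and distance for the P-lines -/
lemma Pline (v : Fin X × Fin (2 * Y + 1) × υ) (b : Fin (X - 1)) :
    δ / 4 ≤ |(LC C a X Y (Y + A * X) δ ζ).x v + -(((b : ℕ) : ℝ) + 1 / 2)| ∧
    sg ((LC C a X Y (Y + A * X) δ ζ).x v + -(((b : ℕ) : ℝ) + 1 / 2))
      = (if (b : ℕ) < (v.1 : ℕ) then 1 else -1) := by
  have h5 := abs_le.mp (hh.ζx v.2.2)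
  have h6 := abs_le.mp (hh.δζy v.2.2)
  have h7 := abs_le.mp (hh.δl v.2.1)
  have h10 := hh.δle
  have e : (LC C a X Y (Y + A * X) δ ζ).x v + -(((b : ℕ) : ℝ) + 1 / 2)
      = (((v.1 : ℕ) : ℝ) - ((b : ℕ) : ℝ) - 1 / 2) + (ζ * C.x v.2.2
        - δ * (((v.2.1 : ℕ) : ℝ) - Y) - δ * (ζ * C.y v.2.2)) := by
    simp only [LC]
    ring
  rw [e]
  by_cases hl : (b : ℕ) < (v.1 : ℕ)
  · have g1 : ((b : ℕ) : ℝ) + 1 ≤ ((v.1 : ℕ) : ℝ) := by exact_mod_cast hl
    rw [if_pos hl]
    refine ⟨?_, sg_pos (by linarith only [h5, h6, h7, h10, g1])⟩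
    rw [le_abs]
    left
    linarith only [h5, h6, h7, h10, g1]
  · have g1 : ((v.1 : ℕ) : ℝ) ≤ ((b : ℕ) : ℝ) := by exact_mod_cast not_lt.mp hl
    rw [if_neg hl]
    refine ⟨?_, sg_neg (by linarith only [h5, h6, h7, h10, g1])⟩
    rw [le_abs]
    right
    linarith only [h5, h6, h7, h10, g1]

end Hyp

/-- the gadget -/
noncomputable def GG (C : Cfg ι υ) (a : ι → ℤ) (h X Y N : ℕ) (δ ζ : ℝ) :
    Gad (ι × Fin (2 * N + 1)) (Fin X × Fin (2 * Y + 1) × υ) (Fin X × Fin (2 * Y))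
      (Fin (X - 1)) where
  L := LC C a X Y N δ ζ
  oQ b := ((b.1 : ℕ) : ℝ) - δ * ((((b.2 : ℕ) : ℝ) - Y) + 1 / 2)
  wQ _ := 2 * h
  oP b := -(((b : ℕ) : ℝ) + 1 / 2)
  wP _ := 2 * Y * (2 * h)

namespace Hyp

variable [Fintype ι] [Fintype υ] {C : Cfg ι υ} {a : ι → ℤ} {h d A X Y : ℕ} {B Γ δ ζ : ℝ}
  (hh : Hyp C a h d A X Y B Γ δ ζ)

include hh

lemma X1 : 1 ≤ X := by exact_mod_cast hh.hX

lemma balQ (v : Fin X × Fin (2 * Y + 1) × υ) :
    ∑ b, ((GG C a h X Y (Y + A * X) δ ζ).wQ b : ℤ)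
        * sg ((GG C a h X Y (Y + A * X) δ ζ).oQ b - (GG C a h X Y (Y + A * X) δ ζ).L.x v)
      = 2 * (h : ℤ) * (2 * Y * ((X : ℤ) - 1 - 2 * ((v.1 : ℕ) : ℤ))
        + 2 * (((v.2.1 : ℕ) : ℤ) - Y)) := by
  have h1 : ∀ b : Fin X × Fin (2 * Y), ((GG C a h X Y (Y + A * X) δ ζ).wQ b : ℤ)
        * sg ((GG C a h X Y (Y + A * X) δ ζ).oQ b - (GG C a h X Y (Y + A * X) δ ζ).L.x v)
      = 2 * (h : ℤ) * ((((b.1 : ℕ) : ℤ) - ((v.1 : ℕ) : ℤ)).sign
        + (if b.1 = v.1 then (if (b.2 : ℕ) < (v.2.1 : ℕ) then 1 else -1) else 0)) := by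
    intro b
    rw [show (GG C a h X Y (Y + A * X) δ ζ).oQ b - (GG C a h X Y (Y + A * X) δ ζ).L.x v
      = (((b.1 : ℕ) : ℝ) - δ * ((((b.2 : ℕ) : ℝ) - Y) + 1 / 2))
      - (LC C a X Y (Y + A * X) δ ζ).x v from rfl, (hh.Qline v b).2]
    simp only [GG]
    push_cast
    ring
  rw [Finset.sum_congr rfl (fun b _ => h1 b), ← Finset.mul_sum, Finset.sum_add_distrib]
  congr 1
  rw [Fintype.sum_prod_type, Fintype.sum_prod_type]
  congr 1
  · simp only [Finset.sum_const, Finset.card_univ, Fintype.card_fin, nsmul_eq_mul]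
    rw [← Finset.mul_sum, sum_sign_fin' X hh.X1 v.1 v.1.2]
    push_cast
    ring
  · have h2 : ∀ k : Fin X, (∑ l : Fin (2 * Y), (if k = v.1 then
        (if (l : ℕ) < (v.2.1 : ℕ) then (1 : ℤ) else -1) else 0))
        = (if k = v.1 then (2 * (((v.2.1 : ℕ) : ℤ) - Y)) else 0) := by
      intro k
      by_cases hk : k = v.1
      · simp only [hk, if_true]
        rw [sum_ite_fin (2 * Y) (v.2.1 : ℕ) (by have := v.2.1.2; omega)]
        push_cast
        ring
      · simp only [hk, if_false, Finset.sum_const_zero]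
    rw [Finset.sum_congr rfl (fun k _ => h2 k), Finset.sum_ite_eq' Finset.univ]
    simp only [Finset.mem_univ, ↓reduceIte]

lemma balP (v : Fin X × Fin (2 * Y + 1) × υ) :
    ∑ b, ((GG C a h X Y (Y + A * X) δ ζ).wP b : ℤ)
        * sg ((GG C a h X Y (Y + A * X) δ ζ).L.x v + (GG C a h X Y (Y + A * X) δ ζ).oP b)
      = 2 * Y * (2 * (h : ℤ)) * (2 * ((v.1 : ℕ) : ℤ) - ((X : ℤ) - 1)) := by
  have h1 : ∀ b : Fin (X - 1), ((GG C a h X Y (Y + A * X) δ ζ).wP b : ℤ)
        * sg ((GG C a h X Y (Y + A * X) δ ζ).L.x v + (GG C a h X Y (Y + A * X) δ ζ).oP b)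
      = 2 * Y * (2 * (h : ℤ)) * (if (b : ℕ) < (v.1 : ℕ) then 1 else -1) := by
    intro b
    rw [show (GG C a h X Y (Y + A * X) δ ζ).L.x v + (GG C a h X Y (Y + A * X) δ ζ).oP b
      = (LC C a X Y (Y + A * X) δ ζ).x v + -(((b : ℕ) : ℝ) + 1 / 2) from rfl, (hh.Pline v b).2]
    simp only [GG]
    push_cast
    ring
  rw [Finset.sum_congr rfl (fun b _ => h1 b), ← Finset.mul_sum,
    sum_ite_fin (X - 1) (v.1 : ℕ) (by have := v.1.2; omega)]
  congr 2
  have := hh.X1
  push_cast [Nat.cast_sub this]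
  ring

lemma deg (j : ι × Fin (2 * (Y + A * X) + 1)) :
    (LC C a X Y (Y + A * X) δ ζ).deg j ≤ X * d := by
  classical
  refine le_trans ?_ (Nat.mul_le_mul_left X (hh.hdeg j.1))
  simp only [Cfg.deg]
  have h1 : X * (Finset.univ.filter (fun v => C.q v = j.1)).card
      = ((Finset.univ : Finset (Fin X)) ×ˢ (Finset.univ.filter (fun v => C.q v = j.1))).card := by
    rw [Finset.card_product, Finset.card_univ, Fintype.card_fin]
  rw [h1]
  apply Finset.card_le_card_of_injOn (fun v => (v.1, v.2.2))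
  · intro v hv
    have hv2 : (LC C a X Y (Y + A * X) δ ζ).q v = j := by simpa only [Finset.coe_filter, Finset.mem_univ, true_and, Set.mem_ofPred_eq] using hv
    have : C.q v.2.2 = j.1 := by rw [← hv2]; rfl
    simp only [Finset.coe_product, Finset.coe_univ, Finset.coe_filter, Finset.mem_univ, true_and, Set.mem_prod, Set.mem_univ, Set.mem_ofPred_eq, this, and_self]
  · intro v hv v' hv' e
    have hv2 : (LC C a X Y (Y + A * X) δ ζ).q v = j := by simpa only [Finset.coe_filter, Finset.mem_univ, true_and, Set.mem_ofPred_eq] using hv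
    have hv2' : (LC C a X Y (Y + A * X) δ ζ).q v' = j := by simpa only [Finset.coe_filter, Finset.mem_univ, true_and, Set.mem_ofPred_eq] using hv'
    simp only [Prod.mk.injEq] at e
    have n1 := hh.nn_q v
    have n2 := hh.nn_q v'
    rw [hv2] at n1
    rw [hv2'] at n2
    simp only [nn] at n1 n2
    rw [← e.1] at n2
    refine Prod.ext e.1 (Prod.ext (Fin.ext ?_) e.2)
    have : ((v.2.1 : ℕ) : ℤ) = ((v'.2.1 : ℕ) : ℤ) := by linarith only [n1, n2]
    exact_mod_cast this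

end Hyp

end gadget

end LatG

open LatG in
/-- the lattice gadget -/
theorem lattice_gadget {h d V A : ℕ} {B Γ : ℝ} (hIC : IC h d V A B Γ) (hh : 1 ≤ h) (hA : 1 ≤ A)
    (hB : 1 ≤ B) (hΓ : 1 ≤ Γ) {X Y : ℕ} (hX : 1 ≤ X) (hY : 1 ≤ Y) :
    ∃ (κ ν βQ βP : Type) (_ : Fintype κ) (_ : Fintype ν) (_ : Fintype βQ) (_ : Fintype βP)
      (G : Gad κ ν βQ βP),
      G.Ok (8 * A * X * Y) (1 / (128 * A * Y)) (1024 * A ^ 2 * B * Y * Γ) (X * Y * (2 * h))
        ((X - 1) * Y * (2 * h)) (h * (2 * (Y + A * X) + 1)) ∧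
      Fintype.card ν = X * (2 * Y + 1) * V ∧ ∀ j, G.L.deg j ≤ X * d := by
  obtain ⟨ι, υ, _, _, C, a, hG, hm, ha, hwa, ht, hx, hy, hH, hdeg, hwt, hV⟩ := hIC
  have hAR : (1 : ℝ) ≤ A := by exact_mod_cast hA
  have hXR : (1 : ℝ) ≤ X := by exact_mod_cast hX
  have hYR : (1 : ℝ) ≤ Y := by exact_mod_cast hY
  have hA0 : (A : ℝ) ≠ 0 := by positivity
  have hY0 : (Y : ℝ) ≠ 0 := by positivity
  have hB0 : B ≠ 0 := by positivity
  set δ : ℝ := 1 / (32 * A * Y) with hδ
  set ζ : ℝ := 1 / (512 * A ^ 2 * B * Y) with hζ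
  have H : Hyp C a h d A X Y B Γ δ ζ :=
    { good := hG, hm := hm, ha := ha, hwa := hwa, ht := ht, hx := hx, hy := hy, hH := hH,
      hdeg := hdeg, hwt := hwt, hA := hAR, hB := hB, hΓ := hΓ, hX := hXR, hY := hYR
      hδ := by rw [hδ]; field_simp
      hδ0 := by rw [hδ]; positivity
      hζ := by rw [hζ, hδ]; field_simp; norm_num
      hζ0 := by rw [hζ]; positivity }
  have hρ : 1 / (128 * (A : ℝ) * Y) = δ / 4 := by rw [hδ]; field_simp; norm_num
  have hζ1 : ζ * (1024 * A ^ 2 * B * Y) = 2 := by rw [hζ]; field_simp; norm_num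
  refine ⟨ι × Fin (2 * (Y + A * X) + 1), Fin X × Fin (2 * Y + 1) × υ, Fin X × Fin (2 * Y),
    Fin (X - 1), inferInstance, inferInstance, inferInstance, inferInstance,
    GG C a h X Y (Y + A * X) δ ζ, ?_, ?_, H.deg⟩
  · exact
    { R1 := by
        have := H.AXY.2.2.2.1
        have e : 8 * (A : ℝ) * X * Y = 8 * (A * X * Y) := by ring
        rw [e]; linarith only [this]
      ρ0 := by positivity
      ρ1 := by rw [hρ]; have := H.δle; linarith only [this]
      Γ1 := by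
        have e2 : (1 : ℝ) ≤ (A : ℝ) ^ 2 * B :=
          one_le_mul_of_one_le_of_one_le (one_le_pow₀ hAR) hB
        have e3 : (1 : ℝ) ≤ (A : ℝ) ^ 2 * B * Y := one_le_mul_of_one_le_of_one_le e2 hYR
        have e4 : (1 : ℝ) ≤ (A : ℝ) ^ 2 * B * Y * Γ := one_le_mul_of_one_le_of_one_le e3 hΓ
        have e : 1024 * (A : ℝ) ^ 2 * B * Y * Γ = 1024 * (A ^ 2 * B * Y * Γ) := by ring
        rw [e]; linarith only [e4]
      on_q := H.on_q
      on_p := H.on_p
      w_q := fun v => hG.w_q v.2.2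
      w_p := fun v => hG.w_p v.2.2
      bip := fun v v' e => hG.bip v.2.2 v'.2.2 (congrArg Prod.fst e)
      inj := H.inj
      lo := H.lo
      mb := H.mb
      tb := H.tb
      xb := H.xb
      yb := H.yb
      off := fun v j hq hp => H.off v j hq hp hζ1
      oQb := by
        intro b
        have h1 := H.AXY
        have e : 8 * (A : ℝ) * X * Y = 8 * (A * X * Y) := by ring
        have hb1 : ((b.2 : ℕ) : ℝ) + 1 ≤ 2 * (Y : ℝ) := by
          have := b.2.2
          exact_mod_cast (by (clear * - this; omega) : (b.2 : ℕ) + 1 ≤ 2 * Y)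
        have hb2 : (0 : ℝ) ≤ ((b.2 : ℕ) : ℝ) := by (clear * -; positivity)
        have hb3 : ((b.1 : ℕ) : ℝ) + 1 ≤ X := by exact_mod_cast b.1.2
        have hb4 : (0 : ℝ) ≤ ((b.1 : ℕ) : ℝ) := by (clear * -; positivity)
        have g0 := H.δY
        have g2 : δ * ((((b.2 : ℕ) : ℝ) - Y) + 1 / 2) ≤ δ * (2 * Y) :=
          mul_le_mul_of_nonneg_left (by linarith only [hb1]) H.hδ0.le
        have g3 : δ * (-(2 * Y)) ≤ δ * ((((b.2 : ℕ) : ℝ) - Y) + 1 / 2) :=
          mul_le_mul_of_nonneg_left (by linarith only []) H.hδ0.le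
        simp only [GG]
        rw [e, abs_le]
        constructor <;> linarith only [h1, g0, g2, hb3, g3]
      oPb := by
        intro b
        have h1 := H.AXY
        have e : 8 * (A : ℝ) * X * Y = 8 * (A * X * Y) := by ring
        have hb3 : ((b : ℕ) : ℝ) + 2 ≤ X := by
          have := b.2
          exact_mod_cast (by (clear * - hX this; omega) : (b : ℕ) + 2 ≤ X)
        have hb4 : (0 : ℝ) ≤ ((b : ℕ) : ℝ) := by (clear * -; positivity)
        simp only [GG]
        rw [e, abs_neg, abs_le]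
        constructor <;> linarith only [h1, hb3]
      sepQ := by
        intro v b
        rw [hρ]
        exact (H.Qline v b).1
      sepP := by
        intro v b
        rw [hρ]
        exact (H.Pline v b).1
      bal := by
        intro v
        rw [H.balQ v, H.balP v]
        have := H.balL v
        rw [show (∑ j, ((GG C a h X Y (Y + A * X) δ ζ).L.w j : ℤ)
            * sg ((GG C a h X Y (Y + A * X) δ ζ).L.H v j))
          = ∑ j, ((LC C a X Y (Y + A * X) δ ζ).w j : ℤ)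
            * sg ((LC C a X Y (Y + A * X) δ ζ).H v j) from rfl, this]
        ring
      sumQ := by
        simp only [GG, Finset.sum_const, Finset.card_univ, Fintype.card_prod, Fintype.card_fin,
          smul_eq_mul]
        ring
      sumP := by
        simp only [GG, Finset.sum_const, Finset.card_univ, Fintype.card_fin,
          smul_eq_mul]
        ring
      le := by
        apply Nat.mul_le_mul_right
        apply Nat.mul_le_mul_right
        omega
      sumL := by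
        rw [Fintype.sum_prod_type]
        simp only [GG, LC, Finset.sum_const, Finset.card_univ, Fintype.card_fin, smul_eq_mul]
        rw [← Finset.mul_sum]
        have : ∑ i, C.w i = 2 * h := hwt
        rw [this]
        ring }
  · simp only [Fintype.card_prod, Fintype.card_fin, hV]
    ring

end Vale.Agent.P065
end
end
end

section

section

section

/-!
P065, T6: the base configuration (8 lines, 9 used halving vertices) and the trivial
configuration (2 lines, 1 used vertex).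
-/

namespace Vale.Agent.P065

/-- centered integer slopes of the base configuration -/
def baseA : Fin 8 → ℤ := ![17, -143, -7, -95, 105, 33, -15, 105]

/-- the base configuration -/
noncomputable def baseC : Cfg (Fin 8) (Fin 9) where
  m := ![17, -143, -7, -95, 105, 33, -15, 105]
  t := ![25, 36, 20, 31, 0, 13, 23, 36]
  w := fun _ => 1
  σ := fun _ => 0
  q := ![0, 0, 0, 3, 3, 5, 3, 5, 5]
  p := ![2, 6, 7, 1, 2, 2, 6, 4, 6]
  x := ![-5/24, -1/16, -1/8, 5/48, 1/8, 7/40, 1/10, 13/72, 5/24]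
  y := ![515/24, 383/16, 183/8, 1013/48, 153/8, 751/40, 43/2, 455/24, 159/8]

/-- heights of the lines of the base configuration above its used vertices -/
def baseT : Fin 9 → Fin 8 → ℚ :=
  ![![0, 133/3, 0, 88/3, -130/3, -46/3, 14/3, -22/3],
    ![0, 21, -7/2, 13, -61/2, -13, 0, 11/2],
    ![0, 31, -2, 20, -36, -14, 2, 0],
    ![17/3, 0, -11/6, 0, -61/6, -14/3, 1/3, 155/6],
    ![8, -1, 0, 0, -6, -2, 2, 30],
    ![46/5, -39/5, 0, -22/5, -2/5, 0, 8/5, 178/5],
    ![26/5, 1/5, -11/5, 0, -11, -26/5, 0, 25],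
    ![82/9, -79/9, -2/9, -46/9, 0, 0, 4/3, 36],
    ![26/3, -41/3, -4/3, -26/3, 2, 0, 0, 38]]

theorem baseH (v : Fin 9) (k : Fin 8) : baseC.H v k = (baseT v k : ℝ) := by
  fin_cases v <;> fin_cases k <;> (clear * -; norm_num [Cfg.H, baseC, baseT])

theorem sg_cast (q : ℚ) : sg (q : ℝ) = if 0 < q then 1 else if q < 0 then -1 else 0 := by
  unfold sg
  by_cases h1 : 0 < q
  · have : (0 : ℝ) < q := by exact_mod_cast h1
    simp [h1, this]
  · have h1' : ¬ (0 : ℝ) < q := by exact_mod_cast h1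
    by_cases h2 : q < 0
    · have : (q : ℝ) < 0 := by exact_mod_cast h2
      simp [h1, h1', h2, this]
    · have h2' : ¬ (q : ℝ) < 0 := by exact_mod_cast h2
      simp [h1, h1', h2, h2']

theorem baseT_q (v : Fin 9) : baseT v (baseC.q v) = 0 := by
  fin_cases v <;> rfl

theorem baseT_p (v : Fin 9) : baseT v (baseC.p v) = 0 := by
  fin_cases v <;> rfl

theorem baseT_off (v : Fin 9) (k : Fin 8) (h1 : k ≠ baseC.q v) (h2 : k ≠ baseC.p v) :
    1 ≤ 5 * |baseT v k| := by
  revert h1 h2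
  fin_cases v <;> fin_cases k <;>
    simp [baseC, baseT, abs_of_pos, abs_of_neg, div_eq_mul_inv] <;> norm_num

theorem baseT_off' (v : Fin 9) (k : Fin 8) (h1 : k ≠ baseC.q v) (h2 : k ≠ baseC.p v) :
    1 ≤ 5 * |baseC.H v k| := by
  rw [baseH]
  exact_mod_cast baseT_off v k h1 h2

theorem baseT_bal (v : Fin 9) :
    ∑ k : Fin 8, (if 0 < baseT v k then (1 : ℤ) else if baseT v k < 0 then -1 else 0) = 0 := by
  fin_cases v <;> simp [Fin.sum_univ_succ, baseT] <;> norm_num

theorem baseA_eq (k : Fin 8) : baseC.m k = (baseA k : ℝ) := by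
  fin_cases k <;> norm_num [baseC, baseA]

theorem baseC_ne (v : Fin 9) : baseC.Δ v ≠ 0 := by
  have h : ∀ v : Fin 9, baseA ((![2, 6, 7, 1, 2, 2, 6, 4, 6] : Fin 9 → Fin 8) v) ≠
     baseA ((![0, 0, 0, 3, 3, 5, 3, 5, 5] : Fin 9 → Fin 8) v) := by decide
  unfold Cfg.Δ
  rw [baseA_eq, baseA_eq, sub_ne_zero]
  exact_mod_cast h v

theorem baseC_good : baseC.Good where
  on_q v := by rw [baseH, baseT_q]; simp
  on_p v := by rw [baseH, baseT_p]; simp
  ne := baseC_ne
  w_q _ := rfl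
  w_p _ := rfl
  bip v v' := by
    have : ∀ v v' : Fin 9, (![0, 0, 0, 3, 3, 5, 3, 5, 5] : Fin 9 → Fin 8) v ≠
      (![2, 6, 7, 1, 2, 2, 6, 4, 6] : Fin 9 → Fin 8) v' := by decide
    exact this v v'
  inj v v' := by
    have : ∀ v v' : Fin 9, (![0, 0, 0, 3, 3, 5, 3, 5, 5] : Fin 9 → Fin 8) v =
      (![0, 0, 0, 3, 3, 5, 3, 5, 5] : Fin 9 → Fin 8) v' →
      (![2, 6, 7, 1, 2, 2, 6, 4, 6] : Fin 9 → Fin 8) v =
      (![2, 6, 7, 1, 2, 2, 6, 4, 6] : Fin 9 → Fin 8) v' → v = v' := by decide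
    exact this v v'
  off v k h1 h2 h := by
    have := baseT_off' v k h1 h2
    rw [h] at this
    norm_num at this
  bal v := by
    have h : ∀ k, ((baseC.w k : ℤ)) * sg (baseC.H v k) =
        if 0 < baseT v k then (1 : ℤ) else if baseT v k < 0 then -1 else 0 := by
      intro k
      rw [baseH, sg_cast]
      simp only [baseC, Fin.isValue, one_div, Nat.cast_one, Int.reduceNeg, mul_ite, mul_one, mul_neg, mul_zero]
    rw [Finset.sum_congr rfl fun k _ => h k]
    exact baseT_bal v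

/-- the base integer configuration: 8 lines, 9 used halving vertices -/
theorem IC_base : IC 4 3 9 143 36 5 := by
  refine ⟨Fin 8, Fin 9, inferInstance, inferInstance, baseC, baseA, baseC_good, ?_, ?_, ?_, ?_,
    ?_, ?_, baseT_off', ?_, ?_, ?_⟩
  · exact baseA_eq
  · decide
  · simp only [baseC, Fin.isValue, one_div, Nat.cast_one, baseA, Int.reduceNeg, one_mul, Fin.sum_univ_succ, Matrix.cons_val_zero, Matrix.cons_val_succ, Finset.univ_unique, Fin.default_eq_zero, Matrix.cons_val_fin_one, Finset.sum_const, Finset.card_singleton, Int.nsmul_eq_mul, Int.reduceAdd, add_neg_cancel]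
  · intro k
    fin_cases k <;> norm_num [baseC, abs_of_pos]
  · intro v
    fin_cases v <;> norm_num [baseC, abs_of_pos, abs_of_neg]
  · intro v
    fin_cases v <;> norm_num [baseC, abs_of_pos, abs_of_neg]
  · intro k
    classical
    have : ∀ k : Fin 8, (Finset.univ.filter
      (fun v => (![0, 0, 0, 3, 3, 5, 3, 5, 5] : Fin 9 → Fin 8) v = k)).card ≤ 3 := by decide
    refine le_trans (le_of_eq ?_) (this k)
    unfold Cfg.deg
    congr
  · simp only [Cfg.wt, baseC, Fin.isValue, one_div, Finset.sum_const, Finset.card_univ, Fintype.card_fin, smul_eq_mul, mul_one, Nat.reduceMul]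
  · simp

/-- two lines of slopes `0` and `1` through the origin -/
def trivC : Cfg (Fin 2) (Fin 1) where
  m := ![0, 1]
  t := fun _ => 0
  w := fun _ => 1
  σ := fun _ => 1
  q := fun _ => 0
  p := fun _ => 1
  x := fun _ => 0
  y := fun _ => 0

theorem trivC_cases (k : Fin 2) : k = 0 ∨ k = 1 := by
  revert k; decide

/-- the trivial configuration -/
theorem RC_trivial : RC 2 1 1 1 1 1 1 1 := by
  have hoff : ∀ (v : Fin 1) (k : Fin 2), k ≠ trivC.q v → k ≠ trivC.p v → False := by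
    intro v k h1 h2
    rcases trivC_cases k with h | h
    · exact h1 h
    · exact h2 h
  refine ⟨Fin 2, Fin 1, inferInstance, inferInstance, trivC, ?_, ?_, ?_, ?_, ?_, ?_, ?_⟩
  · constructor
    · intro v; simp [Cfg.H, trivC]
    · intro v; simp [Cfg.H, trivC]
    · intro v; simp [Cfg.Δ, trivC]
    · intro v; rfl
    · intro v; rfl
    · intro v v'; simp [trivC]
    · intro v v' _ _; exact Subsingleton.elim _ _
    · intro v k h1 h2; exact (hoff v k h1 h2).elim
    · intro v; simp [Cfg.H, trivC, sg]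
  · constructor
    · intro k; simp [trivC]
    · intro v; simp only [trivC, Fin.isValue, zero_lt_one]
    · intro v; rfl
    · intro v; simp [trivC, Cfg.Δ]
    · intro v; simp [trivC, Cfg.Δ]
    · intro v k h1 h2; exact (hoff v k h1 h2).elim
    · intro v k h1 h2; exact (hoff v k h1 h2).elim
    · intro v k h1 h2; exact (hoff v k h1 h2).elim
    · intro v v' h; exact (h rfl).elim
  · constructor
    · intro k; rcases trivC_cases k with h | h <;> simp [h, trivC]
    · intro k; simp [trivC]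
    · intro k; simp [trivC]
  · intro k
    unfold Cfg.deg
    refine le_trans (Finset.card_le_univ _) ?_
    simp
  · simp [Cfg.wt, trivC]
  · simp
  · intro v; simp [trivC]

end Vale.Agent.P065
end
end
end

section

section

section

/-!
P065, T8: padding, final replication, and the last hypothesis of the asymptotics.
-/

namespace Vale.Agent.P065

/-- there is a good configuration of total weight `N` with `V` used vertices -/
def GC (N V : ℕ) : Prop :=
  ∃ (ι υ : Type) (_ : Fintype ι) (_ : Fintype υ) (C : Cfg ι υ),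
    C.Good ∧ C.wt = N ∧ Fintype.card υ = V

/-- two horizontal lines added far above and far below -/
def Cfg.pad {ι υ : Type} (C : Cfg ι υ) (M : ℝ) : Cfg (ι ⊕ Bool) υ where
  m := Sum.elim C.m (fun _ => 0)
  t := Sum.elim C.t (fun b => cond b M (-M))
  w := Sum.elim C.w (fun _ => 1)
  σ := Sum.elim C.σ (fun _ => 0)
  q := fun v => Sum.inl (C.q v)
  p := fun v => Sum.inl (C.p v)
  x := C.x
  y := C.y

theorem Cfg.pad_H_true {ι υ : Type} (C : Cfg ι υ) (M : ℝ) (v : υ) :
    (C.pad M).H v (Sum.inr true) = M - C.y v := by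
  simp [Cfg.H, Cfg.pad]

theorem Cfg.pad_H_false {ι υ : Type} (C : Cfg ι υ) (M : ℝ) (v : υ) :
    (C.pad M).H v (Sum.inr false) = -M - C.y v := by
  simp [Cfg.H, Cfg.pad]

theorem Cfg.Good.pad {ι υ : Type} [Fintype ι] {C : Cfg ι υ} (hC : C.Good) {M : ℝ}
    (hM : ∀ v, |C.y v| < M) : (C.pad M).Good := by
  have h1 : ∀ v, 0 < M - C.y v := fun v => by have := (abs_lt.1 (hM v)).2; linarith
  have h2 : ∀ v, -M - C.y v < 0 := fun v => by have := (abs_lt.1 (hM v)).1; linarith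
  refine ⟨fun v => hC.on_q v, fun v => hC.on_p v, fun v => hC.ne v, fun v => hC.w_q v,
    fun v => hC.w_p v, fun v v' h => hC.bip v v' (Sum.inl_injective h),
    fun v v' h h' => hC.inj v v' (Sum.inl_injective h) (Sum.inl_injective h'), ?_, ?_⟩
  · rintro v (k | b) hq hp
    · exact hC.off v k (fun h => hq (congrArg Sum.inl h)) (fun h => hp (congrArg Sum.inl h))
    · cases b
      · rw [Cfg.pad_H_false]; exact (h2 v).ne
      · rw [Cfg.pad_H_true]; exact (h1 v).ne'
  · intro v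
    have e : ∑ k, ((C.pad M).w (Sum.inl k) : ℤ) * sg ((C.pad M).H v (Sum.inl k)) = 0 := hC.bal v
    rw [Fintype.sum_sum_type, e, Fintype.sum_bool, Cfg.pad_H_true, Cfg.pad_H_false,
      sg_of_pos (h1 v), sg_of_neg (h2 v)]
    simp only [Cfg.pad, Sum.elim_inr, Nat.cast_one, mul_one, Int.reduceNeg, mul_neg, add_neg_cancel, add_zero]

theorem GC.pad {N V : ℕ} (h : GC N V) : GC (N + 2) V := by
  obtain ⟨ι, υ, _, _, C, hC, hN, hV⟩ := h
  refine ⟨ι ⊕ Bool, υ, inferInstance, inferInstance, C.pad (1 + ∑ v, |C.y v|), hC.pad ?_, ?_, hV⟩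
  · intro v
    have : |C.y v| ≤ ∑ v, |C.y v| :=
      Finset.single_le_sum (f := fun v => |C.y v|) (fun i _ => abs_nonneg _) (Finset.mem_univ v)
    linarith only [this]
  · have e : ∑ k, (C.pad (1 + ∑ v, |C.y v|)).w (Sum.inl k) = N := hN
    simp only [Cfg.wt] at hN ⊢
    rw [Fintype.sum_sum_type, e, Fintype.sum_bool]
    simp only [Cfg.pad, neg_add_rev, Sum.elim_inr, Nat.reduceAdd, Nat.add_left_cancel_iff]

theorem GC.pad_le {N V n : ℕ} (h : GC N V) (hNn : N ≤ n) (hN : Even N) (hn : Even n) : GC n V := by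
  obtain ⟨k, hk⟩ : ∃ k, n = N + 2 * k := by
    obtain ⟨a, ha⟩ := hN
    obtain ⟨b, hb⟩ := hn
    exact ⟨b - a, by omega⟩
  subst hk
  clear hn hNn hN
  induction k with
  | zero => simpa using h
  | succ k ih => exact ih.pad

theorem RC.gc {N d V : ℕ} {r S T s B : ℝ} (h : RC N d V r S T s B) : GC N V := by
  obtain ⟨ι, υ, _, _, C, hC, _, _, _, hN, hV, _⟩ := h
  exact ⟨ι, υ, inferInstance, inferInstance, C, hC, hN, hV⟩

/-- final replication -/
theorem gc_rep {h D V A : ℕ} {B Γ : ℝ} (hIC : IC h D V A B Γ) (hh : 1 ≤ h) (hA : 1 ≤ A)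
    (hB : 1 ≤ B) (hΓ : 1 ≤ Γ) {Y : ℕ} (hY : 1 ≤ Y) :
    GC (8 * h * (3 * Y + 2 * A + 1)) ((2 * Y + 1) * V) := by
  obtain ⟨κ, ν, βQ, βP, _, _, _, _, G, hG, hcard, hdeg⟩ :=
    lattice_gadget hIC hh hA hB hΓ (X := 1) (Y := Y) le_rfl hY
  have h1 := (RC_product RC_trivial one_pos le_rfl le_rfl le_rfl one_pos le_rfl G hG hdeg).gc
  have e1 : 2 * (2 * (1 * Y * (2 * h) + 2 * (h * (2 * (Y + A * 1) + 1)) * 1))
      = 8 * h * (3 * Y + 2 * A + 1) := by ring
  have e2 : 1 * Fintype.card ν = (2 * Y + 1) * V := by rw [hcard]; ring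
  rw [e1, e2] at h1
  exact h1

/-- a good configuration of total weight 2 has at most one used vertex -/
theorem Cfg.Good.card_le_one {ι υ : Type} [Fintype ι] [Fintype υ] {C : Cfg ι υ} (hC : C.Good)
    (hw : C.wt = 2) : Fintype.card υ ≤ 1 := by
  classical
  have key : ∀ a b c : ι, a ≠ b → a ≠ c → b ≠ c → C.w a = 1 → C.w b = 1 → C.w c = 1 → False := by
    intro a b c hab hac hbc ha hb hc
    have h1 : ∑ k ∈ ({a, b, c} : Finset ι), C.w k ≤ ∑ k, C.w k :=
      Finset.sum_le_sum_of_subset (Finset.subset_univ _)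
    rw [Finset.sum_insert (by simp [hab, hac]), Finset.sum_insert (by simp [hbc]),
      Finset.sum_singleton, ha, hb, hc] at h1
    have h2 : ∑ k, C.w k = 2 := hw
    omega
  rw [Fintype.card_le_one_iff]
  intro v v'
  apply hC.inj
  · by_contra hne
    exact key (C.q v) (C.q v') (C.p v) hne (hC.bip v v) (hC.bip v' v) (hC.w_q v) (hC.w_q v')
      (hC.w_p v)
  · by_contra hne
    exact key (C.q v) (C.p v) (C.p v') (hC.bip v v) (hC.bip v v') hne (hC.w_q v) (hC.w_p v)
      (hC.w_p v')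

/-- the last hypothesis of the asymptotics -/
theorem final_rep : ∃ c : ℕ, ∀ (P D : ℕ) (x : ℝ), 1 ≤ P → 1 ≤ x → IC' P D x →
    ∀ n : ℕ, Even n → P ^ c ≤ n → ∃ V, GC n V ∧ x * n / 24 ≤ V := by
  refine ⟨12, ?_⟩
  intro P D x hP hx hIC' n hn hPn
  obtain ⟨h, V, A, B, Γ, hIC, h1, hhP, A1, AP, B1, BP, Γ1, ΓP, hxV⟩ := hIC'
  rcases Nat.lt_or_ge P 2 with hP2 | hP2
  · exfalso
    have hh : h = 1 := by omega
    subst hh
    obtain ⟨ι, υ, _, _, C, a, hG, _, _, _, _, _, _, _, _, hwt, hV⟩ := hIC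
    have h3 := hG.card_le_one (by simpa using hwt)
    rw [hV] at h3
    have h4 : (V : ℝ) ≤ 1 := by exact_mod_cast h3
    push_cast at hxV
    linarith only [hx, h4, hxV]
  · have hn1 : 8 * h * (3 * A + 2 * A + 1) ≤ n := by
      have e1 : 8 * h * (3 * A + 2 * A + 1) ≤ 8 * P * (6 * P) := by
        apply Nat.mul_le_mul
        · omega
        · omega
      have e2 : 8 * P * (6 * P) ≤ P ^ 12 := by
        have e3 : 2 ^ 10 ≤ P ^ 10 := Nat.pow_le_pow_left hP2 10
        calc 8 * P * (6 * P) = 48 * P ^ 2 := by ring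
          _ ≤ P ^ 10 * P ^ 2 := Nat.mul_le_mul_right _ (by omega)
          _ = P ^ 12 := by ring
      omega
    -- the maximal multiplicity
    obtain ⟨Y, hY1, hY2⟩ : ∃ Y, 8 * h * (3 * Y + 2 * A + 1) ≤ n ∧
        n < 8 * h * (3 * (Y + 1) + 2 * A + 1) := by
      have hb : ∃ Y, n < 8 * h * (3 * (Y + 1) + 2 * A + 1) := by
        refine ⟨n, ?_⟩
        calc n < 1 * (3 * (n + 1) + 2 * A + 1) := by omega
          _ ≤ 8 * h * (3 * (n + 1) + 2 * A + 1) := Nat.mul_le_mul_right _ (by omega)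
      classical
      refine ⟨Nat.find hb, ?_, Nat.find_spec hb⟩
      by_contra hcon
      push Not at hcon
      rcases Nat.eq_zero_or_pos (Nat.find hb) with h0 | h0
      · rw [h0] at hcon
        have : 8 * h * (3 * 0 + 2 * A + 1) ≤ 8 * h * (3 * A + 2 * A + 1) :=
          Nat.mul_le_mul_left _ (by omega)
        omega
      · apply Nat.find_min hb (Nat.sub_lt h0 one_pos)
        rw [show Nat.find hb - 1 + 1 = Nat.find hb from Nat.sub_add_cancel h0]
        exact hcon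
    have hAY : A ≤ Y := by
      by_contra hcon
      have : 8 * h * (3 * (Y + 1) + 2 * A + 1) ≤ 8 * h * (3 * A + 2 * A + 1) :=
        Nat.mul_le_mul_left _ (by (clear * - hcon; omega))
      omega
    have hY0 : 1 ≤ Y := by omega
    refine ⟨(2 * Y + 1) * V, (gc_rep hIC h1 A1 B1 Γ1 hY0).pad_le hY1 ?_ hn, ?_⟩
    · exact ⟨4 * h * (3 * Y + 2 * A + 1), by ring⟩
    · have f1 : (n : ℝ) ≤ 8 * h * (3 * (Y + 1) + 2 * A + 1) := by exact_mod_cast hY2.le
      have f2 : (A : ℝ) ≤ Y := by exact_mod_cast hAY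
      have f3 : (1 : ℝ) ≤ h := by exact_mod_cast h1
      have f4 : (1 : ℝ) ≤ Y := by exact_mod_cast hY0
      have f5 : (n : ℝ) ≤ 24 * ((2 * Y + 1) * (2 * h)) := by
        refine f1.trans ?_
        have : (h : ℝ) * (3 * (Y + 1) + 2 * A + 1) ≤ h * (6 * (2 * Y + 1)) := by
          apply mul_le_mul_of_nonneg_left _ (by linarith only [])
          linarith only [f2]
        nlinarith only [this]
      have f6 : x * n / 24 ≤ (2 * Y + 1) * (x * (2 * h)) := by
        have := mul_le_mul_of_nonneg_left f5 (by linarith only [hx] : 0 ≤ x)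
        nlinarith only [this]
      push_cast
      refine f6.trans ?_
      exact mul_le_mul_of_nonneg_left hxV (by linarith only [])

end Vale.Agent.P065
end
end
end

section

section

section

/-!
P065, T3: rounding of the slopes of a real configuration to centered integers.
-/

namespace Vale.Agent.P065

theorem sg_eq_of_mul_pos {x y : ℝ} (h : 0 < x * y) : sg x = sg y := by
  unfold sg
  rcases pos_and_pos_or_neg_and_neg_of_mul_pos h with ⟨h1, h2⟩ | ⟨h1, h2⟩
  · rw [if_pos h1, if_pos h2]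
  · rw [if_neg (not_lt.mpr h1.le), if_neg (not_lt.mpr h2.le), if_pos h1, if_pos h2]

theorem round_aux {L D e B : ℝ} (hB : 0 < B) (he : |e| ≤ 4 * B) (h4 : 8 * B ≤ L * |D|)
    (hD : 0 < |D|) : 0 < (L * D - e) * D ∧ L * |D| / 2 ≤ |L * D - e| := by
  have h6 := abs_le.mp he
  rcases lt_or_gt_of_ne (abs_pos.mp hD) with hneg | hpos
  · rw [abs_of_neg hneg] at h4 ⊢
    have h7 : L * D - e < 0 := by linarith
    refine ⟨mul_pos_of_neg_of_neg h7 hneg, ?_⟩
    rw [abs_of_neg h7]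
    linarith only [h4, h6]
  · rw [abs_of_pos hpos] at h4 ⊢
    have h7 : 0 < L * D - e := by linarith
    refine ⟨mul_pos h7 hpos, ?_⟩
    rw [abs_of_pos h7]
    linarith only [h4, h6]

theorem round_aux2 {L D e : ℝ} (he : |e| ≤ 1) (h4 : 8 ≤ L * |D|) (hD : D ≠ 0) :
    0 < (L * D - e) * D := by
  have h6 := abs_le.mp he
  rcases lt_or_gt_of_ne hD with hneg | hpos
  · rw [abs_of_neg hneg] at h4
    exact mul_pos_of_neg_of_neg (by linarith) hneg
  · rw [abs_of_pos hpos] at h4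
    exact mul_pos (by linarith only [h4, h6]) hpos

variable {ι υ : Type}

/-- change the slopes of a configuration, keeping the intercepts -/
noncomputable def reslope (C : Cfg ι υ) (b : ι → ℤ) : Cfg ι υ where
  m := fun k => (b k : ℝ)
  t := C.t
  w := C.w
  σ := C.σ
  q := C.q
  p := C.p
  x := fun v => -(C.t (C.p v) - C.t (C.q v)) / ((b (C.p v) : ℝ) - b (C.q v))
  y := fun v => (b (C.q v) : ℝ) * (-(C.t (C.p v) - C.t (C.q v)) /
    ((b (C.p v) : ℝ) - b (C.q v))) + C.t (C.q v)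

theorem reslope_H (C : Cfg ι υ) (b : ι → ℤ) (v : υ) (k : ι)
    (hne : (b (C.p v) : ℝ) - b (C.q v) ≠ 0) :
    (reslope C b).H v k * ((b (C.p v) : ℝ) - b (C.q v)) =
      (C.t k - C.t (C.q v)) * ((b (C.p v) : ℝ) - b (C.q v)) -
        ((b k : ℝ) - b (C.q v)) * (C.t (C.p v) - C.t (C.q v)) := by
  simp only [reslope, Cfg.H]
  field_simp
  ring

theorem cfg_H_mul (C : Cfg ι υ) (v : υ) (e1 : C.H v (C.q v) = 0) (e2 : C.H v (C.p v) = 0) (k : ι) :
    C.H v k * C.Δ v =
      (C.t k - C.t (C.q v)) * C.Δ v - (C.m k - C.m (C.q v)) * (C.t (C.p v) - C.t (C.q v)) := by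
  simp only [Cfg.H, Cfg.Δ] at e1 e2 ⊢
  linear_combination (C.m (C.p v) - C.m (C.q v)) * e1 + (C.m k - C.m (C.q v)) * (e2 - e1)

/-- properties of rounded and scaled slopes at one used vertex -/
theorem reslope_vertex {h : ℕ} (C : Cfg ι υ) (a b : ι → ℤ) (f : ι → ℝ) {L B r s : ℝ}
    (hh : 1 ≤ (h : ℝ)) (hL : 0 < L) (hB : 1 ≤ B) (hLB : 1 ≤ L * B) (hr : 0 < r) (hs : 0 < s)
    (haf : ∀ k, (a k : ℝ) = L * C.m k - f k) (hfd : ∀ i j, |f i - f j| ≤ 1)
    (hbd : ∀ i j, (b i : ℝ) - b j = 2 * h * ((a i : ℝ) - a j))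
    (hm : ∀ k, |C.m k| ≤ B) (ht : ∀ k, |C.t k| ≤ B)
    (v : υ) (e1 : C.H v (C.q v) = 0) (e2 : C.H v (C.p v) = 0) (hLΔ : 8 ≤ L * |C.Δ v|)
    (hΔ : C.Δ v ≠ 0) (hD : ∀ k, k ≠ C.q v → k ≠ C.p v → r * s ^ 2 ≤ |C.H v k * C.Δ v|)
    (hLrs : 8 * B ≤ L * (r * s ^ 2)) :
    ((b (C.p v) : ℝ) - b (C.q v) ≠ 0) ∧ (1 ≤ |(a (C.p v) : ℝ) - a (C.q v)|) ∧
    ((reslope C b).H v (C.q v) = 0) ∧ ((reslope C b).H v (C.p v) = 0) ∧
    (∀ k, k ≠ C.q v → k ≠ C.p v → sg ((reslope C b).H v k) = sg (C.H v k)) ∧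
    (∀ k, k ≠ C.q v → k ≠ C.p v → 1 ≤ 6 * B / (r * s ^ 2) * |(reslope C b).H v k|) := by
  have hda : (a (C.p v) : ℝ) - a (C.q v) = L * C.Δ v - (f (C.p v) - f (C.q v)) := by
    rw [haf, haf]
    unfold Cfg.Δ
    ring
  have hsame : 0 < ((a (C.p v) : ℝ) - a (C.q v)) * C.Δ v := by
    rw [hda]
    exact round_aux2 (hfd _ _) hLΔ hΔ
  have hane : (a (C.p v) : ℝ) - a (C.q v) ≠ 0 := fun h0 => by
    rw [h0, zero_mul] at hsame
    exact lt_irrefl _ hsame
  have h2h : (0 : ℝ) < 2 * h := by linarith only [hh]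
  have hbne : (b (C.p v) : ℝ) - b (C.q v) ≠ 0 := by
    rw [hbd]
    exact mul_ne_zero h2h.ne' hane
  have haabs1 : 1 ≤ |(a (C.p v) : ℝ) - a (C.q v)| := by
    have h2 : a (C.p v) - a (C.q v) ≠ 0 := by
      intro h0
      apply hane
      exact_mod_cast h0
    have h3 := Int.one_le_abs h2
    have h4 : ((|a (C.p v) - a (C.q v)| : ℤ) : ℝ) = |(a (C.p v) : ℝ) - a (C.q v)| := by
      push_cast
      rfl
    rw [← h4]
    exact_mod_cast h3
  have haabs2 : |(a (C.p v) : ℝ) - a (C.q v)| ≤ 3 * (L * B) := by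
    rw [hda]
    have h2 := abs_sub (L * C.Δ v) (f (C.p v) - f (C.q v))
    have h3 : |L * C.Δ v| ≤ L * (2 * B) := by
      rw [abs_mul, abs_of_pos hL]
      refine mul_le_mul_of_nonneg_left ?_ hL.le
      unfold Cfg.Δ
      have := abs_sub (C.m (C.p v)) (C.m (C.q v))
      linarith only [this, hm (C.p v), hm (C.q v)]
    linarith only [hLB, h2, h3, hfd (C.p v) (C.q v)]
  have hH' : ∀ k, (reslope C b).H v k * ((a (C.p v) : ℝ) - a (C.q v)) =
      (C.t k - C.t (C.q v)) * ((a (C.p v) : ℝ) - a (C.q v)) -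
        ((a k : ℝ) - a (C.q v)) * (C.t (C.p v) - C.t (C.q v)) := fun k => by
    have h1 := reslope_H C b v k hbne
    rw [hbd, hbd] at h1
    have h2 : 2 * (h : ℝ) * ((reslope C b).H v k * ((a (C.p v) : ℝ) - a (C.q v))) =
        2 * (h : ℝ) * ((C.t k - C.t (C.q v)) * ((a (C.p v) : ℝ) - a (C.q v)) -
        ((a k : ℝ) - a (C.q v)) * (C.t (C.p v) - C.t (C.q v))) := by
      linear_combination h1
    exact mul_left_cancel₀ h2h.ne' h2
  have hrel : ∀ k, (reslope C b).H v k * ((a (C.p v) : ℝ) - a (C.q v)) =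
      L * (C.H v k * C.Δ v) - ((C.t k - C.t (C.q v)) * (f (C.p v) - f (C.q v)) -
        (f k - f (C.q v)) * (C.t (C.p v) - C.t (C.q v))) := fun k => by
    rw [hH', cfg_H_mul C v e1 e2, haf, haf, haf]
    unfold Cfg.Δ
    ring
  have htd : ∀ i j, |C.t i - C.t j| ≤ 2 * B := fun i j => by
    have := abs_sub (C.t i) (C.t j)
    linarith only [this, ht i, ht j]
  have herr : ∀ k, |(C.t k - C.t (C.q v)) * (f (C.p v) - f (C.q v)) -
        (f k - f (C.q v)) * (C.t (C.p v) - C.t (C.q v))| ≤ 4 * B := fun k => by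
    have h2 := abs_sub ((C.t k - C.t (C.q v)) * (f (C.p v) - f (C.q v)))
      ((f k - f (C.q v)) * (C.t (C.p v) - C.t (C.q v)))
    have h3 : |(C.t k - C.t (C.q v)) * (f (C.p v) - f (C.q v))| ≤ 2 * B * 1 := by
      rw [abs_mul]
      exact mul_le_mul (htd _ _) (hfd _ _) (abs_nonneg _) (by linarith only [hB])
    have h4 : |(f k - f (C.q v)) * (C.t (C.p v) - C.t (C.q v))| ≤ 1 * (2 * B) := by
      rw [abs_mul]
      exact mul_le_mul (hfd _ _) (htd _ _) (abs_nonneg _) (by norm_num)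
    linarith only [h2, h3, h4]
  have hrs : 0 < r * s ^ 2 := by positivity
  have hsgn : ∀ k, k ≠ C.q v → k ≠ C.p v →
      0 < ((reslope C b).H v k * ((a (C.p v) : ℝ) - a (C.q v))) * (C.H v k * C.Δ v) ∧
        L * |C.H v k * C.Δ v| / 2 ≤ |(reslope C b).H v k * ((a (C.p v) : ℝ) - a (C.q v))| :=
    fun k hk1 hk2 => by
    have h2 := hD k hk1 hk2
    rw [hrel k]
    exact round_aux (by linarith only [hB]) (herr k)
      (hLrs.trans (mul_le_mul_of_nonneg_left h2 hL.le)) (lt_of_lt_of_le hrs h2)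
  refine ⟨hbne, haabs1, ?_, ?_, ?_, ?_⟩
  · have h3 : (reslope C b).H v (C.q v) * ((a (C.p v) : ℝ) - a (C.q v)) = 0 := by
      rw [hH']
      ring
    exact (mul_eq_zero.mp h3).resolve_right hane
  · have h3 : (reslope C b).H v (C.p v) * ((a (C.p v) : ℝ) - a (C.q v)) = 0 := by
      rw [hH']
      ring
    exact (mul_eq_zero.mp h3).resolve_right hane
  · intro k hk1 hk2
    apply sg_eq_of_mul_pos
    have h2 := (hsgn k hk1 hk2).1
    have h4 : ((reslope C b).H v k * ((a (C.p v) : ℝ) - a (C.q v))) * (C.H v k * C.Δ v) =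
        ((reslope C b).H v k * C.H v k) * (((a (C.p v) : ℝ) - a (C.q v)) * C.Δ v) := by ring
    rw [h4] at h2
    exact (pos_iff_pos_of_mul_pos h2).mpr hsame
  · intro k hk1 hk2
    have h2 := (hsgn k hk1 hk2).2
    have h3 := hD k hk1 hk2
    rw [abs_mul ((reslope C b).H v k)] at h2
    have h4 : |(reslope C b).H v k| * |(a (C.p v) : ℝ) - a (C.q v)| ≤
        |(reslope C b).H v k| * (3 * (L * B)) :=
      mul_le_mul_of_nonneg_left haabs2 (abs_nonneg _)
    have h5 : L * (r * s ^ 2) ≤ L * |C.H v k * C.Δ v| := mul_le_mul_of_nonneg_left h3 hL.le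
    have h7 : L * (r * s ^ 2) ≤ L * (6 * B * |(reslope C b).H v k|) := by
      have : L * (6 * B * |(reslope C b).H v k|) =
        2 * (|(reslope C b).H v k| * (3 * (L * B))) := by ring
      linarith only [h2, h4, h5]
    have h6 : r * s ^ 2 ≤ 6 * B * |(reslope C b).H v k| := le_of_mul_le_mul_left h7 hL
    rw [div_mul_eq_mul_div, le_div_iff₀ hrs]
    linarith only [h6]

/-- existence of centered integer slopes close to the slopes `2 h L m` -/
theorem exists_slopes [Fintype ι] (w : ι → ℕ) (m : ι → ℝ) {h L : ℕ} {B : ℝ} (hB : 1 ≤ B)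
    (hL1 : (1 : ℝ) ≤ L) (hw : ∑ k, w k = 2 * h) (hm : ∀ k, |m k| ≤ B) :
    ∃ (a b : ι → ℤ) (f : ι → ℝ), (∀ k, (a k : ℝ) = L * m k - f k) ∧ (∀ i j, |f i - f j| ≤ 1) ∧
      (∀ i j, (b i : ℝ) - b j = 2 * h * ((a i : ℝ) - a j)) ∧
      (∀ k, |(b k : ℝ)| ≤ 8 * h * L * B) ∧ ∑ k, (w k : ℤ) * b k = 0 := by
  have hLpos : (0 : ℝ) < L := by linarith only [hL1]
  set a : ι → ℤ := fun k => ⌊(L : ℝ) * m k⌋ with ha
  set f : ι → ℝ := fun k => (L : ℝ) * m k - (a k : ℝ) with hf
  have hf0 : ∀ k, 0 ≤ f k := fun k => sub_nonneg.mpr (Int.floor_le _)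
  have hf1 : ∀ k, f k ≤ 1 := fun k => by
    have := (Int.lt_floor_add_one ((L : ℝ) * m k)).le
    simp only [hf, ha]
    linarith only [this]
  have haf : ∀ k, (a k : ℝ) = L * m k - f k := fun k => by simp [hf]
  have hLB : (1 : ℝ) ≤ L * B := by nlinarith only [hL1, hB]
  have habs : ∀ k, |(a k : ℝ)| ≤ 2 * L * B := fun k => by
    rw [haf]
    have h2 := abs_sub (L * m k) (f k)
    have h3 : |(L : ℝ) * m k| ≤ L * B := by
      rw [abs_mul, abs_of_pos hLpos]
      exact mul_le_mul_of_nonneg_left (hm k) hLpos.le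
    have h4 : |f k| ≤ 1 := by
      rw [abs_of_nonneg (hf0 k)]
      exact hf1 k
    linarith only [hLB, h2, h3, h4]
  have hwR : ∑ k, (w k : ℝ) = 2 * h := by exact_mod_cast hw
  set s0 : ℤ := ∑ j, (w j : ℤ) * a j with hs0
  have hs0abs : |(s0 : ℝ)| ≤ 2 * h * (2 * L * B) := by
    rw [hs0]
    push_cast
    calc |∑ j, (w j : ℝ) * (a j : ℝ)| ≤ ∑ j, |(w j : ℝ) * (a j : ℝ)| :=
          Finset.abs_sum_le_sum_abs _ _
      _ ≤ ∑ j, (w j : ℝ) * (2 * L * B) := by
          refine Finset.sum_le_sum fun j _ => ?_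
          rw [abs_mul, Nat.abs_cast]
          exact mul_le_mul_of_nonneg_left (habs j) (Nat.cast_nonneg _)
      _ = 2 * h * (2 * L * B) := by rw [← Finset.sum_mul, hwR]
  refine ⟨a, fun k => 2 * (h : ℤ) * a k - s0, f, haf, ?_, ?_, ?_, ?_⟩
  · intro i j
    rw [abs_le]
    constructor <;> linarith only [hf0 i, hf1 j, hf0 j, hf1 i]
  · intro i j
    push_cast
    ring
  · intro k
    push_cast
    have h2 := abs_sub (2 * h * (a k : ℝ)) (s0 : ℝ)
    have h3 : |2 * (h : ℝ) * (a k : ℝ)| ≤ 2 * h * (2 * L * B) := by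
      rw [abs_mul, abs_of_nonneg (by (clear * -; positivity) : (0 : ℝ) ≤ 2 * h)]
      exact mul_le_mul_of_nonneg_left (habs k) (by (clear * -; positivity))
    have h4 : 2 * (h : ℝ) * (2 * L * B) + 2 * h * (2 * L * B) = 8 * h * L * B := by ring
    linarith only [hs0abs, h2, h3]
  · have h2 : ∑ k, (w k : ℤ) * (2 * (h : ℤ) * a k - s0) =
        2 * (h : ℤ) * (∑ k, (w k : ℤ) * a k) - (∑ k, (w k : ℤ)) * s0 := by
      rw [Finset.mul_sum, Finset.sum_mul, ← Finset.sum_sub_distrib]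
      refine Finset.sum_congr rfl fun k _ => ?_
      ring
    have hwZ : ∑ k, (w k : ℤ) = 2 * h := by exact_mod_cast hw
    rw [h2, hwZ, ← hs0]
    ring

theorem RC_round {h d V : ℕ} {r S T s B : ℝ} (h1 : RC (2 * h) d V r S T s B) (hh : 1 ≤ h)
    (hr : 0 < r) (hr1 : r ≤ 1) (hs : 0 < s) (hB : 1 ≤ B) {L A : ℕ}
    (hL : 8 * B / (r * s ^ 2) ≤ L) (hA : 8 * h * L * B ≤ A) :
    IC h d V A (2 * A * B) (6 * B / (r * s ^ 2)) := by
  obtain ⟨ι, υ, iι, iυ, C, hG, hQ, hBd, hdeg, hwt, hcard, hsσ⟩ := h1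
  have hB0 : 0 < B := by linarith only [hB]
  have hrs : 0 < r * s ^ 2 := by positivity
  have hLpos : (0 : ℝ) < L := lt_of_lt_of_le (by positivity) hL
  have hL1 : (1 : ℝ) ≤ L := by
    have : 0 < L := by exact_mod_cast hLpos
    exact_mod_cast this
  have hh1 : (1 : ℝ) ≤ h := by exact_mod_cast hh
  have hLB : (1 : ℝ) ≤ L * B := by nlinarith only [hL1, hB]
  obtain ⟨a, b, f, haf, hfd, hbd, hbabs', hcen⟩ := exists_slopes C.w C.m hB hL1 hwt hBd.m
  have hbabs : ∀ k, |(b k : ℝ)| ≤ A := fun k => (hbabs' k).trans hA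
  have hA1 : (1 : ℝ) ≤ A := by
    have : (1 : ℝ) ≤ 8 * h * L * B := by
      nlinarith only [hh1, hLB]
    linarith only [hA, this]
  have hAB : B ≤ 2 * A * B := by nlinarith only [hB, hA1]
  have hLrs : 8 * B ≤ L * (r * s ^ 2) := by
    rw [div_le_iff₀ hrs] at hL
    exact hL
  have hsv : ∀ v, s ≤ |C.Δ v| := fun v => (hsσ v).trans (hQ.lo v)
  have hsB : ∀ v : υ, s ≤ B := fun v => (hsσ v).trans ((hBd.σ _))
  have hLs : ∀ v : υ, 8 ≤ (L : ℝ) * s := fun v => by
    have h2 : 8 * B / (r * s ^ 2) * s ≤ L * s := mul_le_mul_of_nonneg_right hL hs.le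
    have h3 : 8 * B / (r * s ^ 2) * s = 8 * (B / (r * s)) := by
      field_simp
    have h4 : 1 ≤ B / (r * s) := by
      rw [le_div_iff₀ (by positivity)]
      nlinarith only [hr1, hs, hsB v]
    linarith only [h2, h3, h4]
  have hLΔ : ∀ v, 8 ≤ (L : ℝ) * |C.Δ v| := fun v =>
    (hLs v).trans (mul_le_mul_of_nonneg_left (hsv v) hLpos.le)
  have hD : ∀ v k, k ≠ C.q v → k ≠ C.p v → r * s ^ 2 ≤ |C.H v k * C.Δ v| := fun v k hk1 hk2 => by
    rw [abs_mul]
    have h2 := hQ.h2 v k hk1 hk2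
    have h3 : r * s ≤ |C.H v k| :=
      (mul_le_mul_of_nonneg_left (hsσ v) hr.le).trans h2
    calc r * s ^ 2 = (r * s) * s := by ring
      _ ≤ |C.H v k| * |C.Δ v| := mul_le_mul h3 (hsv v) hs.le (abs_nonneg _)
  have key := fun v => reslope_vertex C a b f hh1 hLpos hB hLB hr hs haf hfd hbd hBd.m hBd.t v
    (hG.on_q v) (hG.on_p v) (hLΔ v) (hG.ne v) (hD v) hLrs
  have hxB : ∀ v, |(reslope C b).x v| ≤ B := fun v => by
    show |-(C.t (C.p v) - C.t (C.q v)) / ((b (C.p v) : ℝ) - b (C.q v))| ≤ B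
    rw [abs_div, abs_neg, hbd, abs_mul, abs_of_nonneg (by positivity : (0 : ℝ) ≤ 2 * h)]
    have h2 := abs_sub (C.t (C.p v)) (C.t (C.q v))
    have h3 : |C.t (C.p v) - C.t (C.q v)| ≤ 2 * B := by
      linarith only [h2, hBd.t (C.p v), hBd.t (C.q v)]
    have h4 : 2 ≤ 2 * (h : ℝ) * |(a (C.p v) : ℝ) - a (C.q v)| := by
      nlinarith only [hh1, (key v).2.1]
    rw [div_le_iff₀ (by linarith only [h4])]
    nlinarith only [h3, h4, hB]
  refine ⟨ι, υ, iι, iυ, reslope C b, b, ?_, fun k => rfl, ?_, hcen, ?_, ?_, ?_, ?_, ?_, hwt,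
    hcard⟩
  · refine ⟨fun v => (key v).2.2.1, fun v => (key v).2.2.2.1, fun v => (key v).1, hG.w_q, hG.w_p,
      hG.bip, hG.inj, ?_, ?_⟩
    · intro v k hk1 hk2 h0
      have := (key v).2.2.2.2.2 k hk1 hk2
      rw [h0, abs_zero, mul_zero] at this
      linarith only [this]
    · intro v
      rw [← hG.bal v]
      refine Finset.sum_congr rfl fun k _ => ?_
      show (C.w k : ℤ) * sg ((reslope C b).H v k) = (C.w k : ℤ) * sg (C.H v k)
      by_cases hk1 : k = C.q v
      · rw [hk1, (key v).2.2.1, hG.on_q]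
      · by_cases hk2 : k = C.p v
        · rw [hk2, (key v).2.2.2.1, hG.on_p]
        · rw [(key v).2.2.2.2.1 k hk1 hk2]
  · intro k
    have h2 := hbabs k
    have h4 : ((|b k| : ℤ) : ℝ) = |(b k : ℝ)| := by
      push_cast
      rfl
    rw [← h4] at h2
    exact_mod_cast h2
  · intro k
    exact (hBd.t k).trans hAB
  · intro v
    exact (hxB v).trans hAB
  · intro v
    show |(b (C.q v) : ℝ) * (reslope C b).x v + C.t (C.q v)| ≤ 2 * A * B
    have h2 := abs_add_le ((b (C.q v) : ℝ) * (reslope C b).x v) (C.t (C.q v))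
    have h3 : |(b (C.q v) : ℝ) * (reslope C b).x v| ≤ A * B := by
      rw [abs_mul]
      exact mul_le_mul (hbabs _) (hxB v) (abs_nonneg _) (by (clear * - hA1; positivity))
    have h4 := hBd.t (C.q v)
    nlinarith only [h2, h3, h4, hB, hA1]
  · intro v k hk1 hk2
    exact (key v).2.2.2.2.2 k hk1 hk2
  · intro k
    exact hdeg k

end Vale.Agent.P065
end
end
end

section

section

section

/-!
P065: stronger asymptotic bookkeeping.  The amplification step with growing powers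
`k_j = 64 * c ^ j` gives the lower bound `n ^ (1 + exp (-C * √(log log n)))`.
-/

namespace Vale.Agent.P065

open Filter

/-- The accumulated powers: `mm c (j + 1) = 64 * c ^ j * mm c j`. -/
def mm (c : ℕ) : ℕ → ℕ
  | 0 => 1
  | j + 1 => 64 * c ^ j * mm c j

lemma mm_pos {c : ℕ} (hc : 1 ≤ c) (j : ℕ) : 1 ≤ mm c j := by
  induction j with
  | zero => exact le_rfl
  | succ j ih =>
    have h1 : 1 ≤ c ^ j := Nat.one_le_pow _ _ hc
    exact Nat.succ_le_of_lt (by
      have : 0 < 64 * c ^ j * mm c j := by positivity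
      exact this)

lemma pow_sq_le {c : ℕ} (hc : 1 ≤ c) (j : ℕ) : c ^ (j ^ 2) ≤ (c ^ j * mm c j) ^ 2 := by
  induction j with
  | zero => simp only [ne_eq, OfNat.ofNat_ne_zero, not_false_eq_true, zero_pow, pow_zero, mm, mul_one, one_pow, Std.le_refl]
  | succ j ih =>
    have e1 : c ^ (j + 1) * mm c (j + 1) = 64 * c ^ (j + 1) * (c ^ j * mm c j) := by
      simp only [mm]; ring
    rw [e1, mul_pow, mul_pow]
    have e2 : c ^ ((j + 1) ^ 2) = c ^ (2 * j + 1) * c ^ (j ^ 2) := by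
      rw [← pow_add]; congr 1; ring
    rw [e2]
    apply Nat.mul_le_mul _ ih
    calc c ^ (2 * j + 1) ≤ c ^ (2 * (j + 1)) := Nat.pow_le_pow_right hc (by omega)
      _ = (c ^ (j + 1)) ^ 2 := by rw [← pow_mul]; congr 1; ring
      _ = 1 * (c ^ (j + 1)) ^ 2 := (one_mul _).symm
      _ ≤ 64 ^ 2 * (c ^ (j + 1)) ^ 2 := Nat.mul_le_mul_right _ (by norm_num)

variable {Q : ℕ → ℕ → ℝ → Prop}

/-- The iterated amplification. -/
theorem iterate_step
    (mono : ∀ (P P' D D' : ℕ) (x x' : ℝ), Q P D x → P ≤ P' → D ≤ D' → x' ≤ x → Q P' D' x')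
    {P0 D0 : ℕ} (base : Q P0 D0 (9 / 8)) {c : ℕ} (hc : 1 ≤ c)
    (step : ∀ (K P D k : ℕ) (x : ℝ), 1 ≤ K → 1 ≤ P → 1 ≤ D → 1 ≤ k → 1 ≤ x → Q P D x →
      (8 * K * D) ^ k ≤ P → 1024 ≤ P → 8 * K ≤ P →
      Q (P ^ (c * k)) ((8 * K * D) ^ k) ((x / (1 + 1 / (K : ℝ))) ^ k / 2)) :
    ∃ A : ℕ, 3 ≤ A ∧ ∀ j : ℕ, ∃ D : ℕ, Q (A ^ (c ^ j * mm c j)) D (Real.exp (mm c j / 36)) := by
  obtain ⟨G, hG⟩ : ∃ G : ℕ, G = 128 ^ 2 * (D0 + 1) * (P0 + 1) := ⟨_, rfl⟩
  have hG1 : 16384 ≤ G := by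
    rw [hG]
    have : 1 ≤ (D0 + 1) * (P0 + 1) := Nat.succ_le_of_lt (by positivity)
    rw [mul_assoc]; omega
  have hGpos : 1 ≤ G := by omega
  refine ⟨G ^ 64, ?_, ?_⟩
  · calc 3 ≤ G := by omega
      _ = G ^ 1 := (pow_one _).symm
      _ ≤ G ^ 64 := Nat.pow_le_pow_right hGpos (by norm_num)
  -- the invariant
  have inv : ∀ j : ℕ, ∃ (D : ℕ) (y : ℝ), 1 ≤ D ∧ 128 ^ 2 * D ≤ G ^ mm c j ∧
      (mm c j + 1) / 36 ≤ y ∧ Q ((G ^ 64) ^ (c ^ j * mm c j)) D (17 / 16 * Real.exp y) := by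
    intro j
    induction j with
    | zero =>
      refine ⟨D0 + 1, Real.log (18 / 17), by omega, ?_, ?_, ?_⟩
      · simp only [mm, pow_one]
        rw [hG]
        exact Nat.le_mul_of_pos_right _ (by omega)
      · simp only [mm]
        have := Real.one_sub_inv_le_log_of_pos (show (0 : ℝ) < 18 / 17 by norm_num)
        norm_num at this ⊢
        linarith only [this]
      · rw [Real.exp_log (by norm_num)]
        refine mono _ _ _ _ _ _ base ?_ (by omega) (by norm_num)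
        simp only [mm, pow_zero, mul_one, pow_one]
        calc P0 ≤ G := by
              rw [hG]
              calc P0 ≤ 1 * (P0 + 1) := by omega
                _ ≤ 128 ^ 2 * (D0 + 1) * (P0 + 1) :=
                  Nat.mul_le_mul_right _ (Nat.succ_le_of_lt (by positivity))
          _ = G ^ 1 := (pow_one _).symm
          _ ≤ G ^ 64 := Nat.pow_le_pow_right hGpos (by norm_num)
    | succ j ih =>
      obtain ⟨D, y, hD1, hD, hy, hQ⟩ := ih
      have hmm := mm_pos hc j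
      have hcj : 1 ≤ c ^ j := Nat.one_le_pow _ _ hc
      obtain ⟨k, hk⟩ : ∃ k : ℕ, k = 64 * c ^ j := ⟨_, rfl⟩
      have hk64 : 64 ≤ k := by rw [hk]; omega
      have hmk : mm c (j + 1) = k * mm c j := by rw [hk]; rfl
      have h128 : 8 * 16 * D ≤ G ^ mm c j := by
        refine le_trans ?_ hD
        norm_num
        omega
      have hsmall : (8 * 16 * D) ^ k ≤ (G ^ 64) ^ (c ^ j * mm c j) := by
        calc (8 * 16 * D) ^ k ≤ (G ^ mm c j) ^ k := Nat.pow_le_pow_left h128 k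
          _ = (G ^ 64) ^ (c ^ j * mm c j) := by
            rw [← pow_mul, ← pow_mul, hk]
            congr 1
            ring
      have hbig : 16384 ≤ (G ^ 64) ^ (c ^ j * mm c j) := by
        calc 16384 ≤ G := hG1
          _ = G ^ 1 := (pow_one _).symm
          _ ≤ G ^ (64 * (c ^ j * mm c j)) := by
            apply Nat.pow_le_pow_right hGpos
            have : 0 < 64 * (c ^ j * mm c j) := by positivity
            omega
          _ = (G ^ 64) ^ (c ^ j * mm c j) := pow_mul _ _ _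
      have hypos : 0 < y := lt_of_lt_of_le (by positivity) hy
      have hx1 : 1 ≤ 17 / 16 * Real.exp y := by
        have := Real.add_one_le_exp y
        linarith only [hypos, this]
      have h2 := step 16 _ D k _ (by norm_num) (by omega) hD1 (by omega) hx1 hQ hsmall
        (by omega) (by omega)
      refine ⟨(8 * 16 * D) ^ k, k * y - Real.log (17 / 8), ?_, ?_, ?_, ?_⟩
      · exact Nat.one_le_pow _ _ (by omega)
      · rw [hmk]
        have e1 : (128 ^ 2 * D) ^ k = (8 * 16 * D) ^ k * 128 ^ k := by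
          rw [← mul_pow]; congr 1; ring
        have e2 : (128 : ℕ) ^ 2 ≤ 128 ^ k := Nat.pow_le_pow_right (by norm_num) (by omega)
        calc 128 ^ 2 * (8 * 16 * D) ^ k ≤ 128 ^ k * (8 * 16 * D) ^ k := Nat.mul_le_mul_right _ e2
          _ = (128 ^ 2 * D) ^ k := by rw [e1, mul_comm]
          _ ≤ (G ^ mm c j) ^ k := Nat.pow_le_pow_left hD k
          _ = G ^ (k * mm c j) := by rw [← pow_mul, mul_comm]
      · rw [hmk]
        have h3 := Real.log_le_sub_one_of_pos (show (0 : ℝ) < 17 / 8 by norm_num)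
        have hkR : (64 : ℝ) ≤ k := by exact_mod_cast hk64
        push_cast
        have h4 : (k : ℝ) * ((mm c j + 1) / 36) ≤ k * y :=
          mul_le_mul_of_nonneg_left hy (by linarith only [])
        have h5 : (k : ℝ) * ((mm c j + 1) / 36) = k * mm c j / 36 + k / 36 := by ring
        linarith only [h3, hkR, h4]
      · refine mono _ _ _ _ _ _ h2 (le_of_eq ?_) le_rfl (le_of_eq ?_)
        · rw [hmk, hk]
          rw [← pow_mul]
          congr 1
          ring
        · have e1 : (17 / 16 * Real.exp y) / (1 + 1 / ((16 : ℕ) : ℝ)) = Real.exp y := by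
            push_cast
            field_simp
            ring
          rw [e1, ← Real.exp_nat_mul, Real.exp_sub, Real.exp_log (by norm_num)]
          ring
  intro j
  obtain ⟨D, y, -, -, hy, hQ⟩ := inv j
  refine ⟨D, mono _ _ _ _ _ _ hQ le_rfl le_rfl ?_⟩
  have h1 : Real.exp (mm c j / 36) ≤ Real.exp y := by
    apply Real.exp_le_exp.2
    refine le_trans ?_ hy
    have : ((mm c j : ℝ) + 1) / 36 = mm c j / 36 + 1 / 36 := by ring
    linarith only []
  have h2 : 0 < Real.exp y := Real.exp_pos y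
  linarith only [h1, h2]

/-- The lower bound `n ^ (1 + exp (-C * √(log log n)))` from an abstract amplification step. -/
theorem asymptotics2 (f : ℕ → ℕ)
    (mono : ∀ (P P' D D' : ℕ) (x x' : ℝ), Q P D x → P ≤ P' → D ≤ D' → x' ≤ x → Q P' D' x')
    {P0 D0 : ℕ} (base : Q P0 D0 (9 / 8))
    (step : ∃ c : ℕ, ∀ (K P D k : ℕ) (x : ℝ), 1 ≤ K → 1 ≤ P → 1 ≤ D → 1 ≤ k → 1 ≤ x → Q P D x →
      (8 * K * D) ^ k ≤ P → 1024 ≤ P → 8 * K ≤ P →
      Q (P ^ (c * k)) ((8 * K * D) ^ k) ((x / (1 + 1 / (K : ℝ))) ^ k / 2))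
    (final : ∃ c : ℕ, ∀ (P D : ℕ) (x : ℝ), 1 ≤ P → 1 ≤ x → Q P D x → ∀ n : ℕ, Even n →
      P ^ c ≤ n → x * n / 24 ≤ f n) :
    ∃ (C : ℝ) (N : ℕ), 0 < C ∧ ∀ n : ℕ, N ≤ n → Even n →
      (n : ℝ) ^ (1 + Real.exp (-(C * Real.sqrt (Real.log (Real.log n))))) ≤ f n := by
  obtain ⟨c0, step⟩ := step
  obtain ⟨c1, final⟩ := final
  obtain ⟨c, hc⟩ : ∃ c : ℕ, c = c0 + 2 := ⟨_, rfl⟩
  have hc2 : 2 ≤ c := by omega
  have step' : ∀ (K P D k : ℕ) (x : ℝ), 1 ≤ K → 1 ≤ P → 1 ≤ D → 1 ≤ k → 1 ≤ x → Q P D x →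
      (8 * K * D) ^ k ≤ P → 1024 ≤ P → 8 * K ≤ P →
      Q (P ^ (c * k)) ((8 * K * D) ^ k) ((x / (1 + 1 / (K : ℝ))) ^ k / 2) := by
    intro K P D k x hK hP hD hk hx hQ h1 h2 h3
    refine mono _ _ _ _ _ _ (step K P D k x hK hP hD hk hx hQ h1 h2 h3) ?_ le_rfl le_rfl
    exact Nat.pow_le_pow_right hP (Nat.mul_le_mul_right _ (by omega))
  obtain ⟨A, hA, hQ⟩ := iterate_step mono base (by omega : 1 ≤ c) step'
  have hA1 : 1 ≤ A := by omega
  have hcpos : 0 < Real.log c := Real.log_pos (by exact_mod_cast (by omega : 1 < c))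
  have hlogA : 1 ≤ Real.log A := by
    rw [Real.le_log_iff_exp_le (by exact_mod_cast (by omega : 0 < A))]
    have h1 := Real.exp_one_lt_d9
    have h2 : (3 : ℝ) ≤ A := by exact_mod_cast hA
    linarith only [h1, h2]
  obtain ⟨L, hL⟩ : ∃ L : ℝ, L = 64 * (c1 + 1) * c * Real.log A := ⟨_, rfl⟩
  have hLpos : 0 < L := by rw [hL]; (clear * - hc2 hlogA; positivity)
  obtain ⟨C1, hC1⟩ : ∃ C1 : ℝ, C1 = Real.sqrt (8 * Real.log c) := ⟨_, rfl⟩
  have hC1nn : 0 ≤ C1 := by rw [hC1]; positivity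
  have hlog24 : 0 < Real.log 24 := Real.log_pos (by norm_num)
  have tend : Tendsto (fun n : ℕ => Real.sqrt (Real.log (Real.log n))) atTop atTop :=
    Real.tendsto_sqrt_atTop.comp (Real.tendsto_log_atTop.comp
      (Real.tendsto_log_atTop.comp tendsto_natCast_atTop_atTop))
  have ev : ∀ᶠ w : ℝ in atTop, C1 + 1 ≤ w ∧ 72 * L * (1 + Real.log 24) ≤ Real.exp w :=
    (eventually_ge_atTop _).and (Real.tendsto_exp_atTop.eventually_ge_atTop _)
  obtain ⟨N, hN⟩ := eventually_atTop.1 (tend.eventually ev)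
  -- the thresholds
  obtain ⟨T, hT⟩ : ∃ T : ℕ → ℕ, T = fun j => A ^ ((c1 + 1) * (c ^ j * mm c j)) := ⟨_, rfl⟩
  refine ⟨C1 + 1, N + T 0 + 2, by linarith only [hC1nn], fun n hn heven => ?_⟩
  obtain ⟨hw1, hw2⟩ := hN n (by omega)
  obtain ⟨w, hw⟩ : ∃ w : ℝ, w = Real.sqrt (Real.log (Real.log n)) := ⟨_, rfl⟩
  rw [← hw] at hw1 hw2 ⊢
  obtain ⟨t, ht⟩ : ∃ t : ℝ, t = Real.log n := ⟨_, rfl⟩
  have hwpos : 0 < w := by linarith only [hC1nn, hw1]
  have hspos : 0 < Real.log t := by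
    rw [ht]
    exact Real.sqrt_pos.1 (by rw [← hw]; exact hwpos)
  have hn0 : (0 : ℝ) < n := by exact_mod_cast (by omega : 0 < n)
  have htpos : 0 < t := by
    have : 0 ≤ t := by
      rw [ht]
      exact Real.log_natCast_nonneg n
    rcases this.lt_or_eq with h | h
    · exact h
    · rw [← h] at hspos
      simp at hspos
  have hwsq : w ^ 2 = Real.log t := by
    rw [hw, ← ht]; exact Real.sq_sqrt hspos.le
  have hnt : (n : ℝ) = Real.exp t := by rw [ht, Real.exp_log hn0]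
  -- the choice of `j`
  have hex : ∃ j, n < T j := by
    refine ⟨n, ?_⟩
    rw [hT]
    dsimp only
    have h1 : n < c ^ n := Nat.lt_pow_self (by omega)
    have h2 : c ^ n ≤ (c1 + 1) * (c ^ n * mm c n) := by
      calc c ^ n = 1 * (c ^ n * 1) := by ring
        _ ≤ (c1 + 1) * (c ^ n * mm c n) :=
          Nat.mul_le_mul (by omega) (Nat.mul_le_mul_left _ (mm_pos (by omega) n))
    have h3 : (c1 + 1) * (c ^ n * mm c n) < A ^ ((c1 + 1) * (c ^ n * mm c n)) :=
      Nat.lt_pow_self (by omega)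
    omega
  classical
  obtain ⟨j, hj1, hj2⟩ : ∃ j, T j ≤ n ∧ n < T (j + 1) := by
    have h0 : Nat.find hex ≠ 0 := by
      intro h
      have := Nat.find_spec hex
      rw [h] at this
      omega
    obtain ⟨j, hj⟩ := Nat.exists_eq_succ_of_ne_zero h0
    refine ⟨j, ?_, ?_⟩
    · have := Nat.find_min hex (m := j) (by omega)
      omega
    · have := Nat.find_spec hex
      rwa [hj] at this
  obtain ⟨M, hM⟩ : ∃ M : ℝ, M = mm c j := ⟨_, rfl⟩
  have hM1 : 1 ≤ M := by rw [hM]; exact_mod_cast mm_pos (by omega : 1 ≤ c) j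
  obtain ⟨D, hQj⟩ := hQ j
  -- logarithms of the thresholds
  have logT : ∀ i, Real.log (T i) = (c1 + 1) * ((c : ℝ) ^ i * mm c i) * Real.log A := by
    intro i
    rw [hT]
    push_cast
    rw [Real.log_pow]
    push_cast
    ring
  have hTpos : ∀ i, (0 : ℝ) < T i := by
    intro i
    rw [hT]
    have : 0 < A ^ ((c1 + 1) * (c ^ i * mm c i)) := by positivity
    exact_mod_cast this
  have hlow : (c1 + 1) * ((c : ℝ) ^ j * M) * Real.log A ≤ t := by
    rw [hM, ← logT, ht]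
    exact Real.log_le_log (hTpos j) (by exact_mod_cast hj1)
  have hupp : t ≤ L * ((c : ℝ) ^ (2 * j) * M) := by
    have h1 : t ≤ Real.log (T (j + 1)) := by
      rw [ht]
      exact Real.log_le_log hn0 (by exact_mod_cast hj2.le)
    rw [logT] at h1
    have h2 : ((mm c (j + 1) : ℕ) : ℝ) = 64 * (c : ℝ) ^ j * M := by
      rw [hM]
      simp only [mm]
      push_cast
      ring
    rw [h2] at h1
    refine h1.trans (le_of_eq ?_)
    rw [hL, two_mul, pow_add]
    ring
  -- bound for `j`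
  have hcjM : (c : ℝ) ^ j * M ≤ t := by
    have h1 : (0 : ℝ) ≤ (c : ℝ) ^ j * M := by (clear * - hc2 hM1; positivity)
    have h2 : (c : ℝ) ^ j * M ≤ (c1 + 1) * ((c : ℝ) ^ j * M) := by
      have : (0 : ℝ) ≤ c1 := by (clear * -; positivity)
      nlinarith only [h1]
    have h3 : (c1 + 1) * ((c : ℝ) ^ j * M) ≤ (c1 + 1) * ((c : ℝ) ^ j * M) * Real.log A := by
      have : 0 ≤ ((c1 : ℝ) + 1) * ((c : ℝ) ^ j * M) := by (clear * - hc2 hM1; positivity)
      nlinarith only [hlogA, h1, h2]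
    linarith only [hlow, h2, h3]
  have hj3 : (j : ℝ) ^ 2 * Real.log c ≤ 2 * w ^ 2 := by
    have h1 := pow_sq_le (by omega : 1 ≤ c) j
    have h2 : (c : ℝ) ^ (j ^ 2) ≤ ((c : ℝ) ^ j * M) ^ 2 := by
      rw [hM]
      exact_mod_cast h1
    have h3 : (c : ℝ) ^ (j ^ 2) ≤ t ^ 2 :=
      h2.trans (pow_le_pow_left₀ (by (clear * - hc2 hM1; positivity)) hcjM 2)
    have h4 := Real.log_le_log (by positivity) h3
    rw [Real.log_pow, Real.log_pow] at h4
    push_cast at h4
    rw [hwsq]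
    exact h4
  have hcj : (c : ℝ) ^ (2 * j) ≤ Real.exp (C1 * w) := by
    have h1 : (c : ℝ) ^ (2 * j) = Real.exp (2 * j * Real.log c) := by
      have hc0 : (0 : ℝ) < c := by exact_mod_cast (by omega : 0 < c)
      conv_lhs => rw [← Real.exp_log hc0]
      rw [← Real.exp_nat_mul]
      push_cast
      rfl
    rw [h1]
    apply Real.exp_le_exp.2
    apply le_of_sq_le_sq _ (by (clear * - hC1nn hwpos; positivity))
    have h2 : (C1 * w) ^ 2 = 8 * Real.log c * w ^ 2 := by
      rw [mul_pow, hC1, Real.sq_sqrt (by positivity)]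
    rw [h2]
    nlinarith only [hcpos, hj3]
  -- the lower bound for the exponent
  have hMlow : t * Real.exp (-(C1 * w)) / L ≤ M := by
    rw [div_le_iff₀ hLpos]
    have h1 : t ≤ L * (Real.exp (C1 * w) * M) := by
      refine hupp.trans ?_
      apply mul_le_mul_of_nonneg_left _ hLpos.le
      exact mul_le_mul_of_nonneg_right hcj (by linarith only [hM1])
    have h2 : Real.exp (C1 * w) * Real.exp (-(C1 * w)) = 1 := by
      rw [← Real.exp_add]; simp
    have h3 : 0 < Real.exp (-(C1 * w)) := Real.exp_pos _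
    calc t * Real.exp (-(C1 * w)) ≤ L * (Real.exp (C1 * w) * M) * Real.exp (-(C1 * w)) :=
          mul_le_mul_of_nonneg_right h1 h3.le
      _ = M * L * (Real.exp (C1 * w) * Real.exp (-(C1 * w))) := by ring
      _ = M * L := by rw [h2, mul_one]
  have hexpw : 72 * L ≤ Real.exp w := by
    have : 0 < 72 * L * Real.log 24 := by positivity
    linarith only [hw2, this]
  have hexpw2 : 72 * L * Real.log 24 ≤ Real.exp w := by
    have : 0 < 72 * L := by positivity
    linarith only [hLpos, hw2]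
  have hmain1 : t * Real.exp (-((C1 + 1) * w)) ≤ t * Real.exp (-(C1 * w)) / L / 72 := by
    have h1 : Real.exp (-((C1 + 1) * w)) = Real.exp (-(C1 * w)) * Real.exp (-w) := by
      rw [← Real.exp_add]; congr 1; ring
    have h2 : Real.exp (-w) ≤ 1 / (72 * L) := by
      rw [Real.exp_neg, ← one_div]
      exact one_div_le_one_div_of_le (by positivity) hexpw
    rw [h1]
    have h3 : 0 < t * Real.exp (-(C1 * w)) := by (clear * - htpos; positivity)
    calc t * (Real.exp (-(C1 * w)) * Real.exp (-w)) = t * Real.exp (-(C1 * w)) * Real.exp (-w) := by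
          ring
      _ ≤ t * Real.exp (-(C1 * w)) * (1 / (72 * L)) := mul_le_mul_of_nonneg_left h2 h3.le
      _ = t * Real.exp (-(C1 * w)) / L / 72 := by (clear * - hLpos htpos; field_simp)
  have hmain2 : Real.log 24 ≤ t * Real.exp (-(C1 * w)) / L / 72 := by
    have h1 : t = Real.exp (w ^ 2) := by rw [hwsq, Real.exp_log htpos]
    have h2 : t * Real.exp (-(C1 * w)) = Real.exp (w ^ 2 - C1 * w) := by
      rw [h1, ← Real.exp_add]; congr 1
    have h3 : Real.exp w ≤ Real.exp (w ^ 2 - C1 * w) := by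
      apply Real.exp_le_exp.2
      nlinarith only [hw1, hC1nn]
    rw [h2, div_div, le_div_iff₀ (by positivity)]
    calc Real.log 24 * (L * 72) = 72 * L * Real.log 24 := by ring
      _ ≤ Real.exp w := hexpw2
      _ ≤ _ := h3
  have hmain : t * Real.exp (-((C1 + 1) * w)) + Real.log 24 ≤ M / 36 := by
    have : t * Real.exp (-(C1 * w)) / L / 72 + t * Real.exp (-(C1 * w)) / L / 72 =
        t * Real.exp (-(C1 * w)) / L / 36 := by ring
    linarith only [hMlow, hmain1, hmain2]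
  -- conclusion
  have hx1 : 1 ≤ Real.exp (M / 36) := by
    rw [← Real.exp_zero]
    apply Real.exp_le_exp.2
    (clear * - hM1; positivity)
  rw [← hM] at hQj
  have hfin := final _ D _ (Nat.one_le_pow _ _ hA1) hx1 hQj n heven (by
    rw [← pow_mul]
    refine le_trans ?_ hj1
    rw [hT]
    dsimp only
    apply Nat.pow_le_pow_right hA1
    rw [mul_comm]
    exact Nat.mul_le_mul_right _ (by omega))
  refine le_trans ?_ hfin
  have e1 : (n : ℝ) ^ (1 + Real.exp (-((C1 + 1) * w))) =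
      n * Real.exp (t * Real.exp (-((C1 + 1) * w))) := by
    rw [Real.rpow_add hn0, Real.rpow_one, Real.rpow_def_of_pos hn0, ← ht]
  have e2 : Real.exp (M / 36) * n / 24 = n * Real.exp (M / 36 - Real.log 24) := by
    rw [Real.exp_sub, Real.exp_log (by norm_num)]
    ring
  rw [e1, e2]
  apply mul_le_mul_of_nonneg_left _ hn0.le
  apply Real.exp_le_exp.2
  linarith only [hMlow, hmain1, hmain2]

end Vale.Agent.P065
end
end
end

section

section

section

/-!
P065: assembly of the lower bounds for `h(n)` and `e_k(n)`.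
-/

namespace Vale.Agent.P065

theorem IC'_mono (P P' D D' : ℕ) (x x' : ℝ) (h : IC' P D x) (hP : P ≤ P') (hD : D ≤ D')
    (hx : x' ≤ x) : IC' P' D' x' := by
  obtain ⟨h, V, A, B, Γ, hIC, h1, h2, h3, h4, h5, h6, h7, h8, h9⟩ := h
  have hPr : (P : ℝ) ≤ P' := by exact_mod_cast hP
  obtain ⟨ι, υ, i1, i2, C, a, hG, ha, hA, hc, ht, hx1, hy1, hΓ, hd, hw, hV⟩ := hIC
  refine ⟨h, V, A, B, Γ, ⟨ι, υ, i1, i2, C, a, hG, ha, hA, hc, ht, hx1, hy1, hΓ,
    fun k => (hd k).trans hD, hw, hV⟩, h1, h2.trans hP, h3, h4.trans hP, h5, h6.trans hPr, h7,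
    h8.trans hPr, le_trans ?_ h9⟩
  exact mul_le_mul_of_nonneg_right hx (by positivity)

theorem IC'_base : IC' 143 3 (9 / 8) :=
  ⟨4, 9, 143, 36, 5, IC_base, by norm_num, by norm_num, by norm_num, by norm_num, by norm_num,
    by norm_num, by norm_num, by norm_num, by norm_num⟩

theorem IC'_step : ∃ c : ℕ, ∀ (K P D k : ℕ) (x : ℝ), 1 ≤ K → 1 ≤ P → 1 ≤ D → 1 ≤ k → 1 ≤ x →
    IC' P D x → (8 * K * D) ^ k ≤ P → 1024 ≤ P → 8 * K ≤ P →
    IC' (P ^ (c * k)) ((8 * K * D) ^ k) ((x / (1 + 1 / (K : ℝ))) ^ k / 2) :=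
  ⟨131, fun _ _ _ _ _ hK _ hD hk hx hQ h1 h2 h3 =>
    meta_step productStmt (fun h h1 h2 h3 h4 _ _ h5 h6 => lattice_gadget h h1 h2 h3 h4 h5 h6)
      (fun h h1 h2 h3 h4 h5 _ _ h6 h7 => RC_round h h1 h2 h3 h4 h5 h6 h7) RC_trivial
      hK hD hk (by linarith only [hx]) hQ h1 h2 h3⟩

/-- the largest number of used vertices in a good configuration of total weight `n` -/
noncomputable def gmax (n : ℕ) : ℕ := sSup {V | GC n V}

theorem GC_le_hmax {n V : ℕ} (h : GC n V) : V ≤ hmax n := by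
  obtain ⟨ι, υ, _, _, C, hC, rfl, rfl⟩ := h
  exact hC.card_le_hmax

theorem bdd_GC (n : ℕ) : BddAbove {V | GC n V} := ⟨hmax n, fun _ h => GC_le_hmax h⟩

theorem GC_gmax {n : ℕ} (h : 0 < gmax n) : GC n (gmax n) := by
  have hne : {V | GC n V}.Nonempty := by
    by_contra hcon
    rw [Set.not_nonempty_iff_eq_empty] at hcon
    unfold gmax at h
    rw [hcon, csSup_empty] at h
    exact lt_irrefl _ h
  exact Nat.sSup_mem hne (bdd_GC n)

theorem gmax_le_hmax (n : ℕ) : gmax n ≤ hmax n := by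
  rcases Nat.eq_zero_or_pos (gmax n) with h | h
  · rw [h]; exact Nat.zero_le _
  · exact GC_le_hmax (GC_gmax h)

theorem gmax_lower : ∃ (C : ℝ) (N : ℕ), 0 < C ∧ ∀ n : ℕ, N ≤ n → Even n →
    (n : ℝ) ^ (1 + Real.exp (-(C * Real.sqrt (Real.log (Real.log n))))) ≤ gmax n := by
  refine asymptotics2 gmax IC'_mono IC'_base IC'_step ?_
  obtain ⟨c, hc⟩ := final_rep
  refine ⟨c, fun P D x hP hx hQ n hn hPn => ?_⟩
  obtain ⟨V, hV, hxV⟩ := hc P D x hP hx hQ n hn hPn
  refine hxV.trans ?_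
  exact_mod_cast le_csSup (bdd_GC n) hV

/-- lower bound for `h(n)` -/
theorem hmax_lower : ∃ (C : ℝ) (N : ℕ), 0 < C ∧ ∀ n : ℕ, N ≤ n → Even n →
    (n : ℝ) ^ (1 + Real.exp (-(C * Real.sqrt (Real.log (Real.log n))))) ≤ hmax n := by
  obtain ⟨C, N, hC, h⟩ := gmax_lower
  refine ⟨C, N, hC, fun n hn he => (h n hn he).trans ?_⟩
  exact_mod_cast gmax_le_hmax n

theorem mul_gmax_le_emax (k n t : ℕ) (h : 2 * k * t ≤ n) : t * gmax (2 * k) ≤ emax k n := by
  rcases Nat.eq_zero_or_pos (gmax (2 * k)) with h0 | h0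
  · rw [h0, mul_zero]; exact Nat.zero_le _
  · obtain ⟨ι, υ, _, _, C, hC, hw, hV⟩ := GC_gmax h0
    rw [← hV]
    exact hC.mul_card_le_emax hw h

/-- lower bound for `e_k(n)` -/
theorem emax_lower : ∃ (C : ℝ) (K : ℕ), 0 < C ∧ ∀ k n : ℕ, K ≤ k → 2 * k ≤ n →
    (n : ℝ) * (k : ℝ) ^ Real.exp (-(C * Real.sqrt (Real.log (Real.log k)))) ≤ emax k n :=
  ktransfer gmax emax gmax_lower mul_gmax_le_emax

end Vale.Agent.P065
end
end
end
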